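import Mathlib

/-! Small shared lemmas. -/

namespace Vale.Agent.P249

open Finset

theorem geom_range (p : ℝ) (hp : 1 ≤ p) (h : ℝ) (hh : 0 < h) (K : ℕ) :
    ∑ m ∈ range (K + 1), (h * 2 ^ m) ^ p ≤ 2 * (h * 2 ^ K) ^ p := by
  induction K with
  | zero =>
    simp only [zero_add, range_one, sum_singleton]
    have : 0 ≤ (h * 2 ^ 0) ^ p := Real.rpow_nonneg (by positivity) _
    linarith
  | succ K ih =>
    rw [sum_range_succ]
    have h2 : (2 : ℝ) ≤ 2 ^ p := by
      calc (2 : ℝ) = 2 ^ (1 : ℝ) := by simp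
        _ ≤ 2 ^ p := Real.rpow_le_rpow_of_exponent_le (by norm_num) hp
    have e : (h * 2 ^ (K + 1)) ^ p = 2 ^ p * (h * 2 ^ K) ^ p := by
      rw [← Real.mul_rpow (by norm_num) (by positivity)]
      congr 1
      ring
    have h0 : 0 ≤ (h * 2 ^ K) ^ p := Real.rpow_nonneg (by positivity) _
    rw [e]
    nlinarith

theorem geom_below (p : ℝ) (hp : 1 ≤ p) (h : ℝ) (hh : 0 < h) (y : ℝ) (hy : 0 ≤ y)
    (S : Finset ℕ) (hS : ∀ m ∈ S, h * 2 ^ m ≤ y) :
    ∑ m ∈ S, (h * 2 ^ m) ^ p ≤ 2 * y ^ p := by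
  rcases S.eq_empty_or_nonempty with rfl | hne
  · simp only [sum_empty]
    have := Real.rpow_nonneg hy p
    linarith
  · have hK := S.max'_mem hne
    have hsub : S ⊆ range (S.max' hne + 1) := fun m hm =>
      mem_range.2 (Nat.lt_succ_of_le (S.le_max' m hm))
    calc ∑ m ∈ S, (h * 2 ^ m) ^ p ≤ ∑ m ∈ range (S.max' hne + 1), (h * 2 ^ m) ^ p :=
          sum_le_sum_of_subset_of_nonneg hsub fun _ _ _ => Real.rpow_nonneg (by positivity) _
      _ ≤ 2 * (h * 2 ^ (S.max' hne)) ^ p := geom_range p hp h hh _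
      _ ≤ 2 * y ^ p := by
          have := Real.rpow_le_rpow (by positivity) (hS _ hK) (by linarith : (0 : ℝ) ≤ p)
          linarith

theorem mcshane {α : Type*} [PseudoMetricSpace α] (f : α → ℝ) (s : Set α) (K : ℝ) (hK : 0 ≤ K)
    (hf : ∀ x ∈ s, ∀ y ∈ s, |f x - f y| ≤ K * dist x y) :
    ∃ g : α → ℝ, (∀ x y, |g x - g y| ≤ K * dist x y) ∧ ∀ x ∈ s, g x = f x := by
  have h1 : LipschitzOnWith ⟨K, hK⟩ f s := by
    refine LipschitzOnWith.of_dist_le_mul fun x hx y hy => ?_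
    rw [Real.dist_eq]
    exact hf x hx y hy
  obtain ⟨g, hg, he⟩ := h1.extend_real
  refine ⟨g, fun x y => ?_, fun x hx => (he hx).symm⟩
  have := hg.dist_le_mul x y
  rw [Real.dist_eq] at this
  exact this

theorem abs_Lp_sub_le {κ : Type*} [Fintype κ] (p : ℝ) (hp : 1 ≤ p) (u v : κ → ℝ) :
    |(∑ k, |u k| ^ p) ^ (1 / p) - (∑ k, |v k| ^ p) ^ (1 / p)| ≤
      (∑ k, |u k - v k| ^ p) ^ (1 / p) := by
  rw [abs_le]
  constructor
  · have := Real.Lp_add_le univ u (fun k => v k - u k) hp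
    simp only [add_sub_cancel] at this
    have e : ∑ k, |v k - u k| ^ p = ∑ k, |u k - v k| ^ p :=
      sum_congr rfl fun k _ => by rw [abs_sub_comm]
    rw [e] at this
    linarith
  · have := Real.Lp_add_le univ v (fun k => u k - v k) hp
    simp only [add_sub_cancel] at this
    linarith

/-- Jensen for a sub-probability vector. -/
theorem subprob_jensen {V : Type*} [Fintype V] (p : ℝ) (hp : 1 ≤ p) (π a : V → ℝ)
    (hπ : ∀ v, 0 ≤ π v) (hs : ∑ v, π v ≤ 1) (ha : ∀ v, 0 ≤ a v) :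
    (∑ v, π v * a v) ^ p ≤ ∑ v, π v * a v ^ p := by
  have key := Real.rpow_arith_mean_le_arith_mean_rpow (univ : Finset (Option V))
    (fun o => o.elim (1 - ∑ v, π v) π) (fun o => o.elim 0 a)
    (fun o _ => by cases o <;> simp [hπ, hs])
    (by simp [Fintype.sum_option])
    (fun o _ => by cases o <;> simp [ha]) hp
  have hp0 : p ≠ 0 := by linarith
  simpa [Fintype.sum_option, Real.zero_rpow hp0] using key

end Vale.Agent.P249
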