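import Mathlib

/-! A finite product channel imitating the Gaussian channel. -/

namespace Vale.Agent.P249

open Finset

lemma channel_weier {J : Type*} (s : Finset J) (a : J → ℝ) (h0 : ∀ j, 0 ≤ a j)
    (h1 : ∀ j, a j ≤ 1) : 1 - ∑ j ∈ s, a j ≤ ∏ j ∈ s, (1 - a j) := by
  classical
  induction s using Finset.induction_on with
  | empty => simp
  | insert j s hj ih =>
    rw [sum_insert hj, prod_insert hj]
    have h2 : 0 ≤ ∑ j ∈ s, a j := sum_nonneg fun j _ => h0 j
    have h3 := mul_le_mul_of_nonneg_left ih (by linarith [h1 j] : 0 ≤ 1 - a j)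
    nlinarith [h0 j]

lemma channel_cos_le {t : ℝ} (ht : |t| ≤ 1) : Real.cos t ≤ Real.exp (-(t ^ 2) / 5) := by
  have h1 := Real.cos_le_one_sub_mul_cos_sq (x := t) (ht.trans (by linarith [Real.pi_gt_three]))
  have h2 := Real.add_one_le_exp (-(t ^ 2) / 5)
  have h3 : Real.pi ^ 2 ≤ 10 := by nlinarith [Real.pi_lt_d2, Real.pi_pos]
  have h4 : 1 / 5 ≤ 2 / Real.pi ^ 2 := by
    rw [div_le_div_iff₀ (by norm_num) (by positivity)]; linarith
  nlinarith [sq_nonneg t]

/-- Unit vectors with positive entries whose inner products behave like a Gaussian kernel. -/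
theorem channel {β : Type*} {I : Type} [Fintype β] [Fintype I] (u : β → I → ℝ) :
    ∃ (V : Type) (_ : Fintype V) (ψ : β → V → ℝ), (∀ b v, 0 < ψ b v) ∧
      (∀ b, ∑ v, ψ b v ^ 2 = 1) ∧
      (∀ b b', 1 - (∑ i, (u b i - u b' i) ^ 2) / 2 ≤ ∑ v, ψ b v * ψ b' v) ∧
      (∀ b b', ∑ v, ψ b v * ψ b' v ≤ Real.exp (-(∑ i, (u b i - u b' i) ^ 2) / 5)) := by
  classical
  obtain ⟨M, hM⟩ : ∃ M : ℕ, ∀ b i, |u b i| ≤ M := by
    obtain ⟨M, hM⟩ := exists_nat_ge (∑ b, ∑ i, |u b i|)
    refine ⟨M, fun b i => le_trans ?_ hM⟩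
    exact (single_le_sum (f := fun i => |u b i|) (fun _ _ => abs_nonneg _) (mem_univ i)).trans
      (single_le_sum (f := fun b => ∑ i, |u b i|)
        (fun _ _ => sum_nonneg fun _ _ => abs_nonneg _) (mem_univ b))
  set R : ℕ := 4 * M + 4 with hR
  have hR0 : (0 : ℝ) < R := by positivity
  have hsm : ∀ b i, |u b i / R| ≤ 1 / 4 := by
    intro b i
    rw [abs_div, abs_of_pos hR0, div_le_iff₀ hR0, hR]
    push_cast; linarith [hM b i]
  let th : β → I → ℝ := fun b i => Real.pi / 4 + u b i / R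
  let f : β → I × Fin (R ^ 2) → Bool → ℝ :=
    fun b j e => if e then Real.cos (th b j.1) else Real.sin (th b j.1)
  have key : ∀ b b', ∑ v : I × Fin (R ^ 2) → Bool, (∏ j, f b j (v j)) * (∏ j, f b' j (v j))
      = ∏ j : I × Fin (R ^ 2), Real.cos ((u b j.1 - u b' j.1) / R) := by
    intro b b'
    simp_rw [← prod_mul_distrib]
    rw [← Fintype.piFinset_univ, ← prod_univ_sum (t := fun _ => univ)
      (f := fun j e => f b j e * f b' j e)]
    refine prod_congr rfl fun j _ => ?_
    have : (u b j.1 - u b' j.1) / R = th b j.1 - th b' j.1 := by simp only [th]; ring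
    rw [this, Real.cos_sub]
    simp [f]
  have hd : ∀ b b' i, |(u b i - u b' i) / R| ≤ 1 / 2 := by
    intro b b' i
    rw [sub_div]
    exact (abs_sub _ _).trans (by linarith [hsm b i, hsm b' i])
  have hsum : ∀ b b' (c : ℝ), ∑ j : I × Fin (R ^ 2), ((u b j.1 - u b' j.1) / R) ^ 2 * c
      = (∑ i, (u b i - u b' i) ^ 2) * c := by
    intro b b' c
    rw [Fintype.sum_prod_type, sum_mul]
    refine sum_congr rfl fun i _ => ?_
    simp only [sum_const, card_univ, Fintype.card_fin, nsmul_eq_mul]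
    push_cast
    field_simp
  refine ⟨I × Fin (R ^ 2) → Bool, inferInstance, fun b v => ∏ j, f b j (v j), ?_, ?_, ?_, ?_⟩
  · intro b v
    refine prod_pos fun j _ => ?_
    have h1 := abs_le.1 (hsm b j.1)
    have h2 := Real.pi_gt_three
    simp only [f]
    split_ifs
    · exact Real.cos_pos_of_mem_Ioo ⟨by simp only [th]; linarith, by simp only [th]; linarith⟩
    · exact Real.sin_pos_of_pos_of_lt_pi (by simp only [th]; linarith) (by simp only [th]; linarith)
  · intro b
    simp_rw [sq]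
    rw [key]; simp
  · intro b b'
    rw [key]
    have h1 := channel_weier univ
      (fun j : I × Fin (R ^ 2) => ((u b j.1 - u b' j.1) / R) ^ 2 * (1 / 2))
      (fun j => by positivity) (fun j => by
        have := hd b b' j.1
        have h2 : ((u b j.1 - u b' j.1) / R) ^ 2 ≤ (1 / 2) ^ 2 := by
          rw [← sq_abs]; exact pow_le_pow_left₀ (abs_nonneg _) this 2
        linarith)
    rw [hsum] at h1
    refine le_trans (by linarith) (h1.trans (prod_le_prod (fun j _ => ?_) fun j _ => ?_))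
    · have := hd b b' j.1
      have h2 : ((u b j.1 - u b' j.1) / R) ^ 2 ≤ (1 / 2) ^ 2 := by
        rw [← sq_abs]; exact pow_le_pow_left₀ (abs_nonneg _) this 2
      linarith
    · linarith [Real.one_sub_sq_div_two_le_cos (x := (u b j.1 - u b' j.1) / R)]
  · intro b b'
    rw [key]
    have h1 := hsum b b' (-1 / 5)
    have h2 : -(∑ i, (u b i - u b' i) ^ 2) / 5 = (∑ i, (u b i - u b' i) ^ 2) * (-1 / 5) := by ring
    rw [h2, ← h1, Real.exp_sum]
    refine prod_le_prod (fun j _ => ?_) fun j _ => ?_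
    · have h3 := abs_le.1 (hd b b' j.1)
      have h4 := Real.pi_gt_three
      exact (Real.cos_pos_of_mem_Ioo ⟨by linarith, by linarith⟩).le
    · refine (channel_cos_le ((hd b b' j.1).trans (by norm_num))).trans (le_of_eq ?_)
      congr 1; ring

end Vale.Agent.P249
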