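import Vale.Agent.P249.Kernel

/-! Pointwise upper gradients of the coordinates with small total `p`-mass. -/

namespace Vale.Agent.P249

open Finset

theorem gadget {α ι V : Type} [PseudoMetricSpace α] [Fintype ι] [Fintype V] (p : ℝ) (hp : 1 ≤ p)
    (F : ι → α → ℝ) (hd : ∀ x y, ∑ i, |F i x - F i y| ^ p = dist x y ^ p) (r : ℝ) (hr : 0 < r)
    (c : V → α) (π : α → V → ℝ) (h0 : ∀ z v, 0 ≤ π z v) (h1 : ∀ z, ∑ v, π z v ≤ 1) :
    ∃ l : ι → α → ℝ, (∀ i x, 0 ≤ l i x) ∧
      (∀ x, ∑ i, l i x ^ p ≤ (4 / r) ^ p * ∑ v, π x v * dist x (c v) ^ p) ∧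
      ∀ x y, 1 / 2 ≤ ∑ v, min (π x v) (π y v) → r / 2 ≤ dist x y →
        ∀ i, |F i x - F i y| ≤ (l i x + l i y) * dist x y := by
  have hnn : ∀ i x, 0 ≤ ∑ v, π x v * |F i x - F i (c v)| := fun i x =>
    sum_nonneg fun v _ => mul_nonneg (h0 _ _) (abs_nonneg _)
  refine ⟨fun i x => 4 / r * ∑ v, π x v * |F i x - F i (c v)|,
    fun i x => mul_nonneg (by positivity) (hnn i x), fun x => ?_, fun x y hxy hr2 i => ?_⟩
  · calc ∑ i, (4 / r * ∑ v, π x v * |F i x - F i (c v)|) ^ p
        ≤ ∑ i, (4 / r) ^ p * ∑ v, π x v * |F i x - F i (c v)| ^ p := by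
          refine sum_le_sum fun i _ => ?_
          rw [Real.mul_rpow (by positivity) (hnn i x)]
          exact mul_le_mul_of_nonneg_left
            (subprob_jensen p hp _ _ (h0 x) (h1 x) fun v => abs_nonneg _) (by positivity)
      _ = _ := by
          rw [← mul_sum, sum_comm]
          congr 1
          exact sum_congr rfl fun v _ => by rw [← mul_sum, hd]
  · have k1 : (∑ v, min (π x v) (π y v)) * |F i x - F i y| ≤
        ∑ v, π x v * |F i x - F i (c v)| + ∑ v, π y v * |F i y - F i (c v)| := by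
      rw [sum_mul, ← sum_add_distrib]
      refine sum_le_sum fun v _ => ?_
      have t : |F i x - F i y| ≤ |F i x - F i (c v)| + |F i y - F i (c v)| := by
        have := abs_sub_le (F i x) (F i (c v)) (F i y)
        rwa [abs_sub_comm (F i (c v))] at this
      have m0 : 0 ≤ min (π x v) (π y v) := le_min (h0 _ _) (h0 _ _)
      have m1 := mul_le_mul_of_nonneg_right (min_le_left (π x v) (π y v))
        (abs_nonneg (F i x - F i (c v)))
      have m2 := mul_le_mul_of_nonneg_right (min_le_right (π x v) (π y v))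
        (abs_nonneg (F i y - F i (c v)))
      nlinarith
    have a := hnn i x
    have b := hnn i y
    set A := ∑ v, π x v * |F i x - F i (c v)|
    set B := ∑ v, π y v * |F i y - F i (c v)|
    have k2 : |F i x - F i y| ≤ 2 * (A + B) := by nlinarith [abs_nonneg (F i x - F i y)]
    calc |F i x - F i y| ≤ 2 * (A + B) := k2
      _ = (4 / r * A + 4 / r * B) * (r / 2) := by field_simp; ring
      _ ≤ _ := mul_le_mul_of_nonneg_left hr2 (by positivity)

open Classical in
/-- Number of points in a closed ball. -/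
noncomputable def bc {α : Type} [PseudoMetricSpace α] [Fintype α] (x : α) (R : ℝ) : ℕ :=
  (univ.filter fun z => dist z x ≤ R).card

section bc
variable {α : Type} [PseudoMetricSpace α] [Fintype α]

theorem bc_pos (x : α) {R : ℝ} (hR : 0 ≤ R) : 0 < bc x R := by
  classical
  unfold bc
  exact card_pos.2 ⟨x, by simpa using hR⟩

theorem bc_le (x y : α) {R R' : ℝ} (h : R + dist x y ≤ R') : bc x R ≤ bc y R' := by
  classical
  unfold bc
  refine card_le_card fun z hz => ?_
  simp only [mem_filter, mem_univ, true_and] at hz ⊢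
  have := dist_triangle z x y
  linarith

theorem bc_mono (x : α) {R R' : ℝ} (h : R ≤ R') : bc x R ≤ bc x R' :=
  bc_le x x (by simpa using h)

theorem bc_le_card (x : α) (R : ℝ) : bc x R ≤ Fintype.card α := by
  classical
  unfold bc
  exact card_le_univ _

end bc

theorem geom_above (h y : ℝ) (hh : 0 < h) (hy : 0 ≤ y) (N : ℕ) :
    ∑ j ∈ range N, (if y ≤ h * 2 ^ j then y / (h * 2 ^ j) else 0) ≤ 2 := by
  have key : ∀ N : ℕ, ∑ j ∈ range N, (if y ≤ h * 2 ^ j then y / (h * 2 ^ j) else 0) ≤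
      2 - 2 * min 1 (y / (h * 2 ^ N)) := by
    intro N
    induction N with
    | zero =>
      have := min_le_left 1 (y / (h * 2 ^ 0))
      simp only [range_zero, sum_empty]
      linarith
    | succ N ih =>
      rw [sum_range_succ]
      have e : y / (h * 2 ^ (N + 1)) = y / (h * 2 ^ N) / 2 := by
        rw [pow_succ]
        field_simp
      have hp : 0 < h * 2 ^ N := by positivity
      rw [e]
      have m1 := min_le_left 1 (y / (h * 2 ^ N) / 2)
      have m2 := min_le_right 1 (y / (h * 2 ^ N) / 2)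
      split_ifs with h1
      · rw [min_eq_right ((div_le_one hp).2 h1)] at ih
        linarith
      · rw [min_eq_left ((one_le_div hp).2 (le_of_lt (not_le.1 h1)))] at ih
        linarith
  have := key N
  have : 0 ≤ min 1 (y / (h * 2 ^ N)) := le_min zero_le_one (by positivity)
  linarith

open Classical in
theorem harm {α : Type} (f : α → ℝ) (S : Finset α) :
    ∑ z ∈ S, 1 / ((S.filter fun y => f y ≤ f z).card : ℝ) ≤ (harmonic S.card : ℝ) := by
  induction S using Finset.induction_on_max_value f with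
  | empty => simp
  | insert a s ha hmax ih =>
    rw [sum_insert ha, card_insert_of_notMem ha, harmonic_succ]
    have e : (insert a s).filter (fun y => f y ≤ f a) = insert a s := by
      refine filter_true_of_mem fun y hy => ?_
      rcases mem_insert.1 hy with rfl | hy
      · exact le_rfl
      · exact hmax y hy
    rw [e, card_insert_of_notMem ha]
    have : ∑ z ∈ s, 1 / (((insert a s).filter fun y => f y ≤ f z).card : ℝ) ≤
        ∑ z ∈ s, 1 / ((s.filter fun y => f y ≤ f z).card : ℝ) := by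
      refine sum_le_sum fun z hz => one_div_le_one_div_of_le ?_ ?_
      · exact Nat.cast_pos.2 (card_pos.2 ⟨z, mem_filter.2 ⟨hz, le_rfl⟩⟩)
      · exact Nat.cast_le.2 (card_le_card (filter_subset_filter _ (subset_insert _ _)))
    push_cast
    rw [one_div]
    linarith

theorem exists_net {α : Type} [PseudoMetricSpace α] (r : ℝ) (hr : 0 ≤ r) (S : Finset α) :
    ∃ Y : Finset α, Y ⊆ S ∧ (∀ y ∈ Y, ∀ y' ∈ Y, y ≠ y' → r < dist y y') ∧
      ∀ x ∈ S, ∃ y ∈ Y, dist x y ≤ r := by
  classical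
  induction S using Finset.induction_on with
  | empty => exact ⟨∅, Subset.rfl, by simp, by simp⟩
  | insert a s _ ih =>
    obtain ⟨Y, h1, h2, h3⟩ := ih
    by_cases h : ∃ y ∈ Y, dist a y ≤ r
    · refine ⟨Y, h1.trans (subset_insert _ _), h2, fun x hx => ?_⟩
      rcases mem_insert.1 hx with rfl | hx
      · exact h
      · exact h3 x hx
    · push Not at h
      refine ⟨insert a Y, insert_subset_insert _ h1, fun y hy y' hy' hne => ?_, fun x hx => ?_⟩
      · rcases mem_insert.1 hy with e1 | k1 <;> rcases mem_insert.1 hy' with e2 | k2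
        · exact absurd (e1.trans e2.symm) hne
        · rw [e1]
          exact h y' k2
        · rw [e2, dist_comm]
          exact h y k1
        · exact h2 y k1 y' k2 hne
      · rcases mem_insert.1 hx with rfl | hx
        · exact ⟨x, mem_insert_self _ _, by simpa using hr⟩
        · obtain ⟨y, hy, hxy⟩ := h3 x hx
          exact ⟨y, mem_insert_of_mem hy, hxy⟩

open Classical in
theorem local_card {α : Type} [PseudoMetricSpace α] [Fintype α] (r R R' g : ℝ) (hr : 0 < r)
    (hR : 0 ≤ R) (hR' : 2 * R + r / 2 ≤ R') (Y : Finset α)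
    (hsep : ∀ y ∈ Y, ∀ y' ∈ Y, y ≠ y' → r < dist y y')
    (hg : ∀ y ∈ Y, Real.log (bc y R') - Real.log (bc y (r / 2)) ≤ g) (z0 : α) :
    ((Y.filter fun y => dist y z0 ≤ R).card : ℝ) ≤ Real.exp g := by
  set N := Y.filter fun y => dist y z0 ≤ R with hN
  set b : ℝ := (bc z0 (R + r / 2) : ℝ) with hb
  have hb0 : 0 < b := Nat.cast_pos.2 (bc_pos _ (by linarith))
  have h1 : ∑ z ∈ N, bc z (r / 2) ≤ bc z0 (R + r / 2) := by
    unfold bc
    rw [← card_biUnion]
    · refine card_le_card fun w hw => ?_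
      simp only [mem_biUnion, mem_filter, mem_univ, true_and, hN] at hw ⊢
      obtain ⟨z, ⟨_, hz⟩, hw⟩ := hw
      have := dist_triangle w z z0
      linarith
    · intro y hy y' hy' hne
      rw [Function.onFun, disjoint_left]
      intro w hw hw'
      simp only [mem_filter, mem_univ, true_and] at hw hw'
      have := hsep y (mem_filter.1 hy).1 y' (mem_filter.1 hy').1 hne
      have t := dist_triangle_left y y' w
      linarith
  have h2 : ∀ z ∈ N, b ≤ Real.exp g * bc z (r / 2) := by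
    intro z hz
    obtain ⟨hzY, hz⟩ := mem_filter.1 hz
    have k1 : bc z0 (R + r / 2) ≤ bc z R' := bc_le _ _ (by rw [dist_comm]; linarith)
    have k2 := hg z hzY
    have p1 : (0 : ℝ) < bc z (r / 2) := Nat.cast_pos.2 (bc_pos _ (by linarith))
    have p2 : (0 : ℝ) < bc z R' := Nat.cast_pos.2 (bc_pos _ (by linarith))
    rw [← Real.log_div p2.ne' p1.ne', Real.log_le_iff_le_exp (by positivity),
      div_le_iff₀ p1] at k2
    exact le_trans (Nat.cast_le.2 k1) k2
  have h3 : (N.card : ℝ) * b ≤ Real.exp g * b := by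
    calc (N.card : ℝ) * b = ∑ z ∈ N, b := by rw [sum_const, nsmul_eq_mul]
      _ ≤ ∑ z ∈ N, Real.exp g * bc z (r / 2) := sum_le_sum h2
      _ = Real.exp g * ((∑ z ∈ N, bc z (r / 2) : ℕ) : ℝ) := by rw [← mul_sum]; push_cast; rfl
      _ ≤ Real.exp g * b := mul_le_mul_of_nonneg_left (Nat.cast_le.2 h1) (Real.exp_pos _).le
  exact le_of_mul_le_mul_right h3 hb0

theorem telescope (b : ℕ → ℝ) (Λ : ℝ) (h0 : ∀ j, 0 ≤ b j) (h1 : ∀ j, b j ≤ Λ) (S κ : ℕ) :
    ∑ j ∈ range S, (b (j + κ) - b j) ≤ κ * Λ := by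
  have e1 := sum_range_add b κ S
  have e2 := sum_range_add b S κ
  rw [add_comm κ S, e2] at e1
  have e3 : ∑ j ∈ range S, b (j + κ) = ∑ j ∈ range S, b (κ + j) :=
    sum_congr rfl fun j _ => by rw [add_comm]
  have k1 : 0 ≤ ∑ j ∈ range κ, b j := sum_nonneg fun j _ => h0 j
  have k2 : ∑ j ∈ range κ, b (S + j) ≤ κ * Λ := by
    calc _ ≤ ∑ j ∈ range κ, Λ := sum_le_sum fun j _ => h1 _
      _ = _ := by rw [sum_const, card_range, nsmul_eq_mul]
  rw [sum_sub_distrib, e3]
  linarith

open Classical in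
/-- Uniform averaging over balls. -/
theorem method_one {α ι : Type} [PseudoMetricSpace α] [Fintype α] [Fintype ι] (p : ℝ)
    (hp : 1 ≤ p) (F : ι → α → ℝ) (hd : ∀ x y, ∑ i, |F i x - F i y| ^ p = dist x y ^ p) (r : ℝ)
    (hr : 0 < r) :
    ∃ l : ι → α → ℝ, (∀ i x, 0 ≤ l i x) ∧
      (∀ x, ∑ i, l i x ^ p ≤ 8 ^ p * ∑ z, (1 / (bc x (dist z x) : ℝ)) *
        (if dist z x ≤ 2 * r then dist z x / (2 * r) else 0)) ∧
      ∀ x y, bc x (3 * r) ≤ 2 * bc x r → r / 2 ≤ dist x y → dist x y ≤ r →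
        ∀ i, |F i x - F i y| ≤ (l i x + l i y) * dist x y := by
  have hb : ∀ x : α, (0 : ℝ) < bc x (2 * r) := fun x => Nat.cast_pos.2 (bc_pos _ (by linarith))
  obtain ⟨l, h0, h1, h2⟩ := gadget p hp F hd r hr (fun z : α => z)
    (fun x z => if dist z x ≤ 2 * r then 1 / (bc x (2 * r) : ℝ) else 0)
    (fun x z => by have := hb x; split_ifs <;> positivity)
    (fun x => by
      rw [← sum_filter, sum_const, nsmul_eq_mul]
      have := hb x
      unfold bc at this ⊢
      rw [mul_one_div, div_self this.ne'])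
  refine ⟨l, h0, fun x => (h1 x).trans ?_, fun x y hxy k1 k2 => h2 x y ?_ k1⟩
  · rw [mul_sum, mul_sum]
    refine sum_le_sum fun z _ => ?_
    split_ifs with hz
    · have hd0 : 0 ≤ dist z x := dist_nonneg
      have e1 : (4 / r) ^ p * dist x z ^ p = 8 ^ p * (dist z x / (2 * r)) ^ p := by
        rw [← Real.mul_rpow (by positivity) dist_nonneg,
          ← Real.mul_rpow (by positivity) (by positivity), dist_comm x z]
        congr 1
        field_simp
        ring
      have e2 : (dist z x / (2 * r)) ^ p ≤ dist z x / (2 * r) := by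
        rcases eq_or_lt_of_le hd0 with h | h
        · rw [← h, zero_div, Real.zero_rpow (by linarith)]
        · have := Real.rpow_le_rpow_of_exponent_ge (x := dist z x / (2 * r)) (by positivity)
            (by rw [div_le_one (by positivity)]; exact hz) hp
          simpa using this
      have e3 : 1 / (bc x (2 * r) : ℝ) ≤ 1 / (bc x (dist z x) : ℝ) :=
        one_div_le_one_div_of_le (Nat.cast_pos.2 (bc_pos _ hd0)) (Nat.cast_le.2 (bc_mono _ hz))
      have := hb x
      calc (4 / r) ^ p * (1 / (bc x (2 * r) : ℝ) * dist x z ^ p)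
          = 8 ^ p * (1 / (bc x (2 * r) : ℝ) * (dist z x / (2 * r)) ^ p) := by
            rw [mul_left_comm, e1]
            ring
        _ ≤ _ := mul_le_mul_of_nonneg_left
            (mul_le_mul e3 e2 (by positivity) (by positivity)) (by positivity)
    · simp
  · have b3 : (0 : ℝ) < bc x (3 * r) := Nat.cast_pos.2 (bc_pos _ (by linarith))
    have hxy' : (bc x (3 * r) : ℝ) ≤ 2 * bc x r := by exact_mod_cast hxy
    calc (1 : ℝ) / 2 ≤ (bc x r : ℝ) * (1 / (bc x (3 * r) : ℝ)) := by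
          rw [mul_one_div, le_div_iff₀ b3]
          linarith
      _ = ∑ z, (if dist z x ≤ r then 1 / (bc x (3 * r) : ℝ) else 0) := by
          rw [← sum_filter, sum_const, nsmul_eq_mul]
          rfl
      _ ≤ _ := by
          refine sum_le_sum fun z _ => ?_
          by_cases hz : dist z x ≤ r
          · have t := dist_triangle z x y
            rw [if_pos hz, if_pos (by linarith), if_pos (by linarith)]
            refine le_min (one_div_le_one_div_of_le (hb x) (Nat.cast_le.2 (bc_mono _ ?_)))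
              (one_div_le_one_div_of_le (hb y) (Nat.cast_le.2 (bc_le _ _ ?_)))
            · linarith
            · rw [dist_comm]
              linarith
          · rw [if_neg hz]
            have := hb x
            have := hb y
            refine le_min ?_ ?_ <;> split_ifs <;> positivity

open Classical in
/-- Kernels on a net of the points of bounded local growth. -/
theorem method_two (p : ℝ) (hp : 1 ≤ p) : ∃ t0 : ℝ, 1 ≤ t0 ∧
    ∀ {α ι : Type} [PseudoMetricSpace α] [Fintype α] [Fintype ι] (F : ι → α → ℝ),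
      (∀ x y, ∑ i, |F i x - F i y| ^ p = dist x y ^ p) → ∀ (r R' : ℝ) (m m1 : ℕ), 0 < r →
      m ≤ m1 → (Fintype.card α : ℝ) ≤ Real.exp (((2 : ℝ) ^ m1) ^ (min p 2)) →
      10 * t0 * 2 ^ m1 * r + r / 2 ≤ R' → ∀ pay : α → Prop,
      ∃ l : ι → α → ℝ, (∀ i x, 0 ≤ l i x) ∧
        (∀ x, ∑ i, l i x ^ p ≤ if pay x then (28 * t0) ^ p * ((2 : ℝ) ^ m) ^ p else 0) ∧
        ∀ x y, pay x → pay y →
          Real.log (bc x R') - Real.log (bc x (r / 2)) ≤ ((2 : ℝ) ^ m) ^ (min p 2) →
          r / 2 ≤ dist x y → dist x y ≤ r →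
          ∀ i, |F i x - F i y| ≤ (l i x + l i y) * dist x y := by
  obtain ⟨t0, ht0, hker⟩ := kernel p hp
  refine ⟨t0, ht0, ?_⟩
  intro α ι _ _ _ F hd r R' m m1 hr hm hn hR' pay
  obtain ⟨Y, hY1, hY2, hY3⟩ := exists_net r hr.le (univ.filter fun x : α =>
    Real.log (bc x R') - Real.log (bc x (r / 2)) ≤ ((2 : ℝ) ^ m) ^ (min p 2))
  have hK := hker (α := Y) (fun i y => F i y) (fun x y => hd x y) (5 * r) m m1 (by positivity) hm
    (le_trans (Nat.cast_le.2 (Fintype.card_subtype_le _)) hn) (fun z => by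
      have := local_card r (t0 * 2 ^ m1 * (5 * r)) R' _ hr (by positivity) (by linarith) Y hY2
        (fun y hy => (mem_filter.1 (hY1 hy)).2) z
      refine le_trans (Nat.cast_le.2 (le_of_eq ?_)) this
      refine card_bij (fun y _ => (y : α)) (fun y hy => ?_) (fun _ _ _ _ h => Subtype.ext h)
        (fun y hy => ?_)
      · exact mem_filter.2 ⟨y.2, (mem_filter.1 hy).2⟩
      · exact ⟨⟨y, (mem_filter.1 hy).1⟩, mem_filter.2 ⟨mem_univ _, (mem_filter.1 hy).2⟩, rfl⟩)
  obtain ⟨V, hV, c, π, h0, h1, h2, h3⟩ := hK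
  set π' : α → V → ℝ := fun x v =>
    if h : pay x ∧ ∃ y : Y, dist x y ≤ 2 * r then π h.2.choose v else 0 with hπ'
  have g0 : ∀ x v, 0 ≤ π' x v := by
    intro x v
    simp only [hπ']
    split_ifs
    · exact h0 _ _
    · exact le_rfl
  have g1 : ∀ x, ∑ v, π' x v ≤ 1 := by
    intro x
    simp only [hπ']
    split_ifs
    · exact h1 _
    · simp
  obtain ⟨l, k0, k1, k2⟩ := gadget p hp F hd r hr (fun v => (c v : α)) π' g0 g1
  have hp0 : (0 : ℝ) ≤ p := by linarith
  refine ⟨l, k0, fun x => (k1 x).trans ?_, fun x y hx hy hg d1 d2 => k2 x y ?_ d1⟩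
  · by_cases h : pay x ∧ ∃ y : Y, dist x y ≤ 2 * r
    · rw [if_pos h.1]
      have h2m : (1 : ℝ) ≤ 2 ^ m := one_le_pow₀ (by norm_num)
      have e : ∑ v, π' x v * dist x (c v) ^ p ≤ (7 * t0 * 2 ^ m * r) ^ p := by
        calc ∑ v, π' x v * dist x (c v) ^ p ≤ ∑ v, π' x v * (7 * t0 * 2 ^ m * r) ^ p := by
              refine sum_le_sum fun v _ => ?_
              by_cases hv : π' x v = 0
              · simp [hv]
              · refine mul_le_mul_of_nonneg_left (Real.rpow_le_rpow dist_nonneg ?_ hp0) (g0 _ _)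
                simp only [hπ', dif_pos h] at hv
                have a1 := h2 _ _ hv
                have a2 := h.2.choose_spec
                have t := dist_triangle x (h.2.choose : α) (c v)
                rw [Subtype.dist_eq] at a1
                have : r ≤ t0 * 2 ^ m * r := by
                  have : 1 ≤ t0 * 2 ^ m := by nlinarith
                  nlinarith
                linarith
          _ ≤ _ := by
              rw [← sum_mul]
              exact mul_le_of_le_one_left (by positivity) (g1 x)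
      calc (4 / r) ^ p * ∑ v, π' x v * dist x (c v) ^ p
          ≤ (4 / r) ^ p * (7 * t0 * 2 ^ m * r) ^ p := mul_le_mul_of_nonneg_left e (by positivity)
        _ = _ := by
            rw [← Real.mul_rpow (by positivity) (by positivity),
              ← Real.mul_rpow (by positivity) (by positivity)]
            congr 1
            field_simp
            ring
    · have : ∑ v, π' x v * dist x (c v) ^ p = 0 := by
        refine sum_eq_zero fun v _ => ?_
        simp only [hπ', dif_neg h, zero_mul]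
      rw [this, mul_zero]
      split_ifs <;> positivity
  · obtain ⟨y0, hy0, hxy0⟩ := hY3 x (mem_filter.2 ⟨mem_univ _, hg⟩)
    have hx' : pay x ∧ ∃ y : Y, dist x y ≤ 2 * r := ⟨hx, ⟨y0, hy0⟩, by simp only; linarith⟩
    have hy' : pay y ∧ ∃ y' : Y, dist y y' ≤ 2 * r := ⟨hy, ⟨y0, hy0⟩, by
      have := dist_triangle_left y y0 x
      simp only
      linarith⟩
    simp only [hπ', dif_pos hx', dif_pos hy']
    have a1 := hx'.2.choose_spec
    have a2 := hy'.2.choose_spec
    have := h3 hx'.2.choose hy'.2.choose (by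
      rw [Subtype.dist_eq]
      have t := dist_triangle4 (hx'.2.choose : α) x y (hy'.2.choose : α)
      rw [dist_comm] at a1
      linarith)
    linarith

theorem le_root {p a B : ℝ} (hp : 0 < p) (ha : 0 ≤ a) (h : a ^ p ≤ B) : a ≤ B ^ (1 / p) := by
  have := Real.rpow_le_rpow (Real.rpow_nonneg ha p) h (by positivity : 0 ≤ 1 / p)
  rwa [← Real.rpow_mul ha, mul_one_div_cancel hp.ne', Real.rpow_one] at this

theorem exists_scales {α : Type} [PseudoMetricSpace α] [Fintype α] :
    ∃ (r0 : ℝ) (S : ℕ), 0 < r0 ∧ ∀ x y : α, 0 < dist x y →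
      ∃ j < S, r0 * 2 ^ j / 2 ≤ dist x y ∧ dist x y ≤ r0 * 2 ^ j := by
  classical
  obtain ⟨r0, hr0, h1⟩ : ∃ r0 : ℝ, 0 < r0 ∧ ∀ x y : α, 0 < dist x y → r0 ≤ dist x y := by
    set T := (univ : Finset (α × α)).filter fun q => 0 < dist q.1 q.2
    rcases T.eq_empty_or_nonempty with h | h
    · refine ⟨1, one_pos, fun x y hxy => ?_⟩
      have : (x, y) ∈ T := mem_filter.2 ⟨mem_univ _, hxy⟩
      rw [h] at this
      simp at this
    · obtain ⟨q, hq, hmin⟩ := T.exists_min_image (fun q => dist q.1 q.2) h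
      exact ⟨_, (mem_filter.1 hq).2, fun x y hxy => hmin (x, y) (mem_filter.2 ⟨mem_univ _, hxy⟩)⟩
  have h2 : ∀ q : α × α, ∃ j : ℕ, 0 < dist q.1 q.2 →
      r0 * 2 ^ j / 2 ≤ dist q.1 q.2 ∧ dist q.1 q.2 ≤ r0 * 2 ^ j := by
    intro q
    by_cases hq : 0 < dist q.1 q.2
    · obtain ⟨n, hn1, hn2⟩ := exists_nat_pow_near (x := dist q.1 q.2 / r0) (y := 2)
        ((one_le_div hr0).2 (h1 _ _ hq)) (by norm_num)
      rw [le_div_iff₀ hr0] at hn1
      rw [div_lt_iff₀ hr0] at hn2
      refine ⟨n + 1, fun _ => ⟨?_, ?_⟩⟩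
      · rw [pow_succ]
        linarith
      · linarith
    · exact ⟨0, fun h => absurd h hq⟩
  choose j hj using h2
  refine ⟨r0, univ.sup j + 1, hr0, fun x y hxy => ⟨j (x, y), ?_, hj (x, y) hxy⟩⟩
  exact Nat.lt_succ_of_le (le_sup (f := j) (mem_univ _))

theorem class_exists (a γ : ℝ) (ha2 : a ≤ 2) (hγ : 1 / 8 ≤ γ) (m1 : ℕ)
    (h1 : γ ≤ ((2 : ℝ) ^ m1) ^ a) :
    ∃ m ≤ m1, γ ≤ ((2 : ℝ) ^ m) ^ a ∧ ((2 : ℝ) ^ m) ^ a ≤ 8 * γ := by
  classical
  have hex : ∃ m : ℕ, γ ≤ ((2 : ℝ) ^ m) ^ a := ⟨m1, h1⟩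
  refine ⟨Nat.find hex, Nat.find_min' hex h1, Nat.find_spec hex, ?_⟩
  rcases Nat.eq_zero_or_pos (Nat.find hex) with h | h
  · rw [h]
    simp only [pow_zero, Real.one_rpow]
    linarith
  · obtain ⟨k, hk⟩ : ∃ k, Nat.find hex = k + 1 := ⟨Nat.find hex - 1, by omega⟩
    have hn := Nat.find_min hex (m := k) (by omega)
    rw [hk, pow_succ, Real.mul_rpow (by positivity) (by norm_num)]
    have h4 : (2 : ℝ) ^ a ≤ 4 := by
      have := Real.rpow_le_rpow_of_exponent_le (x := 2) (by norm_num) ha2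
      norm_num at this
      exact this
    have h5 : 0 ≤ ((2 : ℝ) ^ k) ^ a := by positivity
    have := not_le.1 hn
    nlinarith

open Classical in
theorem class_sum (p a γ Λ : ℝ) (hp : 1 ≤ p) (ha1 : 1 ≤ a) (hap : a ≤ p) (hγ : 0 ≤ γ)
    (hγΛ : γ ≤ Λ) (N : ℕ) :
    ∑ m ∈ range N, (if ((2 : ℝ) ^ m) ^ a ≤ 8 * γ then ((2 : ℝ) ^ m) ^ p else 0) ≤
      2 * 8 ^ p * Λ ^ (p / a - 1) * γ := by
  have ha0 : 0 < a := by linarith
  have g := geom_below p hp 1 one_pos ((8 * γ) ^ (1 / a)) (by positivity)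
    ((range N).filter fun m => ((2 : ℝ) ^ m) ^ a ≤ 8 * γ) (fun m hm => by
      rw [one_mul]
      exact le_root ha0 (by positivity) (mem_filter.1 hm).2)
  simp only [one_mul] at g
  rw [← sum_filter]
  refine g.trans ?_
  have e : 1 ≤ p / a := (one_le_div ha0).2 hap
  rw [← Real.rpow_mul (by positivity), one_div_mul_eq_div, Real.mul_rpow (by norm_num) hγ]
  have h8 : (8 : ℝ) ^ (p / a) ≤ 8 ^ p :=
    Real.rpow_le_rpow_of_exponent_le (by norm_num) (div_le_self (by linarith) ha1)
  have h9 : γ ^ (p / a) ≤ Λ ^ (p / a - 1) * γ := by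
    have : γ ^ (p / a) = γ ^ (p / a - 1) * γ := by
      rw [← Real.rpow_add_one' hγ (by linarith)]
      congr 1
      ring
    rw [this]
    exact mul_le_mul_of_nonneg_right (Real.rpow_le_rpow hγ hγΛ (by linarith)) hγ
  have := mul_le_mul h8 h9 (by positivity) (by positivity)
  linarith

open Classical in
theorem hajlasz (p : ℝ) (hp : 1 ≤ p) : ∃ C : ℝ, 0 < C ∧
    ∀ {α ι : Type} [PseudoMetricSpace α] [Fintype α] [Fintype ι] (F : ι → α → ℝ),
      (∀ x y, ∑ i, |F i x - F i y| ^ p = dist x y ^ p) → ∀ Λ : ℝ, 1 ≤ Λ →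
      (Fintype.card α : ℝ) ≤ Real.exp Λ →
      ∃ l : ι → α → ℝ, (∀ i x, 0 ≤ l i x) ∧
        (∀ i x y, |F i x - F i y| ≤ (l i x + l i y) * dist x y) ∧
        ∀ x, ∑ i, l i x ^ p ≤ C * Λ ^ (p / min p 2) * (1 + Real.log Λ) := by
  obtain ⟨t0, ht0, htwo⟩ := method_two p hp
  obtain ⟨κ0, hκ0⟩ := pow_unbounded_of_one_lt (20 * t0 + 1) (by norm_num : (1 : ℝ) < 2)
  refine ⟨8 ^ p * 4 + (28 * t0) ^ p * (2 * 8 ^ p) * (κ0 + 2), by positivity, ?_⟩
  intro α ι _ _ _ F hd Λ hΛ hn
  have hp0 : 0 < p := by linarith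
  set a := min p 2 with ha
  have ha1 : 1 ≤ a := le_min hp (by norm_num)
  have hap : a ≤ p := min_le_left _ _
  have ha2 : a ≤ 2 := min_le_right _ _
  obtain ⟨r0, S, hr0, hS⟩ := exists_scales (α := α)
  obtain ⟨n, hn1, hn2⟩ := exists_nat_pow_near hΛ (by norm_num : (1 : ℝ) < 2)
  set m1 := n + 1 with hm1
  have h2m : (1 : ℝ) ≤ 2 ^ m1 := one_le_pow₀ (by norm_num)
  have hΛa : Λ ≤ ((2 : ℝ) ^ m1) ^ a := by
    have := Real.rpow_le_rpow_of_exponent_le h2m ha1
    rw [Real.rpow_one] at this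
    linarith
  have hlog0 : 0 ≤ Real.log Λ := Real.log_nonneg hΛ
  have hm1le : (m1 : ℝ) ≤ 1 + 2 * Real.log Λ := by
    have h1 := Real.log_le_log (by positivity) hn1
    rw [Real.log_pow] at h1
    have h2 := Real.log_two_gt_d9
    have h3 : (0 : ℝ) ≤ n := Nat.cast_nonneg _
    rw [hm1]
    push_cast
    nlinarith
  set κ := m1 + κ0 with hκ
  set b : α → ℕ → ℝ := fun x j => Real.log (bc x (r0 * 2 ^ j / 2)) with hb
  have hbc1 : ∀ (x : α) (R : ℝ), 0 ≤ R → (1 : ℝ) ≤ bc x R := fun x R hR =>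
    Nat.one_le_cast.2 (bc_pos x hR)
  have hb0 : ∀ x j, 0 ≤ b x j := fun x j => Real.log_nonneg (hbc1 _ _ (by positivity))
  have hb1 : ∀ x j, b x j ≤ Λ := by
    intro x j
    have := hbc1 x (r0 * 2 ^ j / 2) (by positivity)
    simp only [hb]
    rw [Real.log_le_iff_le_exp (by linarith)]
    exact le_trans (Nat.cast_le.2 (bc_le_card _ _)) hn
  have hbig : ∀ j : ℕ, 10 * t0 * 2 ^ m1 * (r0 * 2 ^ j) + r0 * 2 ^ j / 2 ≤ r0 * 2 ^ (j + κ) / 2 := by
    intro j
    have e : r0 * 2 ^ (j + κ) / 2 = (r0 * 2 ^ j / 2) * (2 ^ m1 * 2 ^ κ0) := by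
      rw [hκ, pow_add, pow_add]
      ring
    have e2 : 10 * t0 * 2 ^ m1 * (r0 * 2 ^ j) + r0 * 2 ^ j / 2 =
      (r0 * 2 ^ j / 2) * (20 * t0 * 2 ^ m1 + 1) := by ring
    rw [e, e2]
    refine mul_le_mul_of_nonneg_left ?_ (by positivity)
    nlinarith
  have hγ0 : ∀ x j, 0 ≤ b x (j + κ) - b x j := by
    intro x j
    have h1 := hbc1 x (r0 * 2 ^ j / 2) (by positivity)
    have h2 : bc x (r0 * 2 ^ j / 2) ≤ bc x (r0 * 2 ^ (j + κ) / 2) := bc_mono _ (by
      have := hbig j
      have : 0 ≤ 10 * t0 * 2 ^ m1 * (r0 * 2 ^ j) := by positivity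
      linarith)
    have := Real.log_le_log (by linarith) (Nat.cast_le (α := ℝ).2 h2)
    simp only [hb]
    linarith
  have hact : ∀ x j, ¬ bc x (3 * (r0 * 2 ^ j)) ≤ 2 * bc x (r0 * 2 ^ j) →
      1 / 8 ≤ b x (j + κ) - b x j := by
    intro x j h
    have hr : 0 < r0 * 2 ^ j := by positivity
    have h1 := hbc1 x (r0 * 2 ^ j / 2) (by positivity)
    have h2 : bc x (3 * (r0 * 2 ^ j)) ≤ bc x (r0 * 2 ^ (j + κ) / 2) := bc_mono _ (by
      have := hbig j
      have : 1 ≤ t0 * 2 ^ m1 := by nlinarith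
      nlinarith)
    have h3 : bc x (r0 * 2 ^ j / 2) ≤ bc x (r0 * 2 ^ j) := bc_mono _ (by linarith)
    have h4 : 2 * bc x (r0 * 2 ^ j / 2) ≤ bc x (r0 * 2 ^ (j + κ) / 2) := by omega
    have h5 : 2 * (bc x (r0 * 2 ^ j / 2) : ℝ) ≤ bc x (r0 * 2 ^ (j + κ) / 2) := by
      exact_mod_cast h4
    have h6 := Real.log_le_log (by linarith) h5
    rw [Real.log_mul (by norm_num) (by linarith)] at h6
    have := Real.log_two_gt_d9
    simp only [hb]
    linarith
  choose l1 a0 a1 a2 using fun j : ℕ => method_one p hp F hd (r0 * 2 ^ j) (by positivity)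
  have htwo' : ∀ j m : ℕ, ∃ l : ι → α → ℝ, (∀ i x, 0 ≤ l i x) ∧
      (∀ x, ∑ i, l i x ^ p ≤ if ((2 : ℝ) ^ m) ^ a ≤ 8 * (b x (j + κ) - b x j) then
        (28 * t0) ^ p * ((2 : ℝ) ^ m) ^ p else 0) ∧
      (m ≤ m1 → ∀ x y, ((2 : ℝ) ^ m) ^ a ≤ 8 * (b x (j + κ) - b x j) →
        ((2 : ℝ) ^ m) ^ a ≤ 8 * (b y (j + κ) - b y j) →
        b x (j + κ) - b x j ≤ ((2 : ℝ) ^ m) ^ a →
        r0 * 2 ^ j / 2 ≤ dist x y → dist x y ≤ r0 * 2 ^ j →
        ∀ i, |F i x - F i y| ≤ (l i x + l i y) * dist x y) := by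
    intro j m
    by_cases hm : m ≤ m1
    · obtain ⟨l, k0, k1, k2⟩ := htwo F hd (r0 * 2 ^ j) (r0 * 2 ^ (j + κ) / 2) m m1 (by positivity)
        hm (hn.trans (Real.exp_le_exp.2 hΛa)) (hbig j)
        (fun x => ((2 : ℝ) ^ m) ^ a ≤ 8 * (b x (j + κ) - b x j))
      refine ⟨l, k0, fun x => ?_, fun _ => k2⟩
      convert k1 x
    · refine ⟨fun _ _ => 0, fun _ _ => le_rfl, fun x => ?_, fun h => absurd h hm⟩
      simp only [Real.zero_rpow hp0.ne', sum_const_zero]
      split_ifs <;> positivity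
  choose l2 c0 c1 c2 using htwo'
  set B : ι → α → ℝ := fun i x => ∑ j ∈ range S, l1 j i x ^ p +
    ∑ j ∈ range S, ∑ m ∈ range (m1 + 1), l2 j m i x ^ p with hB
  have n1 : ∀ j i x, 0 ≤ l1 j i x ^ p := fun j i x => Real.rpow_nonneg (a0 _ _ _) _
  have n2 : ∀ j m i x, 0 ≤ l2 j m i x ^ p := fun j m i x => Real.rpow_nonneg (c0 _ _ _ _) _
  have s1 : ∀ i x, 0 ≤ ∑ j ∈ range S, l1 j i x ^ p := fun i x => sum_nonneg fun j _ => n1 _ _ _
  have s2 : ∀ i x, 0 ≤ ∑ j ∈ range S, ∑ m ∈ range (m1 + 1), l2 j m i x ^ p := fun i x =>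
    sum_nonneg fun j _ => sum_nonneg fun m _ => n2 _ _ _ _
  have hB0 : ∀ i x, 0 ≤ B i x := fun i x => add_nonneg (s1 i x) (s2 i x)
  have le1 : ∀ j < S, ∀ i x, l1 j i x ≤ B i x ^ (1 / p) := by
    intro j hj i x
    refine le_root hp0 (a0 _ _ _) ?_
    have := single_le_sum (f := fun j => l1 j i x ^ p) (fun j _ => n1 j i x) (mem_range.2 hj)
    have := s2 i x
    simp only [hB]
    linarith
  have le2 : ∀ j < S, ∀ m ≤ m1, ∀ i x, l2 j m i x ≤ B i x ^ (1 / p) := by
    intro j hj m hm i x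
    refine le_root hp0 (c0 _ _ _ _) ?_
    have k1 := single_le_sum (f := fun m => l2 j m i x ^ p) (fun m _ => n2 j m i x)
      (mem_range.2 (Nat.lt_succ_of_le hm))
    have k2 := single_le_sum (f := fun j => ∑ m ∈ range (m1 + 1), l2 j m i x ^ p)
      (fun j _ => sum_nonneg fun m _ => n2 j m i x) (mem_range.2 hj)
    have := s1 i x
    simp only [hB]
    linarith
  refine ⟨fun i x => B i x ^ (1 / p), fun i x => Real.rpow_nonneg (hB0 i x) _,
    fun i x y => ?_, fun x => ?_⟩
  · simp only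
    rcases eq_or_lt_of_le (dist_nonneg : 0 ≤ dist x y) with h0 | hpos
    · have h1 := single_le_sum (f := fun i => |F i x - F i y| ^ p)
        (fun i _ => Real.rpow_nonneg (abs_nonneg _) _) (mem_univ i)
      rw [hd, ← h0, Real.zero_rpow hp0.ne'] at h1
      have h2 := le_root hp0 (abs_nonneg _) h1
      rw [Real.zero_rpow (by positivity)] at h2
      rw [← h0, mul_zero]
      exact h2
    obtain ⟨j, hj, d1, d2⟩ := hS x y hpos
    have fin : ∀ (u v : ℝ), u ≤ B i x ^ (1 / p) → v ≤ B i y ^ (1 / p) →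
        (|F i x - F i y| ≤ (u + v) * dist x y ∨ |F i y - F i x| ≤ (v + u) * dist y x) →
        |F i x - F i y| ≤ (B i x ^ (1 / p) + B i y ^ (1 / p)) * dist x y := by
      intro u v hu hv h
      rw [abs_sub_comm (F i y), dist_comm y x, add_comm v u, or_self] at h
      exact h.trans (mul_le_mul_of_nonneg_right (add_le_add hu hv) hpos.le)
    have d1' : r0 * 2 ^ j / 2 ≤ dist y x := by rwa [dist_comm]
    have d2' : dist y x ≤ r0 * 2 ^ j := by rwa [dist_comm]
    by_cases hx : bc x (3 * (r0 * 2 ^ j)) ≤ 2 * bc x (r0 * 2 ^ j)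
    · exact fin _ _ (le1 j hj i x) (le1 j hj i y) (Or.inl (a2 j x y hx d1 d2 i))
    by_cases hy : bc y (3 * (r0 * 2 ^ j)) ≤ 2 * bc y (r0 * 2 ^ j)
    · exact fin _ _ (le1 j hj i x) (le1 j hj i y) (Or.inr (a2 j y x hy d1' d2' i))
    have gx := hact x j hx
    have gy := hact y j hy
    rcases le_total (b x (j + κ) - b x j) (b y (j + κ) - b y j) with hxy | hxy
    · obtain ⟨m, hm, k1, k2⟩ := class_exists a _ ha2 gx m1
        (by have := hb1 x (j + κ); have := hb0 x j; linarith)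
      exact fin _ _ (le2 j hj m hm i x) (le2 j hj m hm i y)
        (Or.inl (c2 j m hm x y k2 (by linarith) k1 d1 d2 i))
    · obtain ⟨m, hm, k1, k2⟩ := class_exists a _ ha2 gy m1
        (by have := hb1 y (j + κ); have := hb0 y j; linarith)
      exact fin _ _ (le2 j hj m hm i x) (le2 j hj m hm i y)
        (Or.inr (c2 j m hm y x k2 (by linarith) k1 d1' d2' i))
  · have e : ∑ i, (B i x ^ (1 / p)) ^ p = ∑ j ∈ range S, ∑ i, l1 j i x ^ p +
        ∑ j ∈ range S, ∑ m ∈ range (m1 + 1), ∑ i, l2 j m i x ^ p := by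
      have : ∀ i, (B i x ^ (1 / p)) ^ p = B i x := fun i => by
        rw [← Real.rpow_mul (hB0 i x), one_div_mul_cancel hp0.ne', Real.rpow_one]
      rw [sum_congr rfl fun i _ => this i]
      simp only [hB]
      rw [sum_add_distrib, sum_comm, sum_comm (s := univ) (t := range S)]
      congr 1
      exact sum_congr rfl fun j _ => sum_comm
    simp only
    rw [e]
    have t1 : ∑ j ∈ range S, ∑ i, l1 j i x ^ p ≤ 8 ^ p * (4 * Λ) := by
      refine (sum_le_sum fun j _ => a1 j x).trans ?_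
      rw [← mul_sum, sum_comm]
      refine mul_le_mul_of_nonneg_left ?_ (by positivity)
      have hh := harm (fun z => dist z x) univ
      have hh2 := harmonic_le_one_add_log (univ : Finset α).card
      have hh3 : Real.log (univ : Finset α).card ≤ Λ := by
        rw [card_univ]
        have : (0 : ℝ) < Fintype.card α :=
          Nat.cast_pos.2 (Fintype.card_pos_iff.2 ⟨x⟩)
        rwa [Real.log_le_iff_le_exp this]
      calc _ ≤ ∑ z, 1 / (bc x (dist z x) : ℝ) * 2 := by
            refine sum_le_sum fun z _ => ?_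
            rw [← mul_sum]
            refine mul_le_mul_of_nonneg_left ?_ (by positivity)
            have := geom_above (2 * r0) (dist z x) (by positivity) dist_nonneg S
            simpa only [mul_assoc] using this
        _ ≤ 4 * Λ := by
            rw [← sum_mul]
            have : ∑ z, 1 / (bc x (dist z x) : ℝ) ≤ (harmonic (univ : Finset α).card : ℝ) := by
              convert hh
              rfl
            linarith
    have hΛp : 0 ≤ Λ ^ (p / a - 1) := by positivity
    have t2 : ∑ j ∈ range S, ∑ m ∈ range (m1 + 1), ∑ i, l2 j m i x ^ p ≤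
        (28 * t0) ^ p * (2 * 8 ^ p) * Λ ^ (p / a - 1) * (κ * Λ) := by
      calc _ ≤ ∑ j ∈ range S, (28 * t0) ^ p * (2 * 8 ^ p) * Λ ^ (p / a - 1) *
            (b x (j + κ) - b x j) := by
            refine sum_le_sum fun j _ => ?_
            have cs := class_sum p a (b x (j + κ) - b x j) Λ hp ha1 hap (hγ0 x j)
              (by have := hb1 x (j + κ); have := hb0 x j; linarith) (m1 + 1)
            calc _ ≤ ∑ m ∈ range (m1 + 1), (28 * t0) ^ p *
                  (if ((2 : ℝ) ^ m) ^ a ≤ 8 * (b x (j + κ) - b x j) then ((2 : ℝ) ^ m) ^ p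
                    else 0) := by
                  refine sum_le_sum fun m _ => (c1 j m x).trans (le_of_eq ?_)
                  split_ifs <;> simp
              _ ≤ (28 * t0) ^ p * (2 * 8 ^ p * Λ ^ (p / a - 1) * (b x (j + κ) - b x j)) := by
                  rw [← mul_sum]
                  exact mul_le_mul_of_nonneg_left cs (by positivity)
              _ = _ := by ring
        _ ≤ _ := by
            rw [← mul_sum]
            exact mul_le_mul_of_nonneg_left (telescope (b x) Λ (hb0 x) (hb1 x) S κ)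
              (by positivity)
    have e1 : Λ ^ (p / a - 1) * Λ = Λ ^ (p / a) := by
      rw [← Real.rpow_add_one (by linarith)]
      congr 1
      ring
    have e2 : Λ ≤ Λ ^ (p / a) := by
      have := Real.rpow_le_rpow_of_exponent_le hΛ ((one_le_div (by linarith)).2 hap)
      rwa [Real.rpow_one] at this
    have e3 : (κ : ℝ) ≤ (κ0 + 2) * (1 + Real.log Λ) := by
      have : (0 : ℝ) ≤ κ0 := Nat.cast_nonneg _
      rw [hκ]
      push_cast
      nlinarith
    have e4 : 0 ≤ Λ ^ (p / a) := by positivity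
    have e5 : (0 : ℝ) < 8 ^ p := by positivity
    have e6 : 0 ≤ (28 * t0) ^ p * (2 * 8 ^ p) := by positivity
    have e7 : Λ ≤ Λ ^ (p / a) * (1 + Real.log Λ) := by nlinarith
    calc _ ≤ 8 ^ p * (4 * Λ) + (28 * t0) ^ p * (2 * 8 ^ p) * Λ ^ (p / a - 1) * (κ * Λ) :=
          add_le_add t1 t2
      _ = 8 ^ p * 4 * Λ + (28 * t0) ^ p * (2 * 8 ^ p) * (Λ ^ (p / a) * κ) := by
          rw [← e1]
          ring
      _ ≤ 8 ^ p * 4 * (Λ ^ (p / a) * (1 + Real.log Λ)) + (28 * t0) ^ p * (2 * 8 ^ p) *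
            (Λ ^ (p / a) * ((κ0 + 2) * (1 + Real.log Λ))) :=
          add_le_add (mul_le_mul_of_nonneg_left e7 (by positivity))
            (mul_le_mul_of_nonneg_left (mul_le_mul_of_nonneg_left e3 e4) e6)
      _ = _ := by ring

end Vale.Agent.P249
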