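import Mathlib

/-! Merging sparsely supported Lipschitz coordinates. -/

namespace Vale.Agent.P249

open Finset

/-- the maximum of `0` and the values of `h` on `T` -/
noncomputable def merge_M {ι : Type} (T : Finset ι) (h : ι → ℝ) : ℝ := T.fold max 0 h

lemma merge_M_le {ι : Type} {T : Finset ι} {h : ι → ℝ} {c : ℝ} :
    merge_M T h ≤ c ↔ 0 ≤ c ∧ ∀ i ∈ T, h i ≤ c := Finset.fold_max_le c

lemma merge_M_nonneg {ι : Type} (T : Finset ι) (h : ι → ℝ) : 0 ≤ merge_M T h :=
  (merge_M_le.1 le_rfl).1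

lemma merge_le_M {ι : Type} {T : Finset ι} (h : ι → ℝ) {i : ι} (hi : i ∈ T) :
    h i ≤ merge_M T h := (merge_M_le.1 le_rfl).2 i hi

lemma merge_M_lip {ι : Type} (T : Finset ι) (h h' : ι → ℝ) {c : ℝ} (hc : 0 ≤ c)
    (hh : ∀ i ∈ T, |h i - h' i| ≤ c) : |merge_M T h - merge_M T h'| ≤ c := by
  rw [abs_le]
  constructor
  · have : merge_M T h' ≤ merge_M T h + c :=
      merge_M_le.2 ⟨add_nonneg (merge_M_nonneg _ _) hc, fun i hi => by
        linarith [merge_le_M h hi, (abs_le.1 (hh i hi)).1]⟩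
    linarith
  · have : merge_M T h ≤ merge_M T h' + c :=
      merge_M_le.2 ⟨add_nonneg (merge_M_nonneg _ _) hc, fun i hi => by
        linarith [merge_le_M h' hi, (abs_le.1 (hh i hi)).2]⟩
    linarith

/-- the merged coordinate -/
noncomputable def merge_H {ι : Type} (T : Finset ι) (h : ι → ℝ) : ℝ :=
  merge_M T h - merge_M T (fun i => -h i)

lemma merge_H_lip {ι : Type} (T : Finset ι) (h h' : ι → ℝ) {c : ℝ} (hc : 0 ≤ c)
    (hh : ∀ i ∈ T, |h i - h' i| ≤ c) : |merge_H T h - merge_H T h'| ≤ 2 * c := by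
  have h1 := abs_le.1 (merge_M_lip T h h' hc hh)
  have h2 := abs_le.1 (merge_M_lip T (fun i => -h i) (fun i => -h' i) hc (fun i hi => by
    rw [neg_sub_neg, abs_sub_comm]; exact hh i hi))
  unfold merge_H
  rw [abs_le]; constructor <;> linarith [h1.1, h1.2, h2.1, h2.2]

lemma merge_M_single {ι : Type} {T : Finset ι} {h : ι → ℝ} {j : ι} (hj : j ∈ T)
    (h0 : ∀ i ∈ T, i ≠ j → h i = 0) : merge_M T h = max (h j) 0 := by
  refine le_antisymm (merge_M_le.2 ⟨le_max_right _ _, fun i hi => ?_⟩)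
    (max_le (merge_le_M h hj) (merge_M_nonneg _ _))
  by_cases hij : i = j
  · rw [hij]; exact le_max_left _ _
  · rw [h0 i hi hij]; exact le_max_right _ _

lemma merge_H_single {ι : Type} {T : Finset ι} {h : ι → ℝ} {j : ι} (hj : j ∈ T)
    (h0 : ∀ i ∈ T, i ≠ j → h i = 0) : merge_H T h = h j := by
  unfold merge_H
  rw [merge_M_single hj h0, merge_M_single (h := fun i => -h i) hj
    (fun i hi hij => by simp [h0 i hi hij])]
  rcases le_total (h j) 0 with h1 | h1
  · rw [max_eq_right h1, max_eq_left (by linarith)]; ring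
  · rw [max_eq_left h1, max_eq_right (by linarith)]; ring

open Classical in
lemma merge_point {ι : Type} (T : Finset ι) (h h' : ι → ℝ) {p : ℝ} (hp : 1 ≤ p) :
    abs (|merge_H T h - merge_H T h'| ^ p - ∑ i ∈ T, |h i - h' i| ^ p) ≤
      2 ^ p * ∑ i ∈ T, ∑ k ∈ T, if k ≠ i ∧ (h k ≠ 0 ∨ h' k ≠ 0) then |h i - h' i| ^ p else 0 := by
  have hp0 : 0 < p := by linarith
  have hnn : ∀ i k, 0 ≤ if k ≠ i ∧ (h k ≠ 0 ∨ h' k ≠ 0) then |h i - h' i| ^ p else 0 := by
    intro i k; split_ifs <;> positivity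
  have hR : 0 ≤ 2 ^ p * ∑ i ∈ T, ∑ k ∈ T,
      if k ≠ i ∧ (h k ≠ 0 ∨ h' k ≠ 0) then |h i - h' i| ^ p else 0 :=
    mul_nonneg (by positivity) (sum_nonneg fun i _ => sum_nonneg fun k _ => hnn i k)
  by_cases hA : ∃ j ∈ T, ∃ l ∈ T, j ≠ l ∧ (h j ≠ 0 ∨ h' j ≠ 0) ∧ (h l ≠ 0 ∨ h' l ≠ 0)
  · obtain ⟨j, hj, l, hl, hjl, hAj, hAl⟩ := hA
    set S := ∑ i ∈ T, |h i - h' i| ^ p with hS
    have hS0 : 0 ≤ S := sum_nonneg fun i _ => by positivity
    have h1 : S ≤ ∑ i ∈ T, ∑ k ∈ T,
        if k ≠ i ∧ (h k ≠ 0 ∨ h' k ≠ 0) then |h i - h' i| ^ p else 0 := by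
      refine sum_le_sum fun i _ => ?_
      by_cases hij : j = i
      · refine le_trans (le_of_eq ?_) (single_le_sum (fun k _ => hnn i k) hl)
        rw [if_pos ⟨by rw [← hij]; exact hjl.symm, hAl⟩]
      · refine le_trans (le_of_eq ?_) (single_le_sum (fun k _ => hnn i k) hj)
        rw [if_pos ⟨hij, hAj⟩]
    have h2 : |merge_H T h - merge_H T h'| ≤ 2 * S ^ p⁻¹ := by
      refine merge_H_lip T h h' (Real.rpow_nonneg hS0 _) fun i hi => ?_
      rw [Real.le_rpow_inv_iff_of_pos (abs_nonneg _) hS0 hp0]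
      exact single_le_sum (f := fun i => |h i - h' i| ^ p) (fun i _ => by positivity) hi
    have h3 : |merge_H T h - merge_H T h'| ^ p ≤ 2 ^ p * S := by
      have := Real.rpow_le_rpow (abs_nonneg _) h2 hp0.le
      rwa [Real.mul_rpow (by norm_num) (Real.rpow_nonneg hS0 _),
        Real.rpow_inv_rpow hS0 hp0.ne'] at this
    have h4 : (1 : ℝ) ≤ 2 ^ p := Real.one_le_rpow (by norm_num) hp0.le
    have h5 : 0 ≤ |merge_H T h - merge_H T h'| ^ p := by positivity
    have h6 := mul_le_mul_of_nonneg_left h1 (by positivity : (0 : ℝ) ≤ 2 ^ p)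
    have h7 : S ≤ 2 ^ p * S := le_mul_of_one_le_left hS0 h4
    rw [abs_le]; constructor <;> linarith
  · refine le_trans (le_of_eq ?_) hR
    rw [abs_eq_zero, sub_eq_zero]
    rcases T.eq_empty_or_nonempty with hT | hT
    · subst hT; simp [merge_H, merge_M, hp0.ne']
    obtain ⟨j, hj, h0⟩ : ∃ j ∈ T, ∀ i ∈ T, i ≠ j → h i = 0 ∧ h' i = 0 := by
      by_cases hB : ∃ j ∈ T, h j ≠ 0 ∨ h' j ≠ 0
      · obtain ⟨j, hj, hAj⟩ := hB
        refine ⟨j, hj, fun i hi hij => ?_⟩
        by_contra hc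
        exact hA ⟨i, hi, j, hj, hij, by tauto, hAj⟩
      · obtain ⟨j, hj⟩ := hT
        refine ⟨j, hj, fun i hi _ => ?_⟩
        by_contra hc
        exact hB ⟨i, hi, by tauto⟩
    rw [merge_H_single hj (fun i hi hij => (h0 i hi hij).1),
      merge_H_single hj (fun i hi hij => (h0 i hi hij).2), sum_eq_single_of_mem j hj]
    intro i hi hij
    rw [(h0 i hi hij).1, (h0 i hi hij).2]; simp [hp0.ne']

open Classical in
lemma merge_moment {ι : Type} [Fintype ι] (s : ι → ℝ) (J : Finset ι) :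
    ∑ σ : ι → Bool, (∏ i, if σ i then s i else 1 - s i) * (if ∀ j ∈ J, σ j then 1 else 0)
      = ∏ j ∈ J, s j := by
  have h1 : ∀ σ : ι → Bool, (if ∀ j ∈ J, σ j then (1 : ℝ) else 0)
      = ∏ i, if i ∈ J then (if σ i then 1 else 0) else 1 := by
    intro σ
    rw [prod_ite_mem, univ_inter, prod_boole]
    congr
  simp_rw [h1, ← prod_mul_distrib]
  rw [← Fintype.piFinset_univ, ← prod_univ_sum (t := fun _ => univ)
    (f := fun i (e : Bool) => (if e then s i else 1 - s i) *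
      (if i ∈ J then (if e then 1 else 0) else 1))]
  have h2 : ∏ j ∈ J, s j = ∏ i, if i ∈ J then s i else 1 := by rw [prod_ite_mem, univ_inter]
  rw [h2]
  refine prod_congr rfl fun i _ => ?_
  by_cases hi : i ∈ J <;> simp [hi]

open Classical in
/-- Keep coordinate `i` independently with probability `θ * w i` and output
`max (g i)⁺ - max (g i)⁻` over the kept coordinates. -/
theorem sparse_merge {α ι : Type} [PseudoMetricSpace α] [Fintype ι] (p : ℝ) (hp : 1 ≤ p)
    (w : ι → ℝ) (hw : ∀ i, 0 ≤ w i) (g : ι → α → ℝ)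
    (hL : ∀ i x y, |g i x - g i y| ≤ dist x y) (Q : ℝ)
    (hQ : ∀ x, ∑ i, (if g i x ≠ 0 then w i else 0) ≤ Q) (θ : ℝ) (hθ : 0 < θ)
    (hθQ : θ * Q ≤ 1) :
    ∃ (Ω : Type) (_ : Fintype Ω) (P : Ω → ℝ) (H : Ω → α → ℝ), (∀ ω, 0 ≤ P ω) ∧ ∑ ω, P ω = 1 ∧
      (∀ ω x y, |H ω x - H ω y| ≤ 2 * dist x y) ∧
      ∀ x y, |∑ ω, P ω * |H ω x - H ω y| ^ p - θ * ∑ i, w i * |g i x - g i y| ^ p| ≤
        (2 : ℝ) ^ (p + 1) * (θ * Q) * (θ * ∑ i, w i * |g i x - g i y| ^ p) := by
  have hp0 : 0 < p := by linarith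
  let s : ι → ℝ := fun i => if ∃ x, g i x ≠ 0 then θ * w i else 0
  have hs0 : ∀ i, 0 ≤ s i := fun i => by
    simp only [s]; split_ifs
    · exact mul_nonneg hθ.le (hw i)
    · exact le_rfl
  have hind : ∀ x i, 0 ≤ if g i x ≠ 0 then w i else 0 := fun x i => by
    split_ifs
    · exact hw i
    · exact le_rfl
  have hs1 : ∀ i, s i ≤ 1 := fun i => by
    simp only [s]; split_ifs with h
    · obtain ⟨x, hx⟩ := h
      have h1 := (single_le_sum (fun i _ => hind x i) (mem_univ i)).trans (hQ x)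
      rw [if_pos hx] at h1
      exact (mul_le_mul_of_nonneg_left h1 hθ.le).trans hθQ
    · exact zero_le_one
  let P : (ι → Bool) → ℝ := fun σ => ∏ i, if σ i then s i else 1 - s i
  have hP0 : ∀ σ, 0 ≤ P σ := fun σ => prod_nonneg fun i _ => by
    split_ifs
    · exact hs0 i
    · linarith [hs1 i]
  have m1 : ∀ i, ∑ σ, P σ * (if σ i then 1 else 0) = s i := fun i => by
    have := merge_moment s {i}
    simpa using this
  have m2 : ∀ i k, k ≠ i → ∑ σ, P σ * (if σ i ∧ σ k then 1 else 0) = s i * s k := fun i k hk => by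
    have := merge_moment s {i, k}
    rw [prod_pair hk.symm] at this
    simpa using this
  refine ⟨ι → Bool, inferInstance, P, fun σ x => merge_H (univ.filter fun i => σ i) (fun i => g i x),
    hP0, by simpa using merge_moment s ∅, fun σ x y =>
      merge_H_lip _ _ _ dist_nonneg fun i _ => hL i x y, fun x y => ?_⟩
  set d : ι → ℝ := fun i => |g i x - g i y| ^ p with hd
  have hd0 : ∀ i, 0 ≤ d i := fun i => by simp only [hd]; positivity
  have hsd : ∀ i, s i * d i = θ * (w i * d i) := fun i => by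
    simp only [s]; split_ifs with h
    · ring
    · push Not at h
      simp [hd, h, hp0.ne']
  have e1 : θ * ∑ i, w i * d i = ∑ i, s i * d i := by
    rw [mul_sum]; exact sum_congr rfl fun i _ => (hsd i).symm
  have e2 : ∑ i, s i * d i = ∑ σ, P σ * ∑ i ∈ univ.filter (fun i => σ i), d i := by
    simp_rw [← m1, sum_mul, sum_filter, mul_sum]
    rw [sum_comm]
    refine sum_congr rfl fun σ _ => sum_congr rfl fun i _ => ?_
    split_ifs <;> ring
  have e3 : ∑ σ, P σ * ∑ i ∈ univ.filter (fun i => σ i), ∑ k ∈ univ.filter (fun i => σ i),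
        (if k ≠ i ∧ (g k x ≠ 0 ∨ g k y ≠ 0) then d i else 0)
      = ∑ i, ∑ k, if k ≠ i ∧ (g k x ≠ 0 ∨ g k y ≠ 0) then s i * s k * d i else 0 := by
    have : ∀ σ : ι → Bool, P σ * ∑ i ∈ univ.filter (fun i => σ i),
        ∑ k ∈ univ.filter (fun i => σ i), (if k ≠ i ∧ (g k x ≠ 0 ∨ g k y ≠ 0) then d i else 0)
        = ∑ i, ∑ k, P σ * (if σ i ∧ σ k then 1 else 0) *
          (if k ≠ i ∧ (g k x ≠ 0 ∨ g k y ≠ 0) then d i else 0) := by
      intro σ
      rw [sum_filter, mul_sum]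
      refine sum_congr rfl fun i _ => ?_
      by_cases hi : σ i
      · rw [if_pos hi, sum_filter, mul_sum]
        refine sum_congr rfl fun k _ => ?_
        by_cases hk : σ k <;> simp [hi, hk]
      · simp [hi]
    simp_rw [this]
    rw [sum_comm]
    refine sum_congr rfl fun i _ => ?_
    rw [sum_comm]
    refine sum_congr rfl fun k _ => ?_
    rw [← sum_mul]
    by_cases hc : k ≠ i ∧ (g k x ≠ 0 ∨ g k y ≠ 0)
    · rw [if_pos hc, if_pos hc, m2 i k hc.1]
    · rw [if_neg hc, if_neg hc, mul_zero]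
  have e4 : ∀ i, (∑ k, if k ≠ i ∧ (g k x ≠ 0 ∨ g k y ≠ 0) then s i * s k * d i else 0)
      ≤ 2 * (θ * Q) * (s i * d i) := by
    intro i
    have hsi : 0 ≤ s i * d i := mul_nonneg (hs0 i) (hd0 i)
    have : ∀ k, (if k ≠ i ∧ (g k x ≠ 0 ∨ g k y ≠ 0) then s i * s k * d i else 0)
        ≤ θ * ((if g k x ≠ 0 then w k else 0) + (if g k y ≠ 0 then w k else 0)) * (s i * d i) := by
      intro k
      have a1 := hind x k
      have a2 := hind y k
      by_cases hc : k ≠ i ∧ (g k x ≠ 0 ∨ g k y ≠ 0)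
      · rw [if_pos hc]
        have a3 : s k ≤ θ * ((if g k x ≠ 0 then w k else 0) + (if g k y ≠ 0 then w k else 0)) := by
          have a4 : s k = θ * w k := by
            simp only [s]; rw [if_pos]
            rcases hc.2 with h | h
            · exact ⟨x, h⟩
            · exact ⟨y, h⟩
          rw [a4]
          refine mul_le_mul_of_nonneg_left ?_ hθ.le
          rcases hc.2 with h | h
          · rw [if_pos h] at a1 ⊢; linarith
          · rw [if_pos h] at a2 ⊢; linarith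
        calc s i * s k * d i = s k * (s i * d i) := by ring
          _ ≤ _ := mul_le_mul_of_nonneg_right a3 hsi
      · rw [if_neg hc]; positivity
    refine (sum_le_sum fun k _ => this k).trans ?_
    rw [← sum_mul, ← mul_sum, sum_add_distrib]
    refine mul_le_mul_of_nonneg_right ?_ hsi
    have := mul_le_mul_of_nonneg_left (add_le_add (hQ x) (hQ y)) hθ.le
    linarith
  change |∑ σ, P σ * _ - θ * ∑ i, w i * d i| ≤ _ * (θ * ∑ i, w i * d i)
  rw [e1]
  nth_rewrite 1 [e2]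
  rw [← sum_sub_distrib]
  refine (abs_sum_le_sum_abs _ _).trans ?_
  have e5 := fun σ : ι → Bool => mul_le_mul_of_nonneg_left
    (merge_point (univ.filter fun i => σ i) (fun i => g i x) (fun i => g i y) hp) (hP0 σ)
  refine (sum_le_sum (g := fun σ => 2 ^ p * (P σ * ∑ i ∈ univ.filter (fun i => σ i),
    ∑ k ∈ univ.filter (fun i => σ i), (if k ≠ i ∧ (g k x ≠ 0 ∨ g k y ≠ 0) then d i else 0)))
    fun σ _ => ?_).trans ?_
  · rw [← mul_sub, abs_mul, abs_of_nonneg (hP0 σ), mul_left_comm]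
    exact e5 σ
  · rw [← mul_sum, e3, Real.rpow_add (by norm_num), Real.rpow_one, mul_assoc, mul_assoc]
    refine mul_le_mul_of_nonneg_left ?_ (by positivity)
    rw [← mul_assoc, mul_sum]
    exact sum_le_sum fun i _ => e4 i

end Vale.Agent.P249
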