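import Mathlib

/-! Finite subsets of `L_p(μ)` are approximated by finite-dimensional configurations. -/

namespace Vale.Agent.P249

open Finset MeasureTheory

/-- the cone of finite sums of `p`-th power distance patterns on the line -/
def reduce_C (α : Type) (p : ℝ) : Set (α × α → ℝ) :=
  {v | ∃ (ι : Type) (_ : Fintype ι) (F : ι → α → ℝ), ∀ q : α × α,
    v q = ∑ i, |F i q.1 - F i q.2| ^ p}

lemma reduce_add {α : Type} {p : ℝ} {v w : α × α → ℝ} (hv : v ∈ reduce_C α p)
    (hw : w ∈ reduce_C α p) : v + w ∈ reduce_C α p := by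
  obtain ⟨ι, _, F, hF⟩ := hv
  obtain ⟨κ, _, G, hG⟩ := hw
  refine ⟨ι ⊕ κ, inferInstance, Sum.elim F G, fun q => ?_⟩
  simp [Fintype.sum_sum_type, hF, hG]

lemma reduce_smul {α : Type} {p : ℝ} (hp : 0 < p) {v : α × α → ℝ} (hv : v ∈ reduce_C α p)
    {t : ℝ} (ht : 0 ≤ t) : t • v ∈ reduce_C α p := by
  obtain ⟨ι, _, F, hF⟩ := hv
  refine ⟨ι, inferInstance, fun i a => t ^ p⁻¹ * F i a, fun q => ?_⟩
  rw [Pi.smul_apply, hF, smul_eq_mul, mul_sum]
  refine sum_congr rfl fun i _ => ?_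
  rw [← mul_sub, abs_mul, abs_of_nonneg (Real.rpow_nonneg ht _),
    Real.mul_rpow (Real.rpow_nonneg ht _) (abs_nonneg _), Real.rpow_inv_rpow ht hp.ne']

lemma reduce_zero (α : Type) (p : ℝ) : (0 : α × α → ℝ) ∈ reduce_C α p :=
  ⟨Empty, inferInstance, fun e => e.elim, fun q => by simp⟩

lemma reduce_one {α : Type} (p : ℝ) (a : α → ℝ) :
    (fun q : α × α => |a q.1 - a q.2| ^ p) ∈ reduce_C α p :=
  ⟨Unit, inferInstance, fun _ => a, fun q => by simp⟩

theorem reduce_Lp {Ω : Type*} [MeasurableSpace Ω] (μ : Measure Ω) (p : ℝ) (hp : 1 ≤ p)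
    {α : Type} [Fintype α] (x : α → Lp ℝ (ENNReal.ofReal p) μ) (hx : Function.Injective x)
    (δ : ℝ) (hδ : 0 < δ) :
    ∃ (ι : Type) (_ : Fintype ι) (F : ι → α → ℝ), ∀ a b,
      (1 - δ) * ‖x a - x b‖ ^ p ≤ ∑ i, |F i a - F i b| ^ p ∧
      ∑ i, |F i a - F i b| ^ p ≤ (1 + δ) * ‖x a - x b‖ ^ p := by
  classical
  have hp0 : 0 < p := by linarith
  haveI : Fact (1 ≤ ENNReal.ofReal p) := ⟨by simpa using hp⟩
  have hne0 : ENNReal.ofReal p ≠ 0 := by simpa using hp0
  have hnet : ENNReal.ofReal p ≠ ⊤ := ENNReal.ofReal_ne_top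
  have htr : (ENNReal.ofReal p).toReal = p := ENNReal.toReal_ofReal hp0.le
  let v : α × α → ℝ := fun q => ‖x q.1 - x q.2‖ ^ p
  let G : Ω → α × α → ℝ := fun ω q => |x q.1 ω - x q.2 ω| ^ p
  have hae : ∀ q : α × α, (fun ω => ‖(x q.1 - x q.2 : Lp ℝ (ENNReal.ofReal p) μ) ω‖ ^ p)
      =ᵐ[μ] fun ω => G ω q := by
    intro q
    filter_upwards [Lp.coeFn_sub (x q.1) (x q.2)] with ω hω
    rw [hω]; rfl
  have hint : ∀ q : α × α, Integrable (fun ω => G ω q) μ := by
    intro q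
    have := (Lp.memLp (x q.1 - x q.2)).integrable_norm_rpow hne0 hnet
    rw [htr] at this
    exact this.congr (hae q)
  have hG : Integrable G μ := integrable_pi_iff.2 hint
  have hv : v = ∫ ω, G ω ∂μ := by
    ext q
    rw [eval_integral hint, ← integral_congr_ae (hae q)]
    have h0 : 0 ≤ ∫ ω, ‖(x q.1 - x q.2 : Lp ℝ (ENNReal.ofReal p) μ) ω‖ ^ p ∂μ :=
      integral_nonneg fun ω => Real.rpow_nonneg (norm_nonneg _) _
    simp only [v]
    rw [Lp.norm_def, (Lp.memLp (x q.1 - x q.2)).eLpNorm_eq_integral_rpow_norm hne0 hnet, htr,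
      ENNReal.toReal_ofReal (Real.rpow_nonneg h0 _), Real.rpow_inv_rpow h0 hp0.ne']
  have hconv : Convex ℝ (reduce_C α p) := fun a ha b hb s t hs ht _ =>
    reduce_add (reduce_smul hp0 ha hs) (reduce_smul hp0 hb ht)
  have hcl : v ∈ closure (reduce_C α p) := by
    by_contra hcon
    obtain ⟨f, u, h1, h2⟩ := geometric_hahn_banach_closed_point hconv.closure isClosed_closure hcon
    have hu : 0 < u := by simpa using h1 0 (subset_closure (reduce_zero α p))
    have hle : ∀ c ∈ reduce_C α p, f c ≤ 0 := by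
      intro c hc
      by_contra hpos
      push Not at hpos
      have := h1 _ (subset_closure (reduce_smul hp0 hc (t := u / f c) (by positivity)))
      rw [map_smul, smul_eq_mul, div_mul_cancel₀ _ hpos.ne'] at this
      exact lt_irrefl _ this
    rw [hv, ← f.integral_comp_comm hG] at h2
    have : ∫ ω, f (G ω) ∂μ ≤ 0 :=
      integral_nonpos fun ω => hle _ (reduce_one p fun a => x a ω)
    linarith
  have hopen : IsOpen {c : α × α → ℝ | ∀ q : α × α, q.1 ≠ q.2 → |c q - v q| < δ * v q} := by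
    simp only [Set.ofPred_forall]
    refine isOpen_iInter_of_finite fun q => isOpen_iInter_of_finite fun _ => ?_
    exact isOpen_lt (by fun_prop) continuous_const
  obtain ⟨c, hc1, ι, hι, F, hF⟩ := mem_closure_iff.1 hcl _ hopen (by
    intro q hq
    have : 0 < ‖x q.1 - x q.2‖ := norm_pos_iff.2 (sub_ne_zero.2 (hx.ne hq))
    simp only [sub_self, abs_zero, v]
    positivity)
  refine ⟨ι, hι, F, fun a b => ?_⟩
  by_cases hab : a = b
  · subst hab; simp [hp0.ne']
  · have h1 := abs_lt.1 (hc1 (a, b) hab)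
    rw [hF] at h1
    simp only [v] at h1
    constructor <;> linarith [h1.1, h1.2]

end Vale.Agent.P249
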