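import Mathlib

/-! Empirical approximation of finitely many bounded means (exponential potential argument). -/

namespace Vale.Agent.P249

open Finset

lemma sample_exp_le {t : ℝ} (ht : |t| ≤ 1) : Real.exp t ≤ 1 + t + t ^ 2 := by
  have h := Real.abs_exp_sub_one_sub_id_le ht
  have := (abs_le.1 h).2
  linarith

lemma sample_mgf {Ω : Type*} [Fintype Ω] (P : Ω → ℝ) (hP0 : ∀ ω, 0 ≤ P ω)
    (hP1 : ∑ ω, P ω = 1) (Y : Ω → ℝ) (c : ℝ) (hc : c ≤ 1) (hY : ∀ ω, |Y ω| ≤ c)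
    (hm : ∑ ω, P ω * Y ω = 0) : ∑ ω, P ω * Real.exp (Y ω) ≤ Real.exp (c ^ 2) := by
  have h1 : ∀ ω, P ω * Real.exp (Y ω) ≤ P ω * (1 + c ^ 2) + P ω * Y ω := by
    intro ω
    have h2 := sample_exp_le ((hY ω).trans hc)
    have h3 : Y ω ^ 2 ≤ c ^ 2 := by
      rw [← sq_abs]; exact pow_le_pow_left₀ (abs_nonneg _) (hY ω) 2
    nlinarith [hP0 ω]
  calc ∑ ω, P ω * Real.exp (Y ω) ≤ ∑ ω, (P ω * (1 + c ^ 2) + P ω * Y ω) :=
        sum_le_sum fun ω _ => h1 ω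
    _ = 1 + c ^ 2 := by rw [sum_add_distrib, hm, ← sum_mul, hP1]; ring
    _ ≤ Real.exp (c ^ 2) := by linarith [Real.add_one_le_exp (c ^ 2)]

lemma sample_step {Ω A : Type*} [Fintype Ω] [Fintype A] (P : Ω → ℝ) (hP0 : ∀ ω, 0 ≤ P ω)
    (hP1 : ∑ ω, P ω = 1) (Y : A → Ω → ℝ) (c : ℝ) (hc : c ≤ 1) (hY : ∀ a ω, |Y a ω| ≤ c)
    (hm : ∀ a, ∑ ω, P ω * Y a ω = 0) (S : A → ℝ) :
    ∃ ω, ∑ a, (Real.exp (S a + Y a ω) + Real.exp (-(S a + Y a ω)))
      ≤ Real.exp (c ^ 2) * ∑ a, (Real.exp (S a) + Real.exp (-S a)) := by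
  by_contra hcon
  push Not at hcon
  set K := Real.exp (c ^ 2) * ∑ a, (Real.exp (S a) + Real.exp (-S a)) with hK
  have h1 : ∑ ω, P ω * ∑ a, (Real.exp (S a + Y a ω) + Real.exp (-(S a + Y a ω))) ≤ K := by
    simp_rw [mul_sum]
    rw [sum_comm, hK, mul_sum]
    refine sum_le_sum fun a _ => ?_
    have e1 := sample_mgf P hP0 hP1 (Y a) c hc (hY a) (hm a)
    have e2 := sample_mgf P hP0 hP1 (fun ω => -Y a ω) c hc (fun ω => by simpa using hY a ω)
      (by simp [hm a])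
    have e3 : ∑ ω, P ω * (Real.exp (S a + Y a ω) + Real.exp (-(S a + Y a ω)))
        = Real.exp (S a) * ∑ ω, P ω * Real.exp (Y a ω)
          + Real.exp (-S a) * ∑ ω, P ω * Real.exp (-Y a ω) := by
      rw [mul_sum, mul_sum, ← sum_add_distrib]
      refine sum_congr rfl fun ω _ => ?_
      rw [neg_add, Real.exp_add, Real.exp_add]; ring
    rw [e3]
    have := mul_le_mul_of_nonneg_left e1 (Real.exp_pos (S a)).le
    have := mul_le_mul_of_nonneg_left e2 (Real.exp_pos (-S a)).le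
    linarith
  obtain ⟨ω₀, hω₀⟩ : ∃ ω, 0 < P ω := by
    by_contra h
    push Not at h
    have : ∑ ω, P ω ≤ 0 := sum_nonpos fun ω _ => h ω
    linarith
  have h2 : ∑ ω, P ω * K
      < ∑ ω, P ω * ∑ a, (Real.exp (S a + Y a ω) + Real.exp (-(S a + Y a ω))) :=
    sum_lt_sum (fun ω _ => mul_le_mul_of_nonneg_left (hcon ω).le (hP0 ω))
      ⟨ω₀, mem_univ _, mul_lt_mul_of_pos_left (hcon ω₀) hω₀⟩
  rw [← sum_mul, hP1, one_mul] at h2
  linarith

lemma sample_iter {Ω A : Type*} [Fintype Ω] [Fintype A] (P : Ω → ℝ) (hP0 : ∀ ω, 0 ≤ P ω)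
    (hP1 : ∑ ω, P ω = 1) (Y : A → Ω → ℝ) (c : ℝ) (hc : c ≤ 1) (hY : ∀ a ω, |Y a ω| ≤ c)
    (hm : ∀ a, ∑ ω, P ω * Y a ω = 0) (N : ℕ) :
    ∃ s : Fin N → Ω, ∑ a, (Real.exp (∑ k, Y a (s k)) + Real.exp (-∑ k, Y a (s k)))
      ≤ Real.exp (N * c ^ 2) * (2 * Fintype.card A) := by
  induction N with
  | zero =>
    refine ⟨Fin.elim0, ?_⟩
    simp; linarith
  | succ n ih =>
    obtain ⟨s, hs⟩ := ih
    obtain ⟨ω, hω⟩ := sample_step P hP0 hP1 Y c hc hY hm (fun a => ∑ k, Y a (s k))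
    refine ⟨Fin.cons ω s, ?_⟩
    simp only [Fin.sum_univ_succ, Fin.cons_zero, Fin.cons_succ]
    have e : Real.exp (((n + 1 : ℕ) : ℝ) * c ^ 2) = Real.exp (c ^ 2) * Real.exp (n * c ^ 2) := by
      rw [← Real.exp_add]; congr 1; push_cast; ring
    rw [e, mul_assoc]
    refine le_trans (le_of_eq ?_) (hω.trans (mul_le_mul_of_nonneg_left hs (Real.exp_pos _).le))
    refine sum_congr rfl fun a _ => ?_
    rw [add_comm (Y a ω)]

/-- If `Z a` takes values in `[0, B]`, some `N`-tuple of sample points approximates all the means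
`∑ ω, P ω * Z a ω` to within `η`. -/
theorem sampling {Ω A : Type*} [Fintype Ω] [Fintype A] (P : Ω → ℝ) (hP0 : ∀ ω, 0 ≤ P ω)
    (hP1 : ∑ ω, P ω = 1) (Z : A → Ω → ℝ) (B : ℝ) (hB : 0 < B) (hZ0 : ∀ a ω, 0 ≤ Z a ω)
    (hZB : ∀ a ω, Z a ω ≤ B) (η : ℝ) (hη : 0 < η) (hηB : η ≤ B) (N : ℕ) (hN0 : 0 < N)
    (hN : 4 * B ^ 2 * Real.log (2 * (Fintype.card A : ℝ) + 2) / η ^ 2 ≤ N) :
    ∃ s : Fin N → Ω, ∀ a, |(∑ k, Z a (s k)) / N - ∑ ω, P ω * Z a ω| ≤ η := by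
  set μ : A → ℝ := fun a => ∑ ω, P ω * Z a ω with hμ
  have hμ0 : ∀ a, 0 ≤ μ a := fun a => sum_nonneg fun ω _ => mul_nonneg (hP0 ω) (hZ0 a ω)
  have hμB : ∀ a, μ a ≤ B := fun a => by
    calc μ a ≤ ∑ ω, P ω * B := sum_le_sum fun ω _ => mul_le_mul_of_nonneg_left (hZB a ω) (hP0 ω)
      _ = B := by rw [← sum_mul, hP1, one_mul]
  set l : ℝ := η / (2 * B ^ 2) with hl
  have hl0 : 0 < l := by positivity
  have hlB : l * B ≤ 1 := by
    rw [hl, div_mul_eq_mul_div, div_le_one (by positivity)]; nlinarith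
  obtain ⟨s, hs⟩ := sample_iter P hP0 hP1 (fun a ω => l * (Z a ω - μ a)) (l * B) hlB
    (fun a ω => by
      rw [abs_mul, abs_of_pos hl0]
      refine mul_le_mul_of_nonneg_left (abs_le.2 ⟨?_, ?_⟩) hl0.le
      · linarith [hZ0 a ω, hμB a]
      · linarith [hZB a ω, hμ0 a])
    (fun a => by
      have : ∀ ω, P ω * (l * (Z a ω - μ a)) = l * (P ω * Z a ω) - l * μ a * P ω := by
        intro ω; ring
      simp_rw [this]
      rw [sum_sub_distrib, ← mul_sum, ← mul_sum, hP1]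
      simp [hμ]) N
  refine ⟨s, fun a => ?_⟩
  have hN' : (0 : ℝ) < N := by exact_mod_cast hN0
  set S := ∑ k, l * (Z a (s k) - μ a) with hS
  have h1 : Real.exp S + Real.exp (-S) ≤ Real.exp (N * (l * B) ^ 2) * (2 * Fintype.card A) :=
    le_trans (single_le_sum (f := fun a => Real.exp (∑ k, l * (Z a (s k) - μ a))
      + Real.exp (-∑ k, l * (Z a (s k) - μ a))) (fun a _ => by positivity) (mem_univ a)) hs
  set L := Real.log (2 * (Fintype.card A : ℝ) + 2) with hL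
  have h2 : Real.exp (N * (l * B) ^ 2) * (2 * Fintype.card A)
      ≤ Real.exp (N * (l * B) ^ 2 + L) := by
    rw [Real.exp_add, hL, Real.exp_log (by positivity)]
    exact mul_le_mul_of_nonneg_left (by linarith) (Real.exp_pos _).le
  have h3 : |S| ≤ N * (l * B) ^ 2 + L := by
    rw [abs_le]
    constructor
    · have : Real.exp (-S) ≤ Real.exp (N * (l * B) ^ 2 + L) := by linarith [Real.exp_pos S]
      linarith [Real.exp_le_exp.1 this]
    · have : Real.exp S ≤ Real.exp (N * (l * B) ^ 2 + L) := by linarith [Real.exp_pos (-S)]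
      exact Real.exp_le_exp.1 this
  have h4 : S = (l * N) * ((∑ k, Z a (s k)) / N - μ a) := by
    rw [hS, ← mul_sum, sum_sub_distrib]
    simp; field_simp
  have h5 : L ≤ N * η ^ 2 / (4 * B ^ 2) := by
    rw [div_le_iff₀ (by positivity)] at hN
    rw [le_div_iff₀ (by positivity)]; linarith
  have h6 : N * (l * B) ^ 2 + N * η ^ 2 / (4 * B ^ 2) = (l * N) * η := by
    rw [hl]; field_simp; ring
  rw [h4, abs_mul, abs_of_pos (by positivity : 0 < l * N)] at h3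
  exact le_of_mul_le_mul_left (h3.trans (by linarith)) (by positivity : 0 < l * N)

end Vale.Agent.P249
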