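import Vale.Agent.P249.Window
import Vale.Agent.P249.Merge
import Vale.Agent.P249.Sample
import Vale.Agent.P249.Hajlasz
import Vale.Agent.P249.Reduce

/-! From upper gradients of small mass to low-dimensional embeddings. -/

namespace Vale.Agent.P249

open Finset

/-- Sampling step: a sparse family of `1`-Lipschitz coordinates is compressed. -/
theorem compress {α κ : Type} [PseudoMetricSpace α] [Fintype α] [Fintype κ] (p : ℝ) (hp : 1 ≤ p)
    (w : κ → ℝ) (g : κ → α → ℝ) (hw : ∀ k, 0 ≤ w k) (hg : ∀ k x y, |g k x - g k y| ≤ dist x y)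
    (Q : ℝ) (hQ1 : 1 ≤ Q)
    (hQ : ∀ x, ∑ k, (open Classical in if g k x ≠ 0 then w k else 0) ≤ Q)
    (ε : ℝ) (hε : 0 < ε) (hε1 : ε ≤ 1) (N : ℕ) (hN0 : 0 < N)
    (hN : 4 * (2 ^ p * (2 ^ (p + 1) * Q / ε)) ^ 2 *
      Real.log (2 * (Fintype.card α : ℝ) ^ 2 + 2) / ε ^ 2 ≤ N) :
    ∃ φ : α → Fin N → ℝ, ∀ x y,
      (1 - ε) * ∑ k, w k * |g k x - g k y| ^ p - ε * dist x y ^ p ≤ ∑ k, |φ x k - φ y k| ^ p ∧
      ∑ k, |φ x k - φ y k| ^ p ≤ (1 + ε) * ∑ k, w k * |g k x - g k y| ^ p + ε * dist x y ^ p := by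
  have hp0 : 0 < p := by linarith
  have h2p : (1 : ℝ) ≤ 2 ^ p := Real.one_le_rpow (by norm_num) hp0.le
  have h2p1 : (1 : ℝ) ≤ 2 ^ (p + 1) := Real.one_le_rpow (by norm_num) (by linarith)
  have hQ0 : 0 < Q := by linarith
  set θ := ε / (2 ^ (p + 1) * Q) with hθ
  have hθ0 : 0 < θ := by positivity
  have hθQ : 2 ^ (p + 1) * (θ * Q) = ε := by
    rw [hθ]
    field_simp
  have hθQ1 : θ * Q ≤ 1 := by
    have : 0 < θ * Q := by positivity
    nlinarith
  obtain ⟨Ω, hΩ, P, H, hP0, hP1, hH, hE⟩ := sparse_merge p hp w hw g hg Q hQ θ hθ0 hθQ1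
  simp only [hθQ] at hE
  have hBeq : (2 : ℝ) ^ p * (2 ^ (p + 1) * Q / ε) = 2 ^ p / θ := by
    rw [hθ]
    field_simp
  rw [hBeq] at hN
  have hθ1 : θ ≤ 1 := by nlinarith
  obtain ⟨s, hs⟩ := sampling (A := α × α) P hP0 hP1
    (fun q ω => |H ω q.1 - H ω q.2| ^ p / (θ * dist q.1 q.2 ^ p)) (2 ^ p / θ) (by positivity)
    (fun q ω => by positivity) (fun q ω => by
      rcases eq_or_lt_of_le (dist_nonneg : 0 ≤ dist q.1 q.2) with h | h
      · rw [← h, Real.zero_rpow hp0.ne', mul_zero, div_zero]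
        positivity
      · have h1 := Real.rpow_le_rpow (abs_nonneg _) (hH ω q.1 q.2) hp0.le
        rw [Real.mul_rpow (by norm_num) h.le] at h1
        have : 0 < dist q.1 q.2 ^ p := by positivity
        rw [div_le_div_iff₀ (by positivity) hθ0]
        nlinarith)
    ε hε (by
      rw [le_div_iff₀ hθ0]
      nlinarith) N hN0 (by
      rw [Fintype.card_prod]
      push_cast
      rw [← sq]
      exact hN)
  have hN' : (0 : ℝ) < N := Nat.cast_pos.2 hN0
  set a := (θ * N) ^ (1 / p) with ha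
  have ha0 : 0 < a := by positivity
  have hap : a ^ p = θ * N := by
    rw [ha, ← Real.rpow_mul (by positivity), one_div_mul_cancel hp0.ne', Real.rpow_one]
  refine ⟨fun x k => H (s k) x / a, fun x y => ?_⟩
  have e1 : ∑ k, |H (s k) x / a - H (s k) y / a| ^ p =
      (∑ k, |H (s k) x - H (s k) y| ^ p) / (θ * N) := by
    rw [sum_div]
    refine sum_congr rfl fun k _ => ?_
    rw [← sub_div, abs_div, abs_of_pos ha0, Real.div_rpow (abs_nonneg _) ha0.le, hap]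
  simp only
  rw [e1]
  rcases eq_or_lt_of_le (dist_nonneg : 0 ≤ dist x y) with h | h
  · have z1 : ∀ ω, H ω x - H ω y = 0 := fun ω => by
      have := hH ω x y
      rw [← h, mul_zero] at this
      exact abs_nonpos_iff.1 this
    have z2 : ∀ k, g k x - g k y = 0 := fun k => by
      have := hg k x y
      rw [← h] at this
      exact abs_nonpos_iff.1 this
    simp [z1, z2, ← h, Real.zero_rpow hp0.ne']
  · have hdp : 0 < dist x y ^ p := by positivity
    have k1 := hs (x, y)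
    have k2 := hE x y
    simp only at k1
    set S := ∑ k, w k * |g k x - g k y| ^ p
    set T := ∑ k, |H (s k) x - H (s k) y| ^ p
    set U := ∑ ω, P ω * |H ω x - H ω y| ^ p with hU
    have e2 : ∑ ω, P ω * (|H ω x - H ω y| ^ p / (θ * dist x y ^ p)) =
        U / (θ * dist x y ^ p) := by
      rw [hU, sum_div]
      exact sum_congr rfl fun ω _ => by ring
    rw [← sum_div, e2] at k1
    have e3 : T / (θ * dist x y ^ p) / N - U / (θ * dist x y ^ p) =
        (T / (θ * N) - U / θ) / dist x y ^ p := by field_simp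
    rw [e3, abs_div, abs_of_pos hdp, div_le_iff₀ hdp, abs_le] at k1
    have k3 : |U / θ - S| ≤ ε * S := by
      have : U / θ - S = (U - θ * S) / θ := by field_simp
      rw [this, abs_div, abs_of_pos hθ0, div_le_iff₀ hθ0]
      linarith
    rw [abs_le] at k3
    constructor <;> linarith [k1.1, k1.2, k3.1, k3.2]

theorem embed_of_gradient {α ι : Type} [PseudoMetricSpace α] [Fintype α] [Fintype ι] (p : ℝ)
    (hp : 1 ≤ p) (F : ι → α → ℝ) (hd : ∀ x y, ∑ i, |F i x - F i y| ^ p = dist x y ^ p)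
    (l : ι → α → ℝ) (hl0 : ∀ i x, 0 ≤ l i x)
    (hl : ∀ i x y, |F i x - F i y| ≤ (l i x + l i y) * dist x y)
    (M : ℝ) (hM0 : 0 ≤ M) (hM : ∀ x, ∑ i, l i x ^ p ≤ M) (ε : ℝ) (hε : 0 < ε) (hε1 : ε ≤ 1)
    (W : ℕ) (hW : 0 < W) (hWε : 128 * (M + 1) ^ (1 / p) / W ≤ ε) (N : ℕ) (hN0 : 0 < N)
    (hN : 4 * (2 ^ p * (2 ^ (p + 1) * ((8 * 4 ^ W) ^ p * (M + 1)) / ε)) ^ 2 *
      Real.log (2 * (Fintype.card α : ℝ) ^ 2 + 2) / ε ^ 2 ≤ N) :
    ∃ φ : α → Fin N → ℝ, ∀ x y,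
      ((1 - ε) * (1 - ε) ^ p - ε) * dist x y ^ p ≤ ∑ k, |φ x k - φ y k| ^ p ∧
      ∑ k, |φ x k - φ y k| ^ p ≤ ((1 + ε) * (1 + ε) ^ p + ε) * dist x y ^ p := by
  have hp0 : 0 < p := by linarith
  obtain ⟨κ, hκ, w, g, hw, hg, hQ, hS⟩ := windows p hp F hd l hl0 hl M hM0 hM W hW
  have h8 : (1 : ℝ) ≤ (8 * 4 ^ W) ^ p := Real.one_le_rpow (by
    have : (1 : ℝ) ≤ 4 ^ W := one_le_pow₀ (by norm_num)
    linarith) hp0.le
  obtain ⟨φ, hφ⟩ := compress p hp w g hw hg ((8 * 4 ^ W) ^ p * (M + 1)) (by nlinarith)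
    (fun x => (hQ x).trans (by nlinarith)) ε hε hε1 N hN0 hN
  refine ⟨φ, fun x y => ?_⟩
  obtain ⟨k1, k2⟩ := hφ x y
  have k3 := (hS x y).trans (mul_le_mul_of_nonneg_right hWε dist_nonneg)
  set S := ∑ k, w k * |g k x - g k y| ^ p with hSdef
  have hS0 : 0 ≤ S := sum_nonneg fun k _ => mul_nonneg (hw k) (by positivity)
  have hSp : (S ^ (1 / p)) ^ p = S := by
    rw [← Real.rpow_mul hS0, one_div_mul_cancel hp0.ne', Real.rpow_one]
  rw [abs_le] at k3
  have hd0 : 0 ≤ dist x y := dist_nonneg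
  have lo : (1 - ε) ^ p * dist x y ^ p ≤ S := by
    rw [← hSp, ← Real.mul_rpow (by linarith) hd0]
    exact Real.rpow_le_rpow (mul_nonneg (by linarith) hd0) (by linarith [k3.1]) hp0.le
  have hi : S ≤ (1 + ε) ^ p * dist x y ^ p := by
    rw [← hSp, ← Real.mul_rpow (by linarith) hd0]
    exact Real.rpow_le_rpow (by positivity) (by linarith [k3.2]) hp0.le
  have lo' := mul_le_mul_of_nonneg_left lo (by linarith : 0 ≤ 1 - ε)
  have hi' := mul_le_mul_of_nonneg_left hi (by linarith : 0 ≤ 1 + ε)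
  constructor <;> nlinarith

theorem le_exp_mul {K Y : ℝ} (hK : 0 ≤ K) (hY : 1 ≤ Y) : K ≤ Real.exp (K * Y) := by
  have := Real.add_one_le_exp (K * Y)
  nlinarith

/-- The dimension count. -/
theorem dim_count (p ε A : ℝ) (hp : 1 ≤ p) (hε : 0 < ε) (hA : 0 ≤ A) :
    ∃ c : ℝ, 0 < c ∧ ∀ (M Y L : ℝ), 0 ≤ M → 1 ≤ Y → (M + 1) ^ (1 / p) ≤ A * Y → 0 ≤ L →
      L ≤ Real.exp (A * Y) → ∃ W N : ℕ, 0 < W ∧ 128 * (M + 1) ^ (1 / p) / W ≤ ε ∧ 0 < N ∧
        4 * (2 ^ p * (2 ^ (p + 1) * ((8 * 4 ^ W) ^ p * (M + 1)) / ε)) ^ 2 * L / ε ^ 2 ≤ N ∧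
        (N : ℝ) ≤ Real.exp (c * Y) := by
  have hp0 : 0 < p := by linarith
  set K : ℝ := 4 * (2 ^ p * (2 ^ (p + 1) * 8 ^ p / ε)) ^ 2 / ε ^ 2 with hK
  have hK0 : 0 ≤ K := by positivity
  set c1 : ℝ := 128 * A / ε + 1 with hc1
  have hc10 : 0 < c1 := by positivity
  refine ⟨K + 2 * (2 * c1 * p) + 2 * (A * p) + A + 1, by positivity, ?_⟩
  intro M Y L hM hY hMY hL0 hL
  have hM1 : (1 : ℝ) ≤ (M + 1) ^ (1 / p) := Real.one_le_rpow (by linarith) (by positivity)
  set W := ⌈128 * (M + 1) ^ (1 / p) / ε⌉₊ with hW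
  have hW0 : 0 < W := Nat.ceil_pos.2 (by positivity)
  have hW0' : (0 : ℝ) < W := Nat.cast_pos.2 hW0
  have hW1 : 128 * (M + 1) ^ (1 / p) / ε ≤ W := Nat.le_ceil _
  have hW2 : (W : ℝ) ≤ c1 * Y := by
    have h1 := Nat.ceil_lt_add_one (by positivity : 0 ≤ 128 * (M + 1) ^ (1 / p) / ε)
    have h2 : 128 * (M + 1) ^ (1 / p) / ε ≤ 128 * A / ε * Y := by
      rw [div_mul_eq_mul_div]
      exact div_le_div_of_nonneg_right (by nlinarith) hε.le
    rw [hc1]
    nlinarith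
  set X := 4 * (2 ^ p * (2 ^ (p + 1) * ((8 * 4 ^ W) ^ p * (M + 1)) / ε)) ^ 2 * L / ε ^ 2 with hX
  have hX0 : 0 ≤ X := by positivity
  refine ⟨W, ⌊X⌋₊ + 1, hW0, ?_, Nat.succ_pos _, ?_, ?_⟩
  · rw [div_le_iff₀ hW0']
    rw [div_le_iff₀ hε] at hW1
    linarith
  · push_cast
    exact (Nat.lt_floor_add_one X).le
  · have b1 : ((4 : ℝ) ^ W) ^ p ≤ Real.exp (2 * c1 * p * Y) := by
      have h4 : (4 : ℝ) ≤ Real.exp 2 := by
        have := Real.add_one_le_exp (1 : ℝ)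
        have e : Real.exp 2 = Real.exp 1 * Real.exp 1 := by rw [← Real.exp_add]; norm_num
        nlinarith
      have h5 : (4 : ℝ) ^ W ≤ Real.exp (2 * c1 * Y) := by
        calc (4 : ℝ) ^ W ≤ Real.exp 2 ^ W := pow_le_pow_left₀ (by norm_num) h4 W
          _ = Real.exp (W * 2) := (Real.exp_nat_mul 2 W).symm
          _ ≤ _ := Real.exp_le_exp.2 (by linarith)
      calc ((4 : ℝ) ^ W) ^ p ≤ Real.exp (2 * c1 * Y) ^ p :=
            Real.rpow_le_rpow (by positivity) h5 hp0.le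
        _ = _ := by rw [← Real.exp_mul]; congr 1; ring
    have b2 : M + 1 ≤ Real.exp (A * p * Y) := by
      have h1 : (M + 1) ^ (1 / p) ≤ Real.exp (A * Y) := by
        have := Real.add_one_le_exp (A * Y)
        linarith
      calc M + 1 = ((M + 1) ^ (1 / p)) ^ p := by
            rw [← Real.rpow_mul (by linarith), one_div_mul_cancel hp0.ne', Real.rpow_one]
        _ ≤ Real.exp (A * Y) ^ p := Real.rpow_le_rpow (by positivity) h1 hp0.le
        _ = _ := by rw [← Real.exp_mul]; congr 1; ring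
    have b3 := le_exp_mul hK0 hY
    have e : X = K * (((4 : ℝ) ^ W) ^ p) ^ 2 * (M + 1) ^ 2 * L := by
      rw [hX, hK, Real.mul_rpow (by norm_num) (by positivity)]
      field_simp
    have b4 : X ≤ Real.exp ((K + 2 * (2 * c1 * p) + 2 * (A * p) + A) * Y) := by
      have e2 : Real.exp ((K + 2 * (2 * c1 * p) + 2 * (A * p) + A) * Y) =
          Real.exp (K * Y) * Real.exp (2 * c1 * p * Y) ^ 2 * Real.exp (A * p * Y) ^ 2 *
            Real.exp (A * Y) := by
        rw [sq, sq, ← Real.exp_add, ← Real.exp_add, ← Real.exp_add, ← Real.exp_add,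
          ← Real.exp_add]
        congr 1
        ring
      rw [e, e2]
      gcongr
    have b5 : (1 : ℝ) ≤ Real.exp ((K + 2 * (2 * c1 * p) + 2 * (A * p) + A) * Y) :=
      Real.one_le_exp (by positivity)
    have b6 : (2 : ℝ) ≤ Real.exp Y := by
      have := Real.add_one_le_exp Y
      linarith
    have b7 := Nat.floor_le hX0
    push_cast
    rw [add_mul _ 1 Y, one_mul, Real.exp_add]
    nlinarith

theorem exists_eps (p D : ℝ) (hp : 1 ≤ p) (hD : 1 < D) : ∃ ε : ℝ, 0 < ε ∧ ε ≤ 1 / 2 ∧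
    0 < (1 - ε) * (1 - ε) ^ p - ε ∧
    ((1 + ε) * (1 + ε) ^ p + ε) * (1 + ε) ≤ D ^ p * (((1 - ε) * (1 - ε) ^ p - ε) * (1 - ε)) := by
  have hp0 : 0 ≤ p := by linarith
  have c1 : Continuous fun ε : ℝ => (1 - ε) * (1 - ε) ^ p - ε := by
    have := (Real.continuous_rpow_const hp0).comp (continuous_const.sub continuous_id :
      Continuous fun ε : ℝ => 1 - ε)
    exact ((continuous_const.sub continuous_id).mul this).sub continuous_id
  have c2 : Continuous fun ε : ℝ => (1 + ε) * (1 + ε) ^ p + ε := by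
    have := (Real.continuous_rpow_const hp0).comp (continuous_const.add continuous_id :
      Continuous fun ε : ℝ => 1 + ε)
    exact ((continuous_const.add continuous_id).mul this).add continuous_id
  have hDp : 1 < D ^ p := Real.one_lt_rpow hD (by linarith)
  have e1 : ∀ᶠ ε in nhds (0 : ℝ), 0 < (1 - ε) * (1 - ε) ^ p - ε :=
    continuous_const.continuousAt.eventually_lt c1.continuousAt (by simp)
  have e2 : ∀ᶠ ε in nhds (0 : ℝ), ((1 + ε) * (1 + ε) ^ p + ε) * (1 + ε) <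
      D ^ p * (((1 - ε) * (1 - ε) ^ p - ε) * (1 - ε)) :=
    (c2.mul (continuous_const.add continuous_id)).continuousAt.eventually_lt
      (continuous_const.mul (c1.mul (continuous_const.sub continuous_id))).continuousAt
      (by simpa using hDp)
  have e3 : ∀ᶠ ε in nhds (0 : ℝ), ε < 1 / 2 := eventually_lt_nhds (by norm_num)
  have e4 := ((e1.and (e2.and e3)).filter_mono (nhdsWithin_le_nhds (s := Set.Ioi 0))).and
    (self_mem_nhdsWithin (s := Set.Ioi (0 : ℝ)))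
  obtain ⟨ε, ⟨h1, h2, h3⟩, h4⟩ := e4.exists
  exact ⟨ε, h4, h3.le, h1, h2.le⟩

open MeasureTheory in
/-- Transfer from finite-dimensional configurations to subsets of `L_p(μ)`. -/
theorem transfer (p D ε : ℝ) (hp : 1 ≤ p) (hD : 1 < D) (hε : 0 < ε) (hε1 : ε ≤ 1 / 2)
    (lo hi : ℝ) (hlo : 0 < lo) (hhi : 0 ≤ hi) (hD' : hi * (1 + ε) ≤ D ^ p * (lo * (1 - ε)))
    (n N : ℕ)
    (h : ∀ (α ι : Type) [PseudoMetricSpace α] [Fintype α] [Fintype ι] (F : ι → α → ℝ),
      (∀ x y, ∑ i, |F i x - F i y| ^ p = dist x y ^ p) → Fintype.card α ≤ n →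
      ∃ φ : α → Fin N → ℝ, ∀ x y, lo * dist x y ^ p ≤ ∑ k, |φ x k - φ y k| ^ p ∧
        ∑ k, |φ x k - φ y k| ^ p ≤ hi * dist x y ^ p)
    {Ω : Type*} [MeasurableSpace Ω] (μ : Measure Ω) (X : Finset (Lp ℝ (ENNReal.ofReal p) μ))
    (hX : X.card ≤ n) :
    ∃ (f : Lp ℝ (ENNReal.ofReal p) μ → Fin N → ℝ) (s : ℝ), 0 < s ∧ ∀ x ∈ X, ∀ y ∈ X,
      s * ‖x - y‖ ≤ (∑ k, |f x k - f y k| ^ p) ^ (1 / p) ∧
      (∑ k, |f x k - f y k| ^ p) ^ (1 / p) ≤ D * s * ‖x - y‖ := by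
  classical
  have hp0 : 0 < p := by linarith
  obtain ⟨ι, hι, F, hF⟩ := reduce_Lp μ p hp (α := Fin X.card) (fun a => (X.equivFin.symm a : _))
    (fun a b hab => X.equivFin.symm.injective (Subtype.ext hab)) ε hε
  have : Fact (1 ≤ ENNReal.ofReal p) := ⟨by simpa using hp⟩
  let _ : PseudoMetricSpace (Fin X.card) := PseudoMetricSpace.induced
    (fun a => (WithLp.toLp (ENNReal.ofReal p) (fun i => F i a) :
      PiLp (ENNReal.ofReal p) (fun _ : ι => ℝ))) inferInstance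
  have htr : (ENNReal.ofReal p).toReal = p := ENNReal.toReal_ofReal hp0.le
  have hd : ∀ x y : Fin X.card, ∑ i, |F i x - F i y| ^ p = dist x y ^ p := by
    intro x y
    have : dist x y = (∑ i, |F i x - F i y| ^ p) ^ (1 / p) := by
      have := PiLp.dist_eq_sum (p := ENNReal.ofReal p) (α := fun _ : ι => ℝ) (by rw [htr]; exact hp0)
        (WithLp.toLp _ fun i => F i x) (WithLp.toLp _ fun i => F i y)
      rw [htr] at this
      exact this
    rw [this, ← Real.rpow_mul (sum_nonneg fun i _ => by positivity), one_div_mul_cancel hp0.ne',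
      Real.rpow_one]
  obtain ⟨φ, hφ⟩ := h (Fin X.card) ι F hd (by simpa using hX)
  have hD0 : 0 < D := by linarith
  have h1ε : 0 < 1 - ε := by linarith
  refine ⟨fun x => if hx : x ∈ X then φ (X.equivFin ⟨x, hx⟩) else 0, (lo * (1 - ε)) ^ (1 / p),
    by positivity, fun x hx y hy => ?_⟩
  simp only [dif_pos hx, dif_pos hy]
  obtain ⟨k1, k2⟩ := hφ (X.equivFin ⟨x, hx⟩) (X.equivFin ⟨y, hy⟩)
  obtain ⟨k3, k4⟩ := hF (X.equivFin ⟨x, hx⟩) (X.equivFin ⟨y, hy⟩)
  simp only [Equiv.symm_apply_apply] at k3 k4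
  rw [hd] at k3 k4
  have hn0 : 0 ≤ ‖x - y‖ := by rw [Lp.norm_def]; exact ENNReal.toReal_nonneg
  have hnp : (‖x - y‖ ^ p) ^ (1 / p) = ‖x - y‖ := by
    rw [← Real.rpow_mul hn0, mul_one_div_cancel hp0.ne', Real.rpow_one]
  have hDp : (D ^ p) ^ (1 / p) = D := by
    rw [← Real.rpow_mul hD0.le, mul_one_div_cancel hp0.ne', Real.rpow_one]
  have hnp0 : 0 ≤ ‖x - y‖ ^ p := Real.rpow_nonneg hn0 _
  constructor
  · rw [← hnp, ← Real.mul_rpow (by positivity) hnp0]
    refine Real.rpow_le_rpow (by positivity) ?_ (by positivity)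
    have := mul_le_mul_of_nonneg_left k3 hlo.le
    rw [mul_assoc]
    linarith
  · rw [← hnp, ← hDp, ← Real.mul_rpow (by positivity) (by positivity),
      ← Real.mul_rpow (by positivity) hnp0]
    refine Real.rpow_le_rpow (sum_nonneg fun k _ => by positivity) ?_ (by positivity)
    have a1 := mul_le_mul_of_nonneg_left k4 hhi
    have a2 := mul_le_mul_of_nonneg_right hD' hnp0
    rw [← mul_assoc] at a1
    linarith

end Vale.Agent.P249
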