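import Mathlib

/-! Single-scale estimates for the Mazur map `t ↦ sign t * |t| ^ (p / 2)`. -/

namespace Vale.Agent.P249

open Finset

/-- the signed power -/
noncomputable def mazur_phi (s t : ℝ) : ℝ := if 0 ≤ t then t ^ s else -((-t) ^ s)

lemma mazur_abs (s t : ℝ) : |mazur_phi s t| = |t| ^ s := by
  unfold mazur_phi
  split_ifs with h
  · rw [abs_of_nonneg h, abs_of_nonneg (Real.rpow_nonneg h _)]
  · push Not at h
    rw [abs_neg, abs_of_neg h, abs_of_nonneg (Real.rpow_nonneg (by linarith) _)]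

lemma mazur_neg {s : ℝ} (hs : s ≠ 0) (t : ℝ) : mazur_phi s (-t) = -mazur_phi s t := by
  unfold mazur_phi
  rcases lt_trichotomy t 0 with h | h | h
  · rw [if_pos (by linarith), if_neg (by linarith), neg_neg]
  · subst h; simp [hs]
  · rw [if_neg (by linarith), if_pos h.le, neg_neg]

lemma mazur_comp {s q : ℝ} (hq : 0 < q) (hsq : q * s = 1) (t : ℝ) :
    mazur_phi s (mazur_phi q t) = t := by
  have hs : s ≠ 0 := by rintro rfl; simp at hsq
  have key : ∀ t : ℝ, 0 ≤ t → mazur_phi s (mazur_phi q t) = t := by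
    intro t ht
    unfold mazur_phi
    rw [if_pos ht, if_pos (Real.rpow_nonneg ht _), ← Real.rpow_mul ht, hsq, Real.rpow_one]
  rcases le_total 0 t with h | h
  · exact key t h
  · have := key (-t) (by linarith)
    rw [mazur_neg hq.ne', mazur_neg hs] at this
    linarith

lemma mazur_bern {s a b : ℝ} (hs : 1 ≤ s) (hb : 0 ≤ b) (hab : b ≤ a) :
    a ^ s - b ^ s ≤ s * (a - b) * a ^ (s - 1) := by
  rcases (hb.trans hab).eq_or_lt with h | h
  · have : b = 0 := by linarith
    subst this; subst h; simp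
  · have h1 := one_add_mul_self_le_rpow_one_add (s := b / a - 1)
      (by have : 0 ≤ b / a := by positivity
          linarith) hs
    rw [add_sub_cancel, Real.div_rpow hb h.le, le_div_iff₀ (Real.rpow_pos_of_pos h _)] at h1
    have h2 : a ^ s = a * a ^ (s - 1) := by
      rw [Real.rpow_sub_one h.ne']; field_simp
    have h3 : (1 + s * (b / a - 1)) * a ^ s = a ^ s - s * (a - b) * a ^ (s - 1) := by
      rw [h2]; field_simp; ring
    linarith

lemma mazur_le_mul {s a μ : ℝ} (hs : 1 ≤ s) (ha : 0 ≤ a) (h : a ≤ μ) :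
    a ^ s ≤ a * μ ^ (s - 1) := by
  have h1 : a ^ s = a * a ^ (s - 1) := by
    rcases ha.eq_or_lt with h0 | h0
    · subst h0; rw [Real.zero_rpow (by linarith), zero_mul]
    · rw [Real.rpow_sub_one h0.ne']; field_simp
  rw [h1]
  exact mul_le_mul_of_nonneg_left (Real.rpow_le_rpow ha h (by linarith)) ha

lemma mazur_wlog {s : ℝ} (hs : s ≠ 0) (Q : ℝ → ℝ → ℝ → ℝ → Prop)
    (h1 : ∀ a b, 0 ≤ b → b ≤ a → Q (a - b) |a ^ s - b ^ s| a b)
    (h2 : ∀ a c, 0 ≤ a → 0 ≤ c → Q (a + c) (a ^ s + c ^ s) a c)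
    (h3 : ∀ d D x y, Q d D x y → Q d D y x) (a b : ℝ) :
    Q |a - b| |mazur_phi s a - mazur_phi s b| |a| |b| := by
  have pos : ∀ a b, 0 ≤ a → 0 ≤ b → Q |a - b| |mazur_phi s a - mazur_phi s b| |a| |b| := by
    intro a b ha hb
    unfold mazur_phi
    rw [if_pos ha, if_pos hb, abs_of_nonneg ha, abs_of_nonneg hb]
    rcases le_total b a with h | h
    · rw [abs_of_nonneg (by linarith : 0 ≤ a - b)]; exact h1 a b hb h
    · rw [abs_sub_comm a b, abs_of_nonneg (by linarith : 0 ≤ b - a), abs_sub_comm]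
      exact h3 _ _ _ _ (h1 b a ha h)
  have mix : ∀ a c, 0 ≤ a → 0 ≤ c →
      Q |a - -c| |mazur_phi s a - mazur_phi s (-c)| |a| |-c| := by
    intro a c ha hc
    rw [mazur_neg hs, sub_neg_eq_add, sub_neg_eq_add, abs_neg]
    unfold mazur_phi
    rw [if_pos ha, if_pos hc, abs_of_nonneg ha, abs_of_nonneg hc, abs_of_nonneg (add_nonneg ha hc),
      abs_of_nonneg (add_nonneg (Real.rpow_nonneg ha _) (Real.rpow_nonneg hc _))]
    exact h2 a c ha hc
  rcases le_total 0 a with ha | ha <;> rcases le_total 0 b with hb | hb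
  · exact pos a b ha hb
  · simpa using mix a (-b) ha (by linarith)
  · have := mix b (-a) hb (by linarith)
    rw [neg_neg, abs_sub_comm b a, abs_sub_comm (mazur_phi s b)] at this
    exact h3 _ _ _ _ this
  · have := pos (-a) (-b) (by linarith) (by linarith)
    rw [mazur_neg hs, mazur_neg hs, abs_neg, abs_neg, neg_sub_neg, neg_sub_neg, abs_sub_comm b a,
      abs_sub_comm (mazur_phi s b)] at this
    exact this

lemma mazur_one {s : ℝ} (hs : 1 ≤ s) (a b : ℝ) :
    |mazur_phi s a - mazur_phi s b| ≤ s * |a - b| * (max |a| |b|) ^ (s - 1) := by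
  refine mazur_wlog (by linarith : s ≠ 0) (fun d D x y => D ≤ s * d * (max x y) ^ (s - 1))
    ?_ ?_ ?_ a b
  · intro a b hb hab
    rw [max_eq_left hab, abs_of_nonneg (sub_nonneg.2 (Real.rpow_le_rpow hb hab (by linarith)))]
    exact mazur_bern hs hb hab
  · intro a c ha hc
    have e1 := mazur_le_mul hs ha (le_max_left a c)
    have e2 := mazur_le_mul hs hc (le_max_right a c)
    have e3 : 0 ≤ (a + c) * (max a c) ^ (s - 1) :=
      mul_nonneg (add_nonneg ha hc) (Real.rpow_nonneg (ha.trans (le_max_left _ _)) _)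
    nlinarith
  · intro d D x y h; rwa [max_comm]

lemma mazur_two {s : ℝ} (hs : 1 ≤ s) (a b : ℝ) :
    |a - b| ^ s ≤ 2 ^ s * |mazur_phi s a - mazur_phi s b| := by
  have h2 : (1 : ℝ) ≤ 2 ^ s := Real.one_le_rpow (by norm_num) (by linarith)
  refine mazur_wlog (by linarith : s ≠ 0) (fun d D _ _ => d ^ s ≤ 2 ^ s * D) ?_ ?_ ?_ a b
  · intro a b hb hab
    have h1 := Real.add_rpow_le_rpow_add (p := s) (sub_nonneg.2 hab) hb hs
    rw [sub_add_cancel] at h1
    have h3 : (a - b) ^ s ≤ |a ^ s - b ^ s| := le_trans (by linarith) (le_abs_self _)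
    exact h3.trans (le_mul_of_one_le_left (abs_nonneg _) h2)
  · intro a c ha hc
    have hs0 : 0 ≤ s := by linarith
    rcases le_total a c with h | h
    · calc (a + c) ^ s ≤ (2 * c) ^ s := Real.rpow_le_rpow (by linarith) (by linarith) hs0
        _ = 2 ^ s * c ^ s := Real.mul_rpow (by norm_num) hc
        _ ≤ _ := mul_le_mul_of_nonneg_left (by linarith [Real.rpow_nonneg ha s]) (by linarith)
    · calc (a + c) ^ s ≤ (2 * a) ^ s := Real.rpow_le_rpow (by linarith) (by linarith) hs0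
        _ = 2 ^ s * a ^ s := Real.mul_rpow (by norm_num) ha
        _ ≤ _ := mul_le_mul_of_nonneg_left (by linarith [Real.rpow_nonneg hc s]) (by linarith)
  · intro d D x y h; exact h

lemma mazur_max {p x y : ℝ} (hx : 0 ≤ x) (hy : 0 ≤ y) : (max x y) ^ p ≤ x ^ p + y ^ p := by
  rcases le_total x y with h | h
  · rw [max_eq_right h]; linarith [Real.rpow_nonneg hx p]
  · rw [max_eq_left h]; linarith [Real.rpow_nonneg hy p]

lemma mazur_sq_rpow {x : ℝ} (hx : 0 ≤ x) (q : ℝ) : (x ^ q) ^ 2 = x ^ (2 * q) := by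
  rw [← Real.rpow_natCast, ← Real.rpow_mul hx]; congr 1; push_cast; ring

lemma mazur_P1 {p k : ℝ} (hp : 2 ≤ p) (hk : 0 < k) (a b : ℝ) :
    (mazur_phi (p / 2) a - mazur_phi (p / 2) b) ^ 2
      ≤ (p / 2) ^ 2 * (k ^ (p - 2) * |a - b| ^ p + (|a| ^ p + |b| ^ p) / k ^ 2) := by
  have h1 := mazur_one (by linarith : 1 ≤ p / 2) a b
  have hμ := mazur_max (p := p) (abs_nonneg a) (abs_nonneg b)
  have hμ0 : 0 ≤ max |a| |b| := (abs_nonneg a).trans (le_max_left _ _)
  have hd0 := abs_nonneg (a - b)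
  generalize max |a| |b| = μ at h1 hμ hμ0
  generalize |a - b| = d at h1 hd0 ⊢
  have h2 := pow_le_pow_left₀ (abs_nonneg _) h1 2
  rw [sq_abs, mul_pow, mul_pow, mazur_sq_rpow hμ0, show 2 * (p / 2 - 1) = p - 2 by ring,
    mul_assoc] at h2
  refine h2.trans (mul_le_mul_of_nonneg_left ?_ (by positivity))
  have t1 : 0 ≤ k ^ (p - 2) * d ^ p := by positivity
  have t2 : μ ^ p / k ^ 2 ≤ (|a| ^ p + |b| ^ p) / k ^ 2 := by gcongr
  have t3 : 0 ≤ μ ^ p / k ^ 2 := by positivity
  have split : ∀ x : ℝ, 0 ≤ x → x ^ 2 * x ^ (p - 2) = x ^ p := by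
    intro x hx
    rw [← Real.rpow_natCast, ← Real.rpow_add_of_nonneg hx (by positivity) (by linarith)]
    congr 1; push_cast; ring
  rcases le_total μ (k * d) with h | h
  · have : μ ^ (p - 2) ≤ k ^ (p - 2) * d ^ (p - 2) := by
      rw [← Real.mul_rpow hk.le hd0]; exact Real.rpow_le_rpow hμ0 h (by linarith)
    calc d ^ 2 * μ ^ (p - 2) ≤ d ^ 2 * (k ^ (p - 2) * d ^ (p - 2)) :=
          mul_le_mul_of_nonneg_left this (by positivity)
      _ = k ^ (p - 2) * d ^ p := by rw [← split d hd0]; ring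
      _ ≤ _ := by linarith
  · have : d ^ 2 ≤ μ ^ 2 / k ^ 2 := by
      rw [le_div_iff₀ (by positivity), ← mul_pow]
      exact pow_le_pow_left₀ (by positivity) (by linarith) 2
    calc d ^ 2 * μ ^ (p - 2) ≤ μ ^ 2 / k ^ 2 * μ ^ (p - 2) :=
          mul_le_mul_of_nonneg_right this (by positivity)
      _ = μ ^ p / k ^ 2 := by rw [← split μ hμ0]; ring
      _ ≤ _ := by linarith

lemma mazur_P2 {p : ℝ} (hp : 2 ≤ p) (a b : ℝ) :
    |a - b| ^ p ≤ 2 ^ p * (mazur_phi (p / 2) a - mazur_phi (p / 2) b) ^ 2 := by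
  have h1 := mazur_two (by linarith : 1 ≤ p / 2) a b
  have h2 := pow_le_pow_left₀ (Real.rpow_nonneg (abs_nonneg _) _) h1 2
  rwa [mul_pow, sq_abs, mazur_sq_rpow (abs_nonneg _), mazur_sq_rpow (by norm_num),
    show 2 * (p / 2) = p by ring] at h2

lemma mazur_pow_back {p x : ℝ} (hp : 0 < p) (hx : 0 ≤ x) : (x ^ (2 / p)) ^ p = x ^ 2 := by
  rw [← Real.rpow_mul hx, div_mul_cancel₀ _ hp.ne', ← Real.rpow_natCast]; norm_num

lemma mazur_P3 {p : ℝ} (hp1 : 1 ≤ p) (hp : p ≤ 2) (a b : ℝ) :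
    (mazur_phi (p / 2) a - mazur_phi (p / 2) b) ^ 2 ≤ 4 * |a - b| ^ p := by
  have hp0 : 0 < p := by linarith
  have hs : 1 ≤ 2 / p := by rw [le_div_iff₀ hp0]; linarith
  have hc : p / 2 * (2 / p) = 1 := by field_simp
  have h1 := mazur_two hs (mazur_phi (p / 2) a) (mazur_phi (p / 2) b)
  rw [mazur_comp (by positivity) hc, mazur_comp (by positivity) hc] at h1
  have h2 := Real.rpow_le_rpow (Real.rpow_nonneg (abs_nonneg _) _) h1 hp0.le
  rw [Real.mul_rpow (by positivity) (abs_nonneg _), mazur_pow_back hp0 (abs_nonneg _),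
    mazur_pow_back hp0 (by norm_num), sq_abs] at h2
  linarith

lemma mazur_P4 {p : ℝ} (hp1 : 1 ≤ p) (hp : p ≤ 2) (a b : ℝ) :
    |a - b| ^ p ≤ (1 / 8) ^ p * (|a| ^ p + |b| ^ p)
      + 32 ^ p * (mazur_phi (p / 2) a - mazur_phi (p / 2) b) ^ 2 := by
  have hp0 : 0 < p := by linarith
  have hs : 1 ≤ 2 / p := by rw [le_div_iff₀ hp0]; linarith
  have hs2 : 2 / p ≤ 2 := by rw [div_le_iff₀ hp0]; linarith
  have hc : p / 2 * (2 / p) = 1 := by field_simp
  have h1 := mazur_one hs (mazur_phi (p / 2) a) (mazur_phi (p / 2) b)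
  rw [mazur_comp (by positivity) hc, mazur_comp (by positivity) hc, mazur_abs, mazur_abs] at h1
  have hν2 : (max (|a| ^ (p / 2)) (|b| ^ (p / 2))) ^ 2 ≤ |a| ^ p + |b| ^ p := by
    have := mazur_max (p := ((2 : ℕ) : ℝ)) (Real.rpow_nonneg (abs_nonneg a) (p / 2))
      (Real.rpow_nonneg (abs_nonneg b) (p / 2))
    rwa [Real.rpow_natCast, Real.rpow_natCast, Real.rpow_natCast, mazur_sq_rpow (abs_nonneg _),
      mazur_sq_rpow (abs_nonneg _), show 2 * (p / 2) = p by ring] at this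
  have hν0 : 0 ≤ max (|a| ^ (p / 2)) (|b| ^ (p / 2)) :=
    (Real.rpow_nonneg (abs_nonneg a) _).trans (le_max_left _ _)
  rw [← sq_abs (mazur_phi (p / 2) a - mazur_phi (p / 2) b)]
  have hD0 := abs_nonneg (mazur_phi (p / 2) a - mazur_phi (p / 2) b)
  have hd0 := abs_nonneg (a - b)
  generalize max (|a| ^ (p / 2)) (|b| ^ (p / 2)) = ν at h1 hν2 hν0
  generalize |mazur_phi (p / 2) a - mazur_phi (p / 2) b| = D at h1 hD0 ⊢
  generalize |a - b| = d at h1 hd0 ⊢
  have split : ∀ x : ℝ, 0 ≤ x → x * x ^ (2 / p - 1) = x ^ (2 / p) := by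
    intro x hx
    nth_rewrite 1 [← Real.rpow_one x]
    rw [← Real.rpow_add_of_nonneg hx (by positivity) (by linarith)]
    congr 1; ring
  have t1 : 0 ≤ (32 : ℝ) ^ p * D ^ 2 := by positivity
  have t2 : 0 ≤ (1 / 8 : ℝ) ^ p * (|a| ^ p + |b| ^ p) := by positivity
  have hν1 : 0 ≤ ν ^ (2 / p - 1) := Real.rpow_nonneg hν0 _
  rcases le_total D (ν / 16) with h | h
  · have h2 : d ≤ 1 / 8 * ν ^ (2 / p) := by
      calc d ≤ 2 / p * D * ν ^ (2 / p - 1) := h1
        _ ≤ 2 * (ν / 16) * ν ^ (2 / p - 1) :=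
          mul_le_mul_of_nonneg_right (mul_le_mul hs2 h hD0 (by norm_num)) hν1
        _ = _ := by rw [← split ν hν0]; ring
    have h3 := Real.rpow_le_rpow hd0 h2 hp0.le
    rw [Real.mul_rpow (by norm_num) (Real.rpow_nonneg hν0 _), mazur_pow_back hp0 hν0] at h3
    have h4 : (1 / 8 : ℝ) ^ p * ν ^ 2 ≤ (1 / 8) ^ p * (|a| ^ p + |b| ^ p) :=
      mul_le_mul_of_nonneg_left hν2 (by positivity)
    linarith
  · have h5 : ν ^ (2 / p - 1) ≤ 16 * D ^ (2 / p - 1) := by
      calc ν ^ (2 / p - 1) ≤ (16 * D) ^ (2 / p - 1) :=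
            Real.rpow_le_rpow hν0 (by linarith) (by linarith)
        _ = 16 ^ (2 / p - 1) * D ^ (2 / p - 1) := Real.mul_rpow (by norm_num) hD0
        _ ≤ 16 ^ (1 : ℝ) * D ^ (2 / p - 1) :=
            mul_le_mul_of_nonneg_right
              (Real.rpow_le_rpow_of_exponent_le (by norm_num) (by linarith))
              (Real.rpow_nonneg hD0 _)
        _ = _ := by rw [Real.rpow_one]
    have h2 : d ≤ 32 * D ^ (2 / p) := by
      calc d ≤ 2 / p * D * ν ^ (2 / p - 1) := h1
        _ ≤ 2 * D * (16 * D ^ (2 / p - 1)) :=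
          mul_le_mul (mul_le_mul_of_nonneg_right hs2 hD0) h5 hν1 (by positivity)
        _ = _ := by rw [← split D hD0]; ring
    have h3 := Real.rpow_le_rpow hd0 h2 hp0.le
    rw [Real.mul_rpow (by norm_num) (Real.rpow_nonneg hD0 _), mazur_pow_back hp0 hD0] at h3
    linarith

/-- Near pairs stay near and far pairs stay far on a ball of radius `R`. -/
theorem mazur (p : ℝ) (hp : 1 ≤ p) :
    ∃ (m : ℝ → ℝ) (C c : ℝ), 0 < C ∧ 0 < c ∧
      ∀ {ι : Type} [Fintype ι] (a b : ι → ℝ) (R r : ℝ), 0 < r → r ≤ R →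
        ∑ i, |a i| ^ p ≤ R ^ p → ∑ i, |b i| ^ p ≤ R ^ p →
        (∑ i, |a i - b i| ^ p ≤ r ^ p →
          ∑ i, (m (a i) - m (b i)) ^ 2 ≤ C * R ^ p * (r / R) ^ (min p 2)) ∧
        ((R / 2) ^ p ≤ ∑ i, |a i - b i| ^ p → c * R ^ p ≤ ∑ i, (m (a i) - m (b i)) ^ 2) := by
  have hp0 : 0 < p := by linarith
  rcases le_total 2 p with h2 | h2
  · refine ⟨mazur_phi (p / 2), 3 * (p / 2) ^ 2, 1 / (2 ^ p * 2 ^ p), by positivity, by positivity,
      ?_⟩
    intro ι _ a b R r hr hrR ha hb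
    have hR : 0 < R := by linarith
    constructor
    · intro hd
      have hk : 0 < R / r := by positivity
      have h1 := sum_le_sum (s := univ) fun i _ => mazur_P1 h2 hk (a i) (b i)
      rw [← mul_sum, sum_add_distrib, ← mul_sum, ← sum_div, sum_add_distrib] at h1
      refine h1.trans ?_
      rw [min_eq_right h2]
      have e1 : (R / r) ^ (p - 2) * r ^ p = R ^ p * (r / R) ^ (2 : ℝ) := by
        rw [Real.div_rpow hR.le hr.le, Real.rpow_sub hR, Real.rpow_sub hr,
          Real.div_rpow hr.le hR.le]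
        have := Real.rpow_pos_of_pos hr p
        have := Real.rpow_pos_of_pos hr 2
        have := Real.rpow_pos_of_pos hR 2
        field_simp
      have e2 : (R ^ p + R ^ p) / (R / r) ^ 2 = 2 * (R ^ p * (r / R) ^ (2 : ℝ)) := by
        rw [Real.rpow_two]; field_simp; ring
      have e3 : (R / r) ^ (p - 2) * ∑ i, |a i - b i| ^ p ≤ (R / r) ^ (p - 2) * r ^ p :=
        mul_le_mul_of_nonneg_left hd (by positivity)
      have e4 : (∑ i, |a i| ^ p + ∑ i, |b i| ^ p) / (R / r) ^ 2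
          ≤ (R ^ p + R ^ p) / (R / r) ^ 2 := by gcongr
      calc _ ≤ (p / 2) ^ 2 * (3 * (R ^ p * (r / R) ^ (2 : ℝ))) :=
            mul_le_mul_of_nonneg_left (by linarith) (by positivity)
        _ = _ := by ring
    · intro hd
      have h1 := sum_le_sum (s := univ) fun i _ => mazur_P2 h2 (a i) (b i)
      rw [← mul_sum] at h1
      have h3 := hd.trans h1
      rw [Real.div_rpow hR.le (by norm_num), div_le_iff₀ (by positivity)] at h3
      rw [one_div_mul_eq_div, div_le_iff₀ (by positivity)]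
      linarith
  · refine ⟨mazur_phi (p / 2), 4, (1 / 2) ^ p / (2 * 32 ^ p), by positivity, by positivity, ?_⟩
    intro ι _ a b R r hr hrR ha hb
    have hR : 0 < R := by linarith
    constructor
    · intro hd
      have h1 := sum_le_sum (s := univ) fun i _ => mazur_P3 hp h2 (a i) (b i)
      rw [← mul_sum] at h1
      rw [min_eq_left h2, Real.div_rpow hr.le hR.le]
      have := Real.rpow_pos_of_pos hR p
      have e : 4 * R ^ p * (r ^ p / R ^ p) = 4 * r ^ p := by field_simp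
      linarith
    · intro hd
      have h1 := sum_le_sum (s := univ) fun i _ => mazur_P4 hp h2 (a i) (b i)
      rw [sum_add_distrib, ← mul_sum, ← mul_sum, sum_add_distrib] at h1
      have e1 : (R / 2) ^ p = (1 / 2) ^ p * R ^ p := by
        rw [← Real.mul_rpow (by norm_num) hR.le]; congr 1; ring
      have e2 : (1 / 8 : ℝ) ^ p ≤ (1 / 2) ^ p * (1 / 4) := by
        rw [show (1 / 8 : ℝ) = 1 / 2 * (1 / 4) by norm_num,
          Real.mul_rpow (by norm_num) (by norm_num)]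
        refine mul_le_mul_of_nonneg_left ?_ (by positivity)
        calc (1 / 4 : ℝ) ^ p ≤ (1 / 4) ^ (1 : ℝ) :=
              Real.rpow_le_rpow_of_exponent_ge (by norm_num) (by norm_num) hp
          _ = 1 / 4 := Real.rpow_one _
      have hRp := Real.rpow_pos_of_pos hR p
      have e3 : (1 / 8 : ℝ) ^ p * (∑ i, |a i| ^ p + ∑ i, |b i| ^ p)
          ≤ (1 / 2) ^ p * (1 / 4) * (R ^ p + R ^ p) :=
        mul_le_mul e2 (by linarith) (by positivity) (by positivity)
      rw [div_mul_eq_mul_div, div_le_iff₀ (by positivity)]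
      linarith

end Vale.Agent.P249
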