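import Vale.Agent.P249.Basic
import Vale.Agent.P249.Channel
import Vale.Agent.P249.Mazur

/-! Random cluster centres with large overlap for near pairs. -/

namespace Vale.Agent.P249

open Finset

/-- Sub-probability kernels of radius `R` whose overlap is at least `1 - η` at distance `≤ r`. -/
def Ker (α : Type) [PseudoMetricSpace α] (r R η : ℝ) : Prop :=
  ∃ (V : Type) (_ : Fintype V) (c : V → α) (π : α → V → ℝ), (∀ z v, 0 ≤ π z v) ∧
    (∀ z, ∑ v, π z v ≤ 1) ∧ (∀ z v, π z v ≠ 0 → dist z (c v) ≤ R) ∧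
    ∀ z z', dist z z' ≤ r → 1 - η ≤ ∑ v, min (π z v) (π z' v)

theorem Ker.mono {α : Type} [PseudoMetricSpace α] {r R η R' η' : ℝ} (h : Ker α r R η)
    (hR : R ≤ R') (hη : η ≤ η') : Ker α r R' η' := by
  obtain ⟨V, hV, c, π, h0, h1, h2, h3⟩ := h
  exact ⟨V, hV, c, π, h0, h1, fun z v hz => (h2 z v hz).trans hR,
    fun z z' hz => le_trans (by linarith) (h3 z z' hz)⟩

theorem ker_base {α : Type} [PseudoMetricSpace α] (r R : ℝ) (z0 : α)
    (h : ∀ z, dist z z0 ≤ R) : Ker α r R 0 :=
  ⟨Unit, inferInstance, fun _ => z0, fun _ _ => 1, fun _ _ => zero_le_one, fun _ => by simp,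
    fun z _ _ => h z, fun _ _ _ => by simp⟩

theorem overlap_of_inner {V : Type*} [Fintype V] (a b : V → ℝ) (ha : ∀ v, 0 ≤ a v)
    (hb : ∀ v, 0 ≤ b v) (ha1 : ∑ v, a v ^ 2 = 1) (hb1 : ∑ v, b v ^ 2 = 1) (t : ℝ)
    (ht : 1 - t / 2 ≤ ∑ v, a v * b v) :
    1 - Real.sqrt t ≤ ∑ v, min (a v ^ 2) (b v ^ 2) := by
  set k := ∑ v, a v * b v with hk
  have e1 : ∑ v, |a v - b v| ^ 2 = 2 - 2 * k := by
    have : ∀ v, |a v - b v| ^ 2 = a v ^ 2 + b v ^ 2 - 2 * (a v * b v) := fun v => by
      rw [sq_abs]; ring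
    rw [sum_congr rfl fun v _ => this v, sum_sub_distrib, sum_add_distrib, ← mul_sum, ha1, hb1]
    ring
  have e2 : ∑ v, (a v + b v) ^ 2 = 2 + 2 * k := by
    have : ∀ v, (a v + b v) ^ 2 = a v ^ 2 + b v ^ 2 + 2 * (a v * b v) := fun v => by ring
    rw [sum_congr rfl fun v _ => this v, sum_add_distrib, sum_add_distrib, ← mul_sum, ha1, hb1]
    ring
  have k1 : 0 ≤ 2 - 2 * k := e1 ▸ sum_nonneg fun v _ => sq_nonneg _
  have cs := sum_mul_sq_le_sq_mul_sq univ (fun v => |a v - b v|) (fun v => a v + b v)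
  rw [e1, e2] at cs
  have e3 : ∑ v, min (a v ^ 2) (b v ^ 2) = 1 - (∑ v, |a v - b v| * (a v + b v)) / 2 := by
    have : ∀ v, min (a v ^ 2) (b v ^ 2) =
        (a v ^ 2 + b v ^ 2 - |a v - b v| * (a v + b v)) / 2 := by
      intro v
      have := ha v
      have := hb v
      rcases le_total (a v) (b v) with h | h
      · rw [min_eq_left (by nlinarith), abs_of_nonpos (by linarith)]
        ring
      · rw [min_eq_right (by nlinarith), abs_of_nonneg (by linarith)]
        ring
    rw [sum_congr rfl fun v _ => this v, ← sum_div, sum_sub_distrib, sum_add_distrib, ha1, hb1]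
    ring
  rw [e3]
  have : (∑ v, |a v - b v| * (a v + b v)) / 2 ≤ Real.sqrt t := by
    apply Real.le_sqrt_of_sq_le
    nlinarith
  linarith

open Classical in
/-- Posterior weights on the cluster `C`. -/
noncomputable def post {α V : Type*} [Fintype α] (ψ : α → V → ℝ) (C : α → Prop) (v : V)
    (z : α) : ℝ :=
  (if C z then ψ z v ^ 2 else 0) / ∑ y, (if C y then ψ y v ^ 2 else 0)

theorem post_nonneg {α V : Type*} [Fintype α] (ψ : α → V → ℝ) (C : α → Prop) (v : V) (z : α) :
    0 ≤ post ψ C v z := by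
  unfold post
  refine div_nonneg ?_ (sum_nonneg fun y _ => ?_) <;> split_ifs <;> positivity

theorem post_sum_le {α V : Type*} [Fintype α] (ψ : α → V → ℝ) (C : α → Prop) (v : V) :
    ∑ z, post ψ C v z ≤ 1 := by
  unfold post
  rw [← sum_div]
  exact div_self_le_one _

open Classical in
theorem post_den {α V : Type*} [Fintype α] (ψ : α → V → ℝ) (C : α → Prop) (v : V) (z : α)
    (hz : C z) : ψ z v ^ 2 ≤ ∑ y, (if C y then ψ y v ^ 2 else 0) := by
  have := single_le_sum (f := fun y => if C y then ψ y v ^ 2 else 0) (s := univ)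
    (fun y _ => by split_ifs <;> positivity) (mem_univ z)
  simpa [hz] using this

theorem post_sum {α V : Type*} [Fintype α] (ψ : α → V → ℝ) (hψ : ∀ z v, 0 < ψ z v)
    (C : α → Prop) (v : V) (z : α) (hz : C z) : ∑ y, post ψ C v y = 1 := by
  unfold post
  rw [← sum_div]
  have h1 := post_den ψ C v z hz
  have h2 := hψ z v
  exact div_self (ne_of_gt (lt_of_lt_of_le (by positivity) h1))

open Classical in
theorem post_mul_le {α V : Type*} [Fintype α] (ψ : α → V → ℝ) (hψ : ∀ z v, 0 < ψ z v)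
    (C : α → Prop) (v : V) (z y : α) (hz : C z) :
    ψ z v ^ 2 * post ψ C v y ≤ if C y then ψ z v * ψ y v else 0 := by
  unfold post
  have h1 := post_den ψ C v z hz
  have h2 := hψ z v
  have h3 := hψ y v
  split_ifs with hy
  · have h4 := post_den ψ C v y hy
    set S := ∑ y, (if C y then ψ y v ^ 2 else 0)
    have hS : 0 < S := lt_of_lt_of_le (by positivity) h1
    have h5 : ψ z v * ψ y v ≤ S := by nlinarith [sq_nonneg (ψ z v - ψ y v)]
    rw [← mul_div_assoc, div_le_iff₀ hS]
    have : 0 < ψ z v * ψ y v := by positivity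
    nlinarith
  · simp

open Classical in
theorem posterior {α V : Type*} [Fintype α] [Fintype V] (ψ : α → V → ℝ)
    (hψ : ∀ z v, 0 < ψ z v) (C : α → Prop) (near : α → α → Prop) (E : ℝ) (z z' : α)
    (hz : C z) (hz' : C z')
    (hfar : ∑ y, (if C y ∧ ¬ near z y then ∑ v, ψ z v * ψ y v else 0) ≤ E)
    (hfar' : ∑ y, (if C y ∧ ¬ near z' y then ∑ v, ψ z' v * ψ y v else 0) ≤ E) :
    ∑ v, min (ψ z v ^ 2) (ψ z' v ^ 2) - 2 * E ≤
      ∑ v, ∑ y, min (ψ z v ^ 2 * post ψ C v y * (if near z y then 1 else 0))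
        (ψ z' v ^ 2 * post ψ C v y * (if near z' y then 1 else 0)) := by
  have far : ∀ x, C x → ∑ v, ∑ y, ψ x v ^ 2 * post ψ C v y * (if near x y then 0 else 1) ≤
      ∑ y, (if C y ∧ ¬ near x y then ∑ v, ψ x v * ψ y v else 0) := by
    intro x hx
    rw [sum_comm]
    refine sum_le_sum fun y _ => ?_
    by_cases hn : near x y
    · simp [hn]
    · simp only [hn, if_false, mul_one, not_false_eq_true, and_true]
      refine (sum_le_sum fun v _ => post_mul_le ψ hψ C v x y hx).trans (le_of_eq ?_)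
      split_ifs <;> simp
  have f1 := far z hz
  have f2 := far z' hz'
  have key : ∑ v, ∑ y, (min (ψ z v ^ 2) (ψ z' v ^ 2) * post ψ C v y -
        ψ z v ^ 2 * post ψ C v y * (if near z y then 0 else 1) -
        ψ z' v ^ 2 * post ψ C v y * (if near z' y then 0 else 1)) ≤
      ∑ v, ∑ y, min (ψ z v ^ 2 * post ψ C v y * (if near z y then 1 else 0))
        (ψ z' v ^ 2 * post ψ C v y * (if near z' y then 1 else 0)) := by
    refine sum_le_sum fun v _ => sum_le_sum fun y _ => ?_
    have hq := post_nonneg ψ C v y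
    have m1 := mul_le_mul_of_nonneg_right (min_le_left (ψ z v ^ 2) (ψ z' v ^ 2)) hq
    have m2 := mul_le_mul_of_nonneg_right (min_le_right (ψ z v ^ 2) (ψ z' v ^ 2)) hq
    have p1 : 0 ≤ ψ z v ^ 2 * post ψ C v y := by positivity
    have p2 : 0 ≤ ψ z' v ^ 2 * post ψ C v y := by positivity
    refine le_min ?_ ?_ <;> split_ifs <;> linarith
  refine le_trans ?_ key
  simp only [sum_sub_distrib]
  have e : ∑ v, ∑ y, min (ψ z v ^ 2) (ψ z' v ^ 2) * post ψ C v y =
      ∑ v, min (ψ z v ^ 2) (ψ z' v ^ 2) :=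
    sum_congr rfl fun v _ => by rw [← mul_sum, post_sum ψ hψ C v z hz, mul_one]
  rw [e]
  linarith

open Classical in
theorem ker_step (p : ℝ) (hp : 1 ≤ p) : ∃ C c : ℝ, 0 < C ∧ 0 < c ∧
    ∀ {α ι : Type} [PseudoMetricSpace α] [Fintype α] [Fintype ι] (F : ι → α → ℝ),
      (∀ x y, ∑ i, |F i x - F i y| ^ p = dist x y ^ p) → ∀ (r R η Λ lam : ℝ), 0 < r → r ≤ R →
      0 < lam → (∀ z : α, ((univ.filter fun y => dist y z ≤ R).card : ℝ) ≤ Real.exp Λ) →
      Ker α r R η →
      Ker α r (R / 2) (η + (Real.sqrt (C * lam * (r / R) ^ (min p 2)) +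
        2 * Real.exp (Λ - c * lam))) := by
  obtain ⟨m, C, c, hC, hc, hm⟩ := mazur p hp
  refine ⟨C, c / 5, hC, by positivity, ?_⟩
  intro α ι _ _ _ F hd r R η Λ lam hr hrR hlam hcard hK
  obtain ⟨V, hV, cc, π, h0, h1, h2, h3⟩ := hK
  have hp0 : (0 : ℝ) ≤ p := by linarith
  have hR : 0 < R := lt_of_lt_of_le hr hrR
  have hRp : 0 < R ^ p := by positivity
  set s := Real.sqrt (lam / R ^ p) with hs
  have hs2 : s ^ 2 = lam / R ^ p := Real.sq_sqrt (by positivity)
  obtain ⟨V2, hV2, ψ, hψ0, hψ1, hψ2, hψ3⟩ :=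
    channel (β := V × α) (I := ι) fun b i => s * m (F i b.2 - F i (cc b.1))
  have hu : ∀ v z y, ∑ i, (s * m (F i z - F i (cc v)) - s * m (F i y - F i (cc v))) ^ 2 =
      lam / R ^ p * ∑ i, (m (F i z - F i (cc v)) - m (F i y - F i (cc v))) ^ 2 := by
    intro v z y
    rw [mul_sum, ← hs2]
    exact sum_congr rfl fun i _ => by ring
  have hball : ∀ v z, dist z (cc v) ≤ R → ∑ i, |F i z - F i (cc v)| ^ p ≤ R ^ p := by
    intro v z hz
    rw [hd]
    exact Real.rpow_le_rpow dist_nonneg hz hp0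
  have hdiff : ∀ v z y, ∑ i, |F i z - F i (cc v) - (F i y - F i (cc v))| ^ p = dist z y ^ p := by
    intro v z y
    rw [← hd]
    exact sum_congr rfl fun i _ => by rw [sub_sub_sub_cancel_right]
  set e1 := Real.sqrt (C * lam * (r / R) ^ (min p 2)) with he1
  set E := Real.exp (Λ - c / 5 * lam) with hE
  have he0 : 0 ≤ e1 := Real.sqrt_nonneg _
  have hE0 : 0 < E := Real.exp_pos _
  refine ⟨V × V2 × α, inferInstance, fun q => q.2.2, fun z q => π z q.1 *
    (ψ (q.1, z) q.2.1 ^ 2 * post (fun y => ψ (q.1, y)) (fun y => dist y (cc q.1) ≤ R) q.2.1 q.2.2 *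
      (if dist z q.2.2 ≤ R / 2 then 1 else 0)), fun z q => ?_, fun z => ?_, fun z q hq => ?_,
    fun z z' hzz => ?_⟩
  · have := h0 z q.1
    have := post_nonneg (fun y => ψ (q.1, y)) (fun y => dist y (cc q.1) ≤ R) q.2.1 q.2.2
    simp only
    split_ifs <;> positivity
  · rw [Fintype.sum_prod_type]
    refine le_trans (sum_le_sum fun v _ => ?_) (h1 z)
    simp only
    rw [← mul_sum]
    refine mul_le_of_le_one_right (h0 z v) ?_
    rw [Fintype.sum_prod_type]
    refine le_trans (sum_le_sum fun v2 _ => ?_) (hψ1 (v, z)).le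
    have := post_sum_le (fun y => ψ (v, y)) (fun y => dist y (cc v) ≤ R) v2
    calc _ ≤ ∑ y, ψ (v, z) v2 ^ 2 *
          post (fun y => ψ (v, y)) (fun y => dist y (cc v) ≤ R) v2 y := by
          refine sum_le_sum fun y _ => ?_
          have := post_nonneg (fun y => ψ (v, y)) (fun y => dist y (cc v) ≤ R) v2 y
          have : 0 ≤ ψ (v, z) v2 ^ 2 *
            post (fun y => ψ (v, y)) (fun y => dist y (cc v) ≤ R) v2 y := by positivity
          simp only
          split_ifs <;> linarith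
      _ ≤ _ := by
          rw [← mul_sum]
          exact mul_le_of_le_one_right (sq_nonneg _) this
  · by_contra hn
    simp only at hq hn
    rw [if_neg hn] at hq
    simp at hq
  · have far : ∀ v x, dist x (cc v) ≤ R →
        ∑ y, (if dist y (cc v) ≤ R ∧ ¬ dist x y ≤ R / 2 then
          ∑ v2, ψ (v, x) v2 * ψ (v, y) v2 else 0) ≤ E := by
      intro v x hx
      calc _ ≤ ∑ y, (if dist y (cc v) ≤ R then Real.exp (-(c / 5 * lam)) else 0) := by
            refine sum_le_sum fun y _ => ?_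
            by_cases hy : dist y (cc v) ≤ R
            · rw [if_pos hy]
              split_ifs with hxy
              · refine (hψ3 (v, x) (v, y)).trans (Real.exp_le_exp.2 ?_)
                simp only
                rw [hu]
                have := (hm (fun i => F i x - F i (cc v)) (fun i => F i y - F i (cc v)) R r hr hrR
                  (hball v x hx) (hball v y hy)).2 (by
                    rw [hdiff]
                    exact Real.rpow_le_rpow (by positivity) (le_of_lt (not_le.1 hxy.2)) hp0)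
                have h5 := mul_le_mul_of_nonneg_left this (by positivity : 0 ≤ lam / R ^ p)
                have e : lam / R ^ p * (c * R ^ p) = c * lam := by field_simp
                rw [e] at h5
                linarith
              · exact (Real.exp_pos _).le
            · rw [if_neg hy, if_neg (fun h => hy h.1)]
        _ = ((univ.filter fun y => dist y (cc v) ≤ R).card : ℝ) * Real.exp (-(c / 5 * lam)) := by
            rw [← sum_filter, sum_const, nsmul_eq_mul]
        _ ≤ Real.exp Λ * Real.exp (-(c / 5 * lam)) :=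
            mul_le_mul_of_nonneg_right (hcard _) (Real.exp_pos _).le
        _ = E := by rw [← Real.exp_add, hE, sub_eq_add_neg]
    have perv : ∀ v, min (π z v) (π z' v) * (1 - (e1 + 2 * E)) ≤ ∑ q : V2 × α,
        min (π z v * (ψ (v, z) q.1 ^ 2 *
          post (fun y => ψ (v, y)) (fun y => dist y (cc v) ≤ R) q.1 q.2 *
            (if dist z q.2 ≤ R / 2 then 1 else 0)))
          (π z' v * (ψ (v, z') q.1 ^ 2 *
          post (fun y => ψ (v, y)) (fun y => dist y (cc v) ≤ R) q.1 q.2 *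
            (if dist z' q.2 ≤ R / 2 then 1 else 0))) := by
      intro v
      have hnn : ∀ (x : α) (q : V2 × α), 0 ≤ ψ (v, x) q.1 ^ 2 *
          post (fun y => ψ (v, y)) (fun y => dist y (cc v) ≤ R) q.1 q.2 *
            (if dist x q.2 ≤ R / 2 then 1 else 0) := by
        intro x q
        have := post_nonneg (fun y => ψ (v, y)) (fun y => dist y (cc v) ≤ R) q.1 q.2
        split_ifs <;> positivity
      have hmin0 : 0 ≤ min (π z v) (π z' v) := le_min (h0 _ _) (h0 _ _)
      rcases eq_or_lt_of_le hmin0 with hz0 | hpos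
      · rw [← hz0, zero_mul]
        exact sum_nonneg fun q _ => le_min (mul_nonneg (h0 _ _) (hnn _ _))
          (mul_nonneg (h0 _ _) (hnn _ _))
      · have hz : dist z (cc v) ≤ R := h2 z v (ne_of_gt (lt_of_lt_of_le hpos (min_le_left _ _)))
        have hz' : dist z' (cc v) ≤ R :=
          h2 z' v (ne_of_gt (lt_of_lt_of_le hpos (min_le_right _ _)))
        have po := posterior (fun y => ψ (v, y)) (fun y v2 => hψ0 _ _)
          (fun y => dist y (cc v) ≤ R) (fun a b => dist a b ≤ R / 2) E z z' hz hz'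
          (far v z hz) (far v z' hz')
        have ov := overlap_of_inner (ψ (v, z)) (ψ (v, z')) (fun _ => (hψ0 _ _).le)
          (fun _ => (hψ0 _ _).le) (hψ1 _) (hψ1 _) (C * lam * (r / R) ^ (min p 2)) (by
            refine le_trans ?_ (hψ2 (v, z) (v, z'))
            simp only
            rw [hu]
            have := (hm (fun i => F i z - F i (cc v)) (fun i => F i z' - F i (cc v)) R r hr hrR
              (hball v z hz) (hball v z' hz')).1 (by
                rw [hdiff]
                exact Real.rpow_le_rpow dist_nonneg hzz hp0)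
            have h5 := mul_le_mul_of_nonneg_left this (by positivity : 0 ≤ lam / R ^ p)
            have e : lam / R ^ p * (C * R ^ p * (r / R) ^ (min p 2)) =
              C * lam * (r / R) ^ (min p 2) := by field_simp
            rw [e] at h5
            linarith)
        rw [← Fintype.sum_prod_type'] at po
        calc min (π z v) (π z' v) * (1 - (e1 + 2 * E))
            ≤ min (π z v) (π z' v) * ∑ q : V2 × α, min (ψ (v, z) q.1 ^ 2 *
              post (fun y => ψ (v, y)) (fun y => dist y (cc v) ≤ R) q.1 q.2 *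
                (if dist z q.2 ≤ R / 2 then 1 else 0)) (ψ (v, z') q.1 ^ 2 *
              post (fun y => ψ (v, y)) (fun y => dist y (cc v) ≤ R) q.1 q.2 *
                (if dist z' q.2 ≤ R / 2 then 1 else 0)) := by
              refine mul_le_mul_of_nonneg_left (le_trans ?_ po) hmin0
              linarith
          _ ≤ _ := by
              rw [mul_sum]
              refine sum_le_sum fun q _ => le_min ?_ ?_
              · exact mul_le_mul (min_le_left _ _) (min_le_left _ _)
                  (le_min (hnn _ _) (hnn _ _)) (h0 _ _)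
              · exact mul_le_mul (min_le_right _ _) (min_le_right _ _)
                  (le_min (hnn _ _) (hnn _ _)) (h0 _ _)
    rw [Fintype.sum_prod_type]
    refine le_trans ?_ (sum_le_sum fun v _ => perv v)
    rw [← sum_mul]
    have a1 := h3 z z' hzz
    have a2 : ∑ v, min (π z v) (π z' v) ≤ 1 :=
      (sum_le_sum fun v _ => min_le_left _ _).trans (h1 z)
    nlinarith

open Classical in
theorem ker_rec (p : ℝ) (hp : 1 ≤ p) : ∃ t0 : ℝ, 1 ≤ t0 ∧
    ∀ {α ι : Type} [PseudoMetricSpace α] [Fintype α] [Fintype ι] (F : ι → α → ℝ),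
      (∀ x y, ∑ i, |F i x - F i y| ^ p = dist x y ^ p) → ∀ (r s Λ : ℝ), 0 < r → 1 ≤ s →
      1 ≤ Λ → Λ ≤ s ^ (min p 2) → ∀ (K : ℕ) (η : ℝ),
      (∀ z : α, ((univ.filter fun y => dist y z ≤ 2 ^ K * (t0 * s * r)).card : ℝ) ≤ Real.exp Λ) →
      Ker α r (2 ^ K * (t0 * s * r)) η →
      Ker α r (t0 * s * r) (η + (1 / 4) * (1 - (7 / 8) ^ K)) := by
  obtain ⟨C, c, hC, hc, hstep⟩ := ker_step p hp
  set A : ℝ := 129 * C / c * 64 ^ 2 + 1 with hA
  have hA1 : 1 ≤ A := by
    have : 0 ≤ 129 * C / c * 64 ^ 2 := by positivity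
    linarith
  refine ⟨A, hA1, ?_⟩
  intro α ι _ _ _ F hd r s Λ hr hs hΛ hΛs K
  set a := min p 2 with ha
  have ha1 : 1 ≤ a := le_min hp (by norm_num)
  have hA0 : 0 < A := by linarith
  have hs0 : 0 < s := by linarith
  induction K with
  | zero =>
    intro η _ h
    simpa using h
  | succ K ih =>
    intro η hcard h
    have hR0 : 0 < A * s * r := by positivity
    have h2K : (1 : ℝ) ≤ 2 ^ K := one_le_pow₀ (by norm_num)
    have hAs : 1 ≤ A * s := by nlinarith
    have hrR : r ≤ 2 ^ (K + 1) * (A * s * r) := by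
      rw [pow_succ]
      have : r ≤ A * s * r := by nlinarith
      nlinarith
    have st := hstep F hd r (2 ^ (K + 1) * (A * s * r)) η Λ (129 * Λ * (3 / 2) ^ K / c) hr hrR
      (by positivity) hcard h
    have e : 2 ^ (K + 1) * (A * s * r) / 2 = 2 ^ K * (A * s * r) := by ring
    rw [e] at st
    have hcard' : ∀ z : α, ((univ.filter fun y => dist y z ≤ 2 ^ K * (A * s * r)).card : ℝ) ≤
        Real.exp Λ := by
      intro z
      refine le_trans ?_ (hcard z)
      refine Nat.cast_le.2 (card_le_card fun y hy => ?_)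
      simp only [mem_filter, mem_univ, true_and] at hy ⊢
      refine hy.trans (mul_le_mul_of_nonneg_right ?_ hR0.le)
      exact pow_le_pow_right₀ (by norm_num) (Nat.le_succ K)
    refine (ih _ hcard' st).mono le_rfl ?_
    have b1 : Real.sqrt (C * (129 * Λ * (3 / 2) ^ K / c) *
        (r / (2 ^ (K + 1) * (A * s * r))) ^ a) ≤ 1 / 64 * (7 / 8) ^ K := by
      apply Real.sqrt_le_iff.2
      refine ⟨by positivity, ?_⟩
      have e1 : r / (2 ^ (K + 1) * (A * s * r)) = (1 / (2 ^ (K + 1) * A)) * s⁻¹ := by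
        field_simp
      have hB : (1 : ℝ) ≤ 2 ^ (K + 1) * A := by
        rw [pow_succ]
        nlinarith
      have e2 : (1 / (2 ^ (K + 1) * A)) ^ a ≤ 1 / (2 ^ (K + 1) * A) := by
        have := Real.rpow_le_rpow_of_exponent_ge (x := 1 / (2 ^ (K + 1) * A)) (by positivity)
          (by rw [div_le_one (by positivity)]; exact hB) ha1
        simpa using this
      have hsa : 0 < s ^ a := by positivity
      have e3 : Λ * (s⁻¹) ^ a ≤ 1 := by
        rw [Real.inv_rpow hs0.le, ← div_eq_mul_inv, div_le_one hsa]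
        exact hΛs
      rw [e1, Real.mul_rpow (by positivity) (by positivity)]
      have e4 : 129 * C / c * (1 / A) ≤ (1 / 64) ^ 2 := by
        rw [mul_one_div, div_le_iff₀ hA0, hA]
        nlinarith
      have e5 : (3 / 2 : ℝ) ^ K * (1 / 2 ^ (K + 1)) ≤ ((7 / 8) ^ K) ^ 2 := by
        have : (3 / 2 : ℝ) ^ K * (1 / 2 ^ (K + 1)) = (3 / 4) ^ K / 2 := by
          rw [show (3 / 4 : ℝ) = (3 / 2) * (1 / 2) by norm_num, mul_pow, one_div_pow, pow_succ]
          field_simp
        rw [this, ← pow_mul, mul_comm K 2, pow_mul]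
        have h1 : (3 / 4 : ℝ) ^ K ≤ ((7 / 8) ^ 2) ^ K :=
          pow_le_pow_left₀ (by norm_num) (by norm_num) K
        have h2 : (0 : ℝ) ≤ (3 / 4) ^ K := by positivity
        linarith
      have hinv : 0 ≤ (s⁻¹) ^ a := by positivity
      calc C * (129 * Λ * (3 / 2) ^ K / c) * ((1 / (2 ^ (K + 1) * A)) ^ a * s⁻¹ ^ a)
          ≤ C * (129 * Λ * (3 / 2) ^ K / c) * ((1 / (2 ^ (K + 1) * A)) * s⁻¹ ^ a) :=
            mul_le_mul_of_nonneg_left (mul_le_mul_of_nonneg_right e2 hinv) (by positivity)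
        _ = (129 * C / c * (1 / A)) * ((3 / 2 : ℝ) ^ K * (1 / 2 ^ (K + 1))) * (Λ * s⁻¹ ^ a) := by
            field_simp
        _ ≤ (1 / 64) ^ 2 * ((7 / 8) ^ K) ^ 2 * 1 :=
            mul_le_mul (mul_le_mul e4 e5 (by positivity) (by positivity)) e3 (by positivity)
              (by positivity)
        _ = _ := by ring
    have b2 : 2 * Real.exp (Λ - c * (129 * Λ * (3 / 2) ^ K / c)) ≤ 1 / 64 * (7 / 8) ^ K := by
      have h32 : (1 : ℝ) ≤ (3 / 2) ^ K := one_le_pow₀ (by norm_num)
      have e1 : Λ - c * (129 * Λ * (3 / 2) ^ K / c) ≤ -(128 * (3 / 2) ^ K) := by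
        have : c * (129 * Λ * (3 / 2) ^ K / c) = 129 * Λ * (3 / 2) ^ K := by field_simp
        rw [this]
        nlinarith
      have e2 : Real.exp (-(128 * (3 / 2) ^ K)) ≤ 1 / (128 * (3 / 2) ^ K) := by
        rw [Real.exp_neg, ← one_div]
        refine one_div_le_one_div_of_le (by positivity) ?_
        have := Real.add_one_le_exp (128 * (3 / 2 : ℝ) ^ K)
        linarith
      have e3 : (1 : ℝ) / (3 / 2) ^ K ≤ (7 / 8) ^ K := by
        rw [← one_div_pow]
        exact pow_le_pow_left₀ (by norm_num) (by norm_num) K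
      have e4 := (Real.exp_le_exp.2 e1).trans e2
      have e5 : (1 : ℝ) / (128 * (3 / 2) ^ K) = 1 / 128 * (1 / (3 / 2) ^ K) := by field_simp
      rw [e5] at e4
      linarith
    rw [pow_succ (7 / 8 : ℝ) K]
    linarith

open Classical in
/-- Two-phase kernel: global cardinality first, local cardinality next. -/
theorem kernel (p : ℝ) (hp : 1 ≤ p) : ∃ t0 : ℝ, 1 ≤ t0 ∧
    ∀ {α ι : Type} [PseudoMetricSpace α] [Fintype α] [Fintype ι] (F : ι → α → ℝ),
      (∀ x y, ∑ i, |F i x - F i y| ^ p = dist x y ^ p) → ∀ (r : ℝ) (m m1 : ℕ), 0 < r → m ≤ m1 →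
      (Fintype.card α : ℝ) ≤ Real.exp (((2 : ℝ) ^ m1) ^ (min p 2)) →
      (∀ z : α, ((univ.filter fun y => dist y z ≤ t0 * 2 ^ m1 * r).card : ℝ) ≤
        Real.exp (((2 : ℝ) ^ m) ^ (min p 2))) →
      Ker α r (t0 * 2 ^ m * r) (1 / 2) := by
  obtain ⟨t0, ht0, hrec⟩ := ker_rec p hp
  refine ⟨t0, ht0, ?_⟩
  intro α ι _ _ _ F hd r m m1 hr hm hn hloc
  have ha0 : 0 ≤ min p 2 := le_min (by linarith) (by norm_num)
  have one : ∀ k : ℕ, (1 : ℝ) ≤ 2 ^ k := fun k => one_le_pow₀ (by norm_num)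
  have one' : ∀ k : ℕ, (1 : ℝ) ≤ ((2 : ℝ) ^ k) ^ (min p 2) := fun k =>
    Real.one_le_rpow (one k) ha0
  rcases isEmpty_or_nonempty α with hα | ⟨⟨z0⟩⟩
  · exact ⟨Empty, inferInstance, fun v => v.elim, fun _ _ => 0, fun _ _ => le_rfl,
      fun _ => by simp, fun _ v => v.elim, fun z => isEmptyElim z⟩
  have hR1 : 0 < t0 * 2 ^ m1 * r := by positivity
  obtain ⟨K, hK⟩ : ∃ K : ℕ, ∀ z : α, dist z z0 ≤ 2 ^ K * (t0 * 2 ^ m1 * r) := by
    obtain ⟨B, hB⟩ := (Set.finite_range fun z : α => dist z z0).bddAbove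
    obtain ⟨n, hn⟩ := pow_unbounded_of_one_lt (B / (t0 * 2 ^ m1 * r)) (by norm_num : (1 : ℝ) < 2)
    refine ⟨n, fun z => ?_⟩
    have h1 : dist z z0 ≤ B := hB ⟨z, rfl⟩
    rw [div_lt_iff₀ hR1] at hn
    linarith
  have p1 := hrec F hd r (2 ^ m1) _ hr (one m1) (one' m1) le_rfl K 0 (fun z => le_trans
    (Nat.cast_le.2 (card_le_univ _)) hn) (ker_base r _ z0 hK)
  have e : t0 * 2 ^ m1 * r = 2 ^ (m1 - m) * (t0 * 2 ^ m * r) := by
    have : (2 : ℝ) ^ m1 = 2 ^ (m1 - m) * 2 ^ m := by
      rw [← pow_add]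
      congr 1
      omega
    rw [this]
    ring
  rw [e] at p1 hloc
  refine (hrec F hd r (2 ^ m) _ hr (one m) (one' m) le_rfl (m1 - m) _ hloc p1).mono le_rfl ?_
  have : (0 : ℝ) ≤ (7 / 8) ^ K := by positivity
  have : (0 : ℝ) ≤ (7 / 8) ^ (m1 - m) := by positivity
  linarith

end Vale.Agent.P249
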