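import Vale.Agent.P249.Embed

/-! The subpolynomial bound. -/

namespace Vale.Agent.P249

open Finset MeasureTheory Filter

theorem log_ge_of_three {n : ℕ} (hn : 3 ≤ n) : (1.09 : ℝ) ≤ Real.log n := by
  have h3 : (3 : ℝ) ≤ n := by exact_mod_cast hn
  rw [Real.le_log_iff_exp_le (by linarith)]
  have h1 := Real.exp_one_lt_d9
  have h2 : Real.exp 0.09 ≤ 1 / (1 - 0.09) :=
    Real.exp_bound_div_one_sub_of_interval (by norm_num) (by norm_num)
  have e : Real.exp 1.09 = Real.exp 1 * Real.exp 0.09 := by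
    rw [← Real.exp_add]
    norm_num
  have h4 := Real.exp_pos 0.09
  rw [e]
  norm_num at h2 ⊢
  nlinarith

theorem loglog_ge {n : ℕ} (hn : 3 ≤ n) : (1 / 13 : ℝ) ≤ Real.log (Real.log n) := by
  have h := log_ge_of_three hn
  have h1 := Real.one_sub_inv_le_log_of_pos (by norm_num : (0 : ℝ) < 1.09)
  have h2 := Real.log_le_log (by norm_num) h
  norm_num at h1 h2 ⊢
  linarith

theorem log_card_le {n k : ℕ} (hn : 3 ≤ n) (hk : k ≤ n) :
    Real.log (2 * (k : ℝ) ^ 2 + 2) ≤ 3 * Real.log n := by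
  have h3 : (3 : ℝ) ≤ n := by exact_mod_cast hn
  have hk' : (k : ℝ) ≤ n := by exact_mod_cast hk
  have hk0 : (0 : ℝ) ≤ k := Nat.cast_nonneg _
  have h1 : 2 * (k : ℝ) ^ 2 + 2 ≤ (n : ℝ) ^ 3 := by
    have a1 : (k : ℝ) ^ 2 ≤ (n : ℝ) ^ 2 := pow_le_pow_left₀ hk0 hk' 2
    have a2 : (9 : ℝ) ≤ (n : ℝ) ^ 2 := by nlinarith
    have a3 : 3 * (n : ℝ) ^ 2 ≤ (n : ℝ) ^ 3 := by nlinarith
    linarith
  have := Real.log_le_log (by positivity) h1
  rwa [Real.log_pow] at this

universe u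

theorem subpoly (p D : ℝ) (hp : 1 ≤ p) (hD : 1 < D) : ∃ C : ℝ, 0 < C ∧ ∀ n : ℕ, 3 ≤ n →
    ∃ N : ℕ, (N : ℝ) ≤ Real.exp (C * Real.log n ^ (1 / min p 2) *
      Real.log (Real.log n) ^ (1 / p)) ∧
    ∀ (Ω : Type u) [MeasurableSpace Ω] (μ : Measure Ω)
      (X : Finset (Lp ℝ (ENNReal.ofReal p) μ)), X.card ≤ n →
      ∃ (f : Lp ℝ (ENNReal.ofReal p) μ → Fin N → ℝ) (s : ℝ), 0 < s ∧ ∀ x ∈ X, ∀ y ∈ X,
        s * ‖x - y‖ ≤ (∑ k, |f x k - f y k| ^ p) ^ (1 / p) ∧
        (∑ k, |f x k - f y k| ^ p) ^ (1 / p) ≤ D * s * ‖x - y‖ := by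
  have hp0 : 0 < p := by linarith
  obtain ⟨ε, hε, hε1, hlo, hD'⟩ := exists_eps p D hp hD
  obtain ⟨C, hC, hH⟩ := hajlasz p hp
  obtain ⟨c, hc, hN⟩ := dim_count p ε (C + 6) hp hε (by positivity)
  refine ⟨14 * c, by positivity, fun n hn => ?_⟩
  set a := min p 2 with ha
  have ha1 : 1 ≤ a := le_min hp (by norm_num)
  have hap : a ≤ p := min_le_left _ _
  have ha2 : a ≤ 2 := min_le_right _ _
  have ha0 : 0 < a := by linarith
  set Λ := Real.log n with hΛ
  have hΛ1 : 1 ≤ Λ := le_trans (by norm_num) (log_ge_of_three hn)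
  have hll := loglog_ge hn
  rw [← hΛ] at hll
  have hl0 : 0 ≤ Real.log Λ := by linarith
  set Y1 := Λ ^ (1 / a) with hY1
  set Y2 := (1 + Real.log Λ) ^ (1 / p) with hY2
  have hY11 : 1 ≤ Y1 := Real.one_le_rpow hΛ1 (by positivity)
  have hY21 : 1 ≤ Y2 := Real.one_le_rpow (by linarith) (by positivity)
  have hY : 1 ≤ Y1 * Y2 := by nlinarith
  have hp1 : 1 / p ≤ 1 := by rw [div_le_one hp0]; exact hp
  have hroot : ∀ x : ℝ, 1 ≤ x → x ^ (1 / p) ≤ x := fun x hx => by
    have := Real.rpow_le_rpow_of_exponent_le hx hp1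
    rwa [Real.rpow_one] at this
  set M := C * Λ ^ (p / a) * (1 + Real.log Λ) with hM
  have hM0 : 0 ≤ M := by positivity
  have hMY : (M + 1) ^ (1 / p) ≤ (C + 6) * (Y1 * Y2) := by
    have h1 : 1 ≤ Λ ^ (p / a) := Real.one_le_rpow hΛ1 (by positivity)
    have h2 : M + 1 ≤ (C + 1) * (Λ ^ (p / a) * (1 + Real.log Λ)) := by
      rw [hM]
      nlinarith
    have h3 := Real.rpow_le_rpow (by positivity) h2 (by positivity : 0 ≤ 1 / p)
    rw [Real.mul_rpow (by positivity) (by positivity), Real.mul_rpow (by positivity)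
      (by positivity), ← Real.rpow_mul (by positivity)] at h3
    have e : p / a * (1 / p) = 1 / a := by field_simp
    rw [e] at h3
    have h4 := hroot (C + 1) (by linarith)
    refine h3.trans (mul_le_mul_of_nonneg_right (by linarith) (by positivity))
  have hL : 3 * Λ ≤ Real.exp ((C + 6) * (Y1 * Y2)) := by
    have h1 : Λ ≤ Y1 ^ 2 := by
      have : Y1 ^ a = Λ := by
        rw [hY1, ← Real.rpow_mul (by linarith), one_div_mul_cancel ha0.ne', Real.rpow_one]
      rw [← this]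
      have := Real.rpow_le_rpow_of_exponent_le hY11 ha2
      rwa [Real.rpow_two] at this
    have h2 := Real.add_one_le_exp (3 * Y1)
    have h3 : Real.exp (3 * Y1) ^ 2 ≤ Real.exp ((C + 6) * (Y1 * Y2)) := by
      rw [sq, ← Real.exp_add]
      refine Real.exp_le_exp.2 ?_
      have : Y1 ≤ Y1 * Y2 := by nlinarith
      nlinarith
    have h4 : (3 * Y1) ^ 2 ≤ Real.exp (3 * Y1) ^ 2 :=
      pow_le_pow_left₀ (by positivity) (by linarith) 2
    nlinarith
  obtain ⟨W, N, hW0, hWε, hN0, hN1, hN2⟩ := hN M (Y1 * Y2) (3 * Λ) hM0 hY hMY (by positivity) hL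
  refine ⟨N, hN2.trans (Real.exp_le_exp.2 ?_), fun Ω _ μ X hX => ?_⟩
  · have h1 : Y2 ≤ 14 * Real.log Λ ^ (1 / p) := by
      have h2 : 1 + Real.log Λ ≤ 14 * Real.log Λ := by linarith
      have h3 := Real.rpow_le_rpow (by positivity) h2 (by positivity : 0 ≤ 1 / p)
      rw [Real.mul_rpow (by norm_num) hl0] at h3
      exact h3.trans (mul_le_mul_of_nonneg_right (hroot 14 (by norm_num)) (by positivity))
    have := mul_le_mul_of_nonneg_left h1 (by positivity : 0 ≤ c * Y1)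
    linarith
  · refine transfer p D ε hp hD hε hε1 _ _ hlo (by positivity) hD' n N ?_ μ X hX
    intro α ι _ _ _ F hd hcard
    have hn0 : (0 : ℝ) < n := by
      have : (3 : ℝ) ≤ n := by exact_mod_cast hn
      linarith
    obtain ⟨l, hl0, hl1, hl2⟩ := hH F hd Λ hΛ1 (by
      rw [hΛ, Real.exp_log hn0]
      exact_mod_cast hcard)
    refine embed_of_gradient p hp F hd l hl0 hl1 M hM0 hl2 ε hε (by linarith) W hW0 hWε N hN0
      (le_trans ?_ hN1)
    have := log_card_le hn hcard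
    gcongr

/-- A stretched exponential of `log n` is `n ^ o(1)`. -/
theorem stretched_tendsto (C γ β δ : ℝ) (hC : 0 < C) (hγ : γ < 1) (hδ : 0 < δ) :
    Tendsto (fun n : ℕ => Real.exp (C * Real.log n ^ γ * Real.log (Real.log n) ^ β) /
      (n : ℝ) ^ δ) atTop (nhds 0) := by
  have h1 := isLittleO_log_rpow_rpow_atTop β (by linarith : 0 < 1 - γ)
  have h2 := h1.bound (by positivity : 0 < δ / 2 / C)
  have h3 : Tendsto (fun x : ℝ => C * x ^ γ * Real.log x ^ β - δ * x) atTop atBot := by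
    have h4 : Tendsto (fun x : ℝ => -(δ / 2) * x) atTop atBot :=
      tendsto_id.const_mul_atTop_of_neg (by linarith)
    refine tendsto_atBot_mono' atTop ?_ h4
    filter_upwards [h2, eventually_gt_atTop (1 : ℝ)] with x hx hx1
    have hx0 : 0 < x := by linarith
    rw [Real.norm_of_nonneg (Real.rpow_nonneg (Real.log_nonneg hx1.le) _),
      Real.norm_of_nonneg (Real.rpow_nonneg hx0.le _)] at hx
    have h5 := mul_le_mul_of_nonneg_left hx (by positivity : 0 ≤ C * x ^ γ)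
    have e : C * x ^ γ * (δ / 2 / C * x ^ (1 - γ)) = δ / 2 * x := by
      have : x ^ γ * x ^ (1 - γ) = x := by
        rw [← Real.rpow_add hx0]
        simp
      field_simp
      linarith
    linarith
  have h6 := (Real.tendsto_exp_atBot.comp h3).comp
    (Real.tendsto_log_atTop.comp tendsto_natCast_atTop_atTop)
  refine h6.congr' ?_
  filter_upwards [eventually_gt_atTop 0] with n hn
  have hn0 : (0 : ℝ) < n := Nat.cast_pos.2 hn
  simp only [Function.comp]
  rw [Real.exp_sub, Real.rpow_def_of_pos hn0, mul_comm δ]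

end Vale.Agent.P249
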