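import Vale.Agent.P249.Window

/-! Definitions shared by the modules of the sharper dimension bound. -/

namespace Vale.Agent.P249

open Finset

/-- Difference quotient of `φ` along the ordered pair `e` (zero on the diagonal). -/
noncomputable def grad {α : Type} [MetricSpace α] (φ : α → ℝ) (e : α × α) : ℝ :=
  (φ e.1 - φ e.2) / dist e.1 e.2

/-- Hard truncation at level `h * 2 ^ k`. -/
noncomputable def trunc (h : ℝ) (k : ℕ) (t : ℝ) : ℝ := if |t| ≤ h * 2 ^ k then t else 0

/-- The `p`-th power of `G`, kept only above the threshold `Γ * lam`. -/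
noncomputable def high (p Γ lam G : ℝ) : ℝ := if Γ * lam < |G| then |G| ^ p else 0

/-- A finite family of functions `V s` with a signal `sig s` on pairs and a scale `lam s`. -/
structure Cfg (α : Type) : Type 1 where
  σ : Type
  fin : Fintype σ
  V : σ → α → ℝ
  sig : σ → α × α → ℝ
  lam : σ → ℝ

instance {α : Type} (c : Cfg α) : Fintype c.σ := c.fin

/-- Scales are positive and the signal has `p`-mass `A` on every off-diagonal pair. -/
def Cfg.Ok {α : Type} (c : Cfg α) (p A : ℝ) : Prop :=
  (∀ s, 0 < c.lam s) ∧ ∀ e : α × α, e.1 ≠ e.2 → ∑ s, |c.sig s e| ^ p = A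

/-- Distance between gradients and signal. -/
noncomputable def Cfg.e1 {α : Type} [MetricSpace α] (c : Cfg α) (p : ℝ) (e : α × α) : ℝ :=
  ∑ s, |grad (c.V s) e - c.sig s e| ^ p

/-- Scale-weighted first moment of the gradients. -/
noncomputable def Cfg.e2 {α : Type} [MetricSpace α] (c : Cfg α) (p : ℝ) (e : α × α) : ℝ :=
  ∑ s, c.lam s ^ (p - 1) * |grad (c.V s) e|

/-- Mass of the gradients far above their scale. -/
noncomputable def Cfg.e3 {α : Type} [MetricSpace α] (c : Cfg α) (p Γ : ℝ) (e : α × α) : ℝ :=
  ∑ s, high p Γ (c.lam s) (grad (c.V s) e)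

end Vale.Agent.P249
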