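import Vale.Agent.P249.SDefs

/-! The electrical projection, continuous in the weights. -/

namespace Vale.Agent.P249

open Finset Matrix

open Classical in
/-- The weighted incidence matrix. -/
noncomputable def elecA {α : Type} [MetricSpace α] (t : α × α → ℝ) : Matrix (α × α) α ℝ :=
  fun e x => Real.exp (t e) / dist e.1 e.2 *
    ((if x = e.1 then 1 else 0) - (if x = e.2 then 1 else 0))

/-- The regularised Laplacian. -/
noncomputable def elecH {α : Type} [MetricSpace α] [Fintype α] (t : α × α → ℝ) : Matrix α α ℝ :=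
  (elecA t)ᵀ * elecA t + Matrix.of fun _ _ => 1

theorem elec_mulVec {α : Type} [MetricSpace α] [Fintype α] (t : α × α → ℝ) (φ : α → ℝ)
    (e : α × α) : (elecA t *ᵥ φ) e = Real.exp (t e) / dist e.1 e.2 * (φ e.1 - φ e.2) := by
  classical
  simp only [Matrix.mulVec, dotProduct, elecA, mul_assoc, ← mul_sum, sub_mul, sum_sub_distrib,
    ite_mul, one_mul, zero_mul, Finset.sum_ite_eq', mem_univ, if_true]

theorem elec_mul {α β : Type} [MetricSpace α] [Fintype α] (t : α × α → ℝ) (N : Matrix α β ℝ)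
    (e : α × α) (f : β) :
    (elecA t * N) e f = Real.exp (t e) / dist e.1 e.2 * (N e.1 f - N e.2 f) :=
  elec_mulVec t (fun x => N x f) e

open Classical in
theorem elec_det {α : Type} [MetricSpace α] [Fintype α] (t : α × α → ℝ) : (elecH t).det ≠ 0 := by
  intro h
  obtain ⟨v, hv, h0⟩ := Matrix.exists_mulVec_eq_zero_iff.2 h
  have h1 : v ⬝ᵥ (elecH t *ᵥ v) = (elecA t *ᵥ v) ⬝ᵥ (elecA t *ᵥ v) + (∑ x, v x) ^ 2 := by
    rw [elecH, Matrix.add_mulVec, dotProduct_add, ← Matrix.mulVec_mulVec, Matrix.dotProduct_mulVec,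
      Matrix.vecMul_transpose]
    congr 1
    simp only [Matrix.mulVec, dotProduct, Matrix.of_apply, one_mul, ← sum_mul, sq]
  rw [h0, dotProduct_zero] at h1
  have h2 : 0 ≤ (elecA t *ᵥ v) ⬝ᵥ (elecA t *ᵥ v) := sum_nonneg fun _ _ => mul_self_nonneg _
  have h3 := sq_nonneg (∑ x, v x)
  have h4 : elecA t *ᵥ v = 0 := dotProduct_self_eq_zero.1 (by linarith)
  have h5 : ∑ x, v x = 0 := (pow_eq_zero_iff two_ne_zero).1 (by linarith)
  have h6 : ∀ x y, v x = v y := by
    intro x y
    by_contra hxy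
    have h7 : x ≠ y := fun e => hxy (by rw [e])
    have h8 := congrFun h4 (x, y)
    rw [elec_mulVec] at h8
    exact mul_ne_zero (div_ne_zero (Real.exp_ne_zero _) (dist_ne_zero.2 h7)) (sub_ne_zero.2 hxy) h8
  refine hv (funext fun x => ?_)
  rw [sum_congr rfl fun y _ => h6 y x, sum_const, nsmul_eq_mul, mul_eq_zero] at h5
  refine h5.resolve_left ?_
  exact_mod_cast (card_pos.2 ⟨x, mem_univ x⟩).ne'

open Classical in
theorem elec_proj {α : Type} [MetricSpace α] [Fintype α] [Nonempty α] (t : α × α → ℝ) :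
    elecA t * ((elecH t)⁻¹ * (elecA t)ᵀ) * elecA t = elecA t := by
  have hu : IsUnit (elecH t).det := (elec_det t).isUnit
  set J : Matrix α α ℝ := Matrix.of fun _ _ => 1 with hJ
  have h1 : elecA t * J = 0 := by
    ext e f
    simp [elec_mul, hJ]
  have h2 : elecH t * J = (Fintype.card α : ℝ) • J := by
    rw [elecH, Matrix.add_mul, Matrix.mul_assoc, h1, Matrix.mul_zero, zero_add]
    ext x y
    simp [Matrix.mul_apply, hJ]
  have h3 : elecA t * ((elecH t)⁻¹ * J) = 0 := by
    have h4 : (Fintype.card α : ℝ) • (elecA t * ((elecH t)⁻¹ * J)) = 0 := by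
      rw [← Matrix.mul_smul, ← Matrix.mul_smul, ← h2, Matrix.nonsing_inv_mul_cancel_left _ _ hu, h1]
    exact (smul_eq_zero.1 h4).resolve_left (by exact_mod_cast Fintype.card_ne_zero)
  have h5 : (elecA t)ᵀ * elecA t = elecH t - J := by rw [elecH, add_sub_cancel_right]
  rw [Matrix.mul_assoc, Matrix.mul_assoc, h5, Matrix.mul_sub, Matrix.mul_sub, h3,
    Matrix.nonsing_inv_mul _ hu, Matrix.mul_one, sub_zero]

theorem elec {α : Type} [MetricSpace α] [Fintype α] [Nonempty α] :
    ∃ (P : (α × α → ℝ) → α × α → α × α → ℝ) (M : (α × α → ℝ) → α → α × α → ℝ),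
      (∀ e f, Continuous fun t => P t e f) ∧ (∀ t e f, P t e f = P t f e) ∧
      (∀ t e f, P t e f = Real.exp (t e) / dist e.1 e.2 * (M t e.1 f - M t e.2 f)) ∧
      ∀ t (φ : α → ℝ) e, ∑ f, P t e f * (Real.exp (t f) / dist f.1 f.2 * (φ f.1 - φ f.2)) =
        Real.exp (t e) / dist e.1 e.2 * (φ e.1 - φ e.2) := by
  classical
  refine ⟨fun t => elecA t * ((elecH t)⁻¹ * (elecA t)ᵀ), fun t => (elecH t)⁻¹ * (elecA t)ᵀ,
    fun e f => ?_, fun t e f => ?_, fun t e f => elec_mul t _ e f, fun t φ e => ?_⟩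
  · have hA : Continuous fun t : α × α → ℝ => elecA t := by
      refine continuous_matrix fun e x => ?_
      unfold elecA
      fun_prop
    have hH : Continuous fun t : α × α → ℝ => elecH t :=
      (hA.matrix_transpose.matrix_mul hA).add continuous_const
    have hI : Continuous fun t : α × α → ℝ => (elecH t)⁻¹ := by
      simp only [Matrix.inv_def, Ring.inverse_eq_inv']
      exact (hH.matrix_det.inv₀ elec_det).smul hH.matrix_adjugate
    exact (hA.matrix_mul (hI.matrix_mul hA.matrix_transpose)).matrix_elem e f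
  · have hH : (elecH t)ᵀ = elecH t := by
      rw [elecH, Matrix.transpose_add, Matrix.transpose_mul, Matrix.transpose_transpose]
      rfl
    have h : (elecA t * ((elecH t)⁻¹ * (elecA t)ᵀ))ᵀ = elecA t * ((elecH t)⁻¹ * (elecA t)ᵀ) := by
      rw [Matrix.transpose_mul, Matrix.transpose_mul, Matrix.transpose_transpose,
        Matrix.transpose_nonsing_inv, hH, Matrix.mul_assoc]
    exact congrFun (congrFun h f) e
  · simp only [← elec_mulVec]
    change ((elecA t * ((elecH t)⁻¹ * (elecA t)ᵀ)) *ᵥ (elecA t *ᵥ φ)) e = _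
    rw [Matrix.mulVec_mulVec, elec_proj]

end Vale.Agent.P249
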