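import Vale.Agent.P249.SDefs

/-! A quadratic lower bound for the dimension of isometric embeddings. -/

namespace Vale.Agent.P249

open Finset

universe u

theorem exact_lower_half {p : ℝ} (hp : 1 < p) (a b : ℝ) :
    (b = -a ∧ |a - b| ^ p = 2 ^ p * (|a| ^ p + |b| ^ p) / 2) ∨
      |a - b| ^ p < 2 ^ p * (|a| ^ p + |b| ^ p) / 2 := by
  have hp0 : 0 < p := by linarith
  by_cases h : b = -a
  · refine Or.inl ⟨h, ?_⟩
    rw [h, abs_neg, sub_neg_eq_add, ← two_mul, abs_mul, abs_two,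
      Real.mul_rpow zero_le_two (abs_nonneg _)]
    ring
  right
  by_cases h1 : |a| = |b|
  · have h2 : a = b := (abs_eq_abs.1 h1).resolve_right fun h3 => h (by rw [h3, neg_neg])
    have h3 : a ≠ 0 := fun h3 => h (by rw [← h2, h3, neg_zero])
    rw [← h2, sub_self, abs_zero, Real.zero_rpow hp0.ne']
    have := abs_pos.2 h3
    positivity
  · have h2 := (strictConvexOn_rpow hp).2 (abs_nonneg a) (abs_nonneg b) h1 one_half_pos
      one_half_pos (add_halves 1)
    simp only [smul_eq_mul] at h2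
    have h3 : |a - b| ^ p ≤ (2 * (1 / 2 * |a| + 1 / 2 * |b|)) ^ p :=
      Real.rpow_le_rpow (abs_nonneg _) (by linarith [abs_sub a b]) hp0.le
    rw [Real.mul_rpow zero_le_two (by positivity)] at h3
    have h4 : (0 : ℝ) < 2 ^ p := by positivity
    nlinarith

theorem exact_lower_psi {p : ℝ} (hp : 1 < p) (hp2 : p ≠ 2) {a b : ℝ} (hab : a * b ≠ 0) :
    0 < (p - 2) * (|a + b| ^ p + |a - b| ^ p - 2 * |a| ^ p - 2 * |b| ^ p) := by
  have h1 : ∀ t : ℝ, |t| ^ p = (t ^ 2) ^ (p / 2) := fun t => by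
    rw [← sq_abs, ← Real.rpow_natCast, ← Real.rpow_mul (abs_nonneg t)]
    congr 1
    push_cast
    ring
  have hA : 0 < a ^ 2 := by have := left_ne_zero_of_mul hab; positivity
  have hB : 0 < b ^ 2 := by have := right_ne_zero_of_mul hab; positivity
  have hs : 1 / 2 * (a + b) ^ 2 + 1 / 2 * (a - b) ^ 2 = a ^ 2 + b ^ 2 := by ring
  have h2 : ∀ x : ℝ, 0 < x → x ^ (p / 2) = x * x ^ (p / 2 - 1) := fun x hx => by
    rw [Real.rpow_sub_one hx.ne']
    field_simp
  have h3 := h2 _ hA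
  have h4 := h2 _ hB
  have h5 := h2 _ (add_pos hA hB)
  simp only [h1]
  rcases lt_or_gt_of_ne hp2 with h | h
  · have h6 := (Real.concaveOn_rpow (p := p / 2) (by linarith) (by linarith)).2
      (sq_nonneg (a + b)) (sq_nonneg (a - b)) one_half_pos.le one_half_pos.le (add_halves 1)
    simp only [smul_eq_mul, hs] at h6
    have h7 := Real.rpow_lt_rpow_of_neg hA (lt_add_of_pos_right _ hB) (z := p / 2 - 1) (by linarith)
    have h8 := Real.rpow_lt_rpow_of_neg hB (lt_add_of_pos_left _ hA) (z := p / 2 - 1) (by linarith)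
    refine mul_pos_of_neg_of_neg (by linarith) ?_
    nlinarith [mul_lt_mul_of_pos_left h7 hA, mul_lt_mul_of_pos_left h8 hB]
  · have h6 := (convexOn_rpow (p := p / 2) (by linarith)).2
      (sq_nonneg (a + b)) (sq_nonneg (a - b)) one_half_pos.le one_half_pos.le (add_halves 1)
    simp only [smul_eq_mul, hs] at h6
    have h7 := Real.rpow_lt_rpow hA.le (lt_add_of_pos_right _ hB) (z := p / 2 - 1) (by linarith)
    have h8 := Real.rpow_lt_rpow hB.le (lt_add_of_pos_left _ hA) (z := p / 2 - 1) (by linarith)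
    refine mul_pos (by linarith) ?_
    nlinarith [mul_lt_mul_of_pos_left h7 hA, mul_lt_mul_of_pos_left h8 hB]

theorem exact_lower_sum {p : ℝ} (hp : 1 < p) (hp2 : p ≠ 2) {K : Type*} [Fintype K]
    (a b : K → ℝ) : ∑ k, |a k + b k| ^ p + ∑ k, |a k - b k| ^ p - 2 * ∑ k, |a k| ^ p -
      2 * ∑ k, |b k| ^ p = 0 ↔ ∀ k, a k * b k = 0 := by
  have hp0 : p ≠ 0 := by linarith
  have h0 : ∀ x y : ℝ, x * y = 0 → |x + y| ^ p + |x - y| ^ p - 2 * |x| ^ p - 2 * |y| ^ p = 0 :=
    fun x y h => by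
      rcases mul_eq_zero.1 h with rfl | rfl
      · rw [zero_add, zero_sub, abs_neg, abs_zero, Real.zero_rpow hp0]; ring
      · rw [add_zero, sub_zero, abs_zero, Real.zero_rpow hp0]; ring
  simp only [mul_sum, ← sum_add_distrib, ← sum_sub_distrib]
  refine ⟨fun h k => ?_, fun h => sum_eq_zero fun k _ => h0 _ _ (h k)⟩
  have h1 := congrArg (fun t => (p - 2) * t) h
  simp only [mul_sum, mul_zero] at h1
  by_contra h2
  refine (exact_lower_psi hp hp2 h2).ne' ((sum_eq_zero_iff_of_nonneg fun j _ => ?_).1 h1 k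
    (mem_univ k))
  by_cases h3 : a j * b j = 0
  · rw [h0 _ _ h3, mul_zero]
  · exact (exact_lower_psi hp hp2 h3).le

theorem exact_lower_core {p : ℝ} (hp : 1 < p) (hp2 : p ≠ 2) {Ω K : Type*} [Fintype Ω] [Fintype K]
    {Y : Set (Ω → ℝ)} (h0 : 0 ∈ Y) (hneg : ∀ v ∈ Y, -v ∈ Y) (G : (Ω → ℝ) → K → ℝ) {c : ℝ}
    (hc : 0 < c) (hG : ∀ v ∈ Y, ∀ w ∈ Y, ∑ k, |G v k - G w k| ^ p = c * ∑ ω, |v ω - w ω| ^ p)
    {v w : Ω → ℝ} (hv : v ∈ Y) (hw : w ∈ Y) :
    (∀ k, (G v k - G 0 k) * (G w k - G 0 k) = 0) ↔ ∀ ω, v ω * w ω = 0 := by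
  have h1 : ∀ v ∈ Y, ∑ k, |G v k - G 0 k| ^ p = c * ∑ ω, |v ω| ^ p := fun v hv => by
    simpa using hG v hv 0 h0
  have h2 : ∀ k, G (-w) k - G 0 k = -(G w k - G 0 k) := fun k => by
    have a1 := h1 w hw
    have a2 := h1 _ (hneg w hw)
    have a3 := hG w hw _ (hneg w hw)
    simp only [Pi.neg_apply, abs_neg, sub_neg_eq_add, ← two_mul, abs_mul, abs_two,
      Real.mul_rpow zero_le_two (abs_nonneg _), ← mul_sum] at a2 a3
    have a4 : ∑ k, (2 ^ p * (|G w k - G 0 k| ^ p + |G (-w) k - G 0 k| ^ p) / 2 -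
        |G w k - G 0 k - (G (-w) k - G 0 k)| ^ p) = 0 := by
      simp only [sub_sub_sub_cancel_right]
      rw [sum_sub_distrib, ← sum_div, ← mul_sum, sum_add_distrib, a1, a2, a3]
      ring
    have a5 := (sum_eq_zero_iff_of_nonneg fun j _ => by
      rcases exact_lower_half hp (G w j - G 0 j) (G (-w) j - G 0 j) with h | h
      · exact sub_nonneg.2 h.2.le
      · exact sub_nonneg.2 h.le).1 a4 k (mem_univ k)
    exact ((exact_lower_half hp _ _).resolve_right fun h => (sub_pos.2 h).ne' a5).1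
  have h3 := hG v hv _ (hneg w hw)
  have h4 : ∀ k, G v k - G (-w) k = G v k - G 0 k + (G w k - G 0 k) := fun k => by
    linarith [h2 k]
  simp only [h4, Pi.neg_apply, sub_neg_eq_add] at h3
  rw [← exact_lower_sum hp hp2, ← exact_lower_sum hp hp2]
  simp only [sub_sub_sub_cancel_right]
  rw [h3, hG v hv w hw, h1 v hv, h1 w hw, mul_left_comm, mul_left_comm 2 c, ← mul_add, ← mul_sub,
    ← mul_sub, mul_eq_zero, or_iff_right hc.ne']

open MeasureTheory in
theorem exact_lower_emb {p : ℝ} (hp : 1 < p) (Ω : Type u) [Fintype Ω] :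
    ∃ J : (Ω → ℝ) → Lp ℝ (ENNReal.ofReal p) (@Measure.count Ω ⊤),
      ∀ v w, ‖J v - J w‖ ^ p = ∑ ω, |v ω - w ω| ^ p := by
  let _ : MeasurableSpace Ω := ⊤
  have hp0 : 0 < p := by linarith
  have hne0 : ENNReal.ofReal p ≠ 0 := by simpa using hp0
  refine ⟨fun v => MemLp.toLp v MemLp.of_discrete, fun v w => ?_⟩
  have h0 : 0 ≤ ∑ ω, |v ω - w ω| ^ p := sum_nonneg fun ω _ => by positivity
  rw [← MemLp.toLp_sub, Lp.norm_toLp, (MemLp.of_discrete (f := v - w)).eLpNorm_eq_integral_rpow_norm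
    hne0 ENNReal.ofReal_ne_top, ENNReal.toReal_ofReal hp0.le, integral_count]
  simp only [Pi.sub_apply, Real.norm_eq_abs]
  rw [ENNReal.toReal_ofReal (Real.rpow_nonneg h0 _), Real.rpow_inv_rpow h0 hp0.ne']

open MeasureTheory in
theorem exact_lower (p : ℝ) (hp : 1 < p) (hp2 : p ≠ 2) (m n : ℕ) (hn : 4 * m + 1 ≤ n) :
    ∃ (Ω : Type u) (_ : MeasurableSpace Ω) (μ : Measure Ω)
      (X : Finset (Lp ℝ (ENNReal.ofReal p) μ)), X.card = n ∧
      ∀ (d : ℕ) (f : Lp ℝ (ENNReal.ofReal p) μ → Fin d → ℝ) (s : ℝ), 0 < s →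
        (∀ x ∈ X, ∀ y ∈ X, (∑ k, |f x k - f y k| ^ p) ^ (1 / p) = s * ‖x - y‖) → m ^ 2 ≤ d := by
  classical
  have hp0 : 0 < p := by linarith
  obtain ⟨J, hJ⟩ := exact_lower_emb.{u} hp (ULift.{u} (Option (Fin m × Fin m)))
  have hinf := Infinite.of_injective (fun t : ℝ => J fun _ => t) fun a b hab => by
    have h1 := hJ (fun _ => a) (fun _ => b)
    rw [show J (fun _ => a) = J (fun _ => b) from hab, sub_self, Lp.norm_zero,
      Real.zero_rpow hp0.ne', sum_const, nsmul_eq_mul, eq_comm, mul_eq_zero] at h1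
    rcases h1 with h1 | h1
    · exact (Nat.cast_ne_zero.2 Fintype.card_ne_zero h1).elim
    · exact sub_eq_zero.1 (abs_eq_zero.1 ((Real.rpow_eq_zero (abs_nonneg _) hp0.ne').1 h1))
  let z : Fin m ⊕ Fin m → ULift.{u} (Option (Fin m × Fin m)) → ℝ := Sum.elim
    (fun i ω => if ω.down.map Prod.fst = some i then 1 else 0)
    (fun j ω => if ω.down.map Prod.snd = some j then 1 else 0)
  let pt : Option ((Fin m ⊕ Fin m) ⊕ (Fin m ⊕ Fin m)) → ULift.{u} (Option (Fin m × Fin m)) → ℝ :=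
    fun o => o.elim 0 (Sum.elim z (-z))
  obtain ⟨X, hX, hXn⟩ := Infinite.exists_superset_card_eq (univ.image fun o => J (pt o)) n
    (card_image_le.trans (by simp; omega))
  refine ⟨_, ⊤, @Measure.count _ ⊤, X, hXn, fun d f s hs h => ?_⟩
  have key : ∀ t t', (∀ k, (f (J (z t)) k - f (J 0) k) * (f (J (z t')) k - f (J 0) k) = 0) ↔
      ∀ ω, z t ω * z t' ω = 0 := fun t t' =>
    exact_lower_core hp hp2 (Y := Set.range pt) ⟨none, rfl⟩ (by
      rintro _ ⟨_ | t | t, rfl⟩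
      exacts [⟨none, neg_zero.symm⟩, ⟨some (.inr t), rfl⟩, ⟨some (.inl t), (neg_neg _).symm⟩])
      (fun v => f (J v)) (Real.rpow_pos_of_pos hs p) (by
        rintro _ ⟨a, rfl⟩ _ ⟨b, rfl⟩
        rw [← hJ, ← Real.mul_rpow hs.le (by rw [Lp.norm_def]; exact ENNReal.toReal_nonneg),
          ← h _ (hX (mem_image_of_mem _ (mem_univ a))) _ (hX (mem_image_of_mem _ (mem_univ b))),
          one_div, Real.rpow_inv_rpow (sum_nonneg fun k _ => by positivity) hp0.ne'])
      ⟨some (.inl t), rfl⟩ ⟨some (.inl t'), rfl⟩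
  have h1 : ∀ q : Fin m × Fin m, ∃ k, f (J (z (.inl q.1))) k - f (J 0) k ≠ 0 ∧
      f (J (z (.inr q.2))) k - f (J 0) k ≠ 0 := fun q => by
    by_contra h2
    have h3 := (key (.inl q.1) (.inr q.2)).1 (fun k => by
      by_contra h4
      exact h2 ⟨k, mul_ne_zero_iff.1 h4⟩) ⟨some q⟩
    simp only [z, Sum.elim_inl, Sum.elim_inr, Option.map_some, if_true, mul_one] at h3
    exact one_ne_zero h3
  choose κ hκ using h1
  have h2 : Function.Injective κ := fun q q' hq => by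
    refine Prod.ext ?_ ?_
    · by_contra h3
      refine mul_ne_zero (hκ q).1 (hq ▸ (hκ q').1) ((key _ _).2 (fun ω => ?_) _)
      simp only [z, Sum.elim_inl]
      split_ifs with h4 h5
      · exact (h3 (Option.some.inj (h4.symm.trans h5))).elim
      all_goals simp
    · by_contra h3
      refine mul_ne_zero (hκ q).2 (hq ▸ (hκ q').2) ((key _ _).2 (fun ω => ?_) _)
      simp only [z, Sum.elim_inr]
      split_ifs with h4 h5
      · exact (h3 (Option.some.inj (h4.symm.trans h5))).elim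
      all_goals simp
  simpa [sq] using Fintype.card_le_of_injective κ h2

end Vale.Agent.P249
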