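import Vale.Agent.P249.SDefs
import Vale.Agent.P249.Hajlasz

/-! The exponential kernel. -/

namespace Vale.Agent.P249

open Finset

/-- Partition function. -/
noncomputable def kernZ {α : Type} [MetricSpace α] [Fintype α] (β : ℝ) (x : α) : ℝ :=
  ∑ c, Real.exp (-(β * dist x c))

/-- Gibbs weights. -/
noncomputable def kernP {α : Type} [MetricSpace α] [Fintype α] (β : ℝ) (x c : α) : ℝ :=
  Real.exp (-(β * dist x c)) / kernZ β x

variable {α : Type} [MetricSpace α] [Fintype α]

theorem kern_one_le (β : ℝ) (x : α) : 1 ≤ kernZ β x := by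
  refine le_trans ?_ (single_le_sum (f := fun c => Real.exp (-(β * dist x c)))
    (fun _ _ => (Real.exp_pos _).le) (mem_univ x))
  simp

theorem kern_pos (β : ℝ) (x : α) : 0 < kernZ β x := lt_of_lt_of_le one_pos (kern_one_le β x)

theorem kern_le_card {β : ℝ} (hβ : 0 ≤ β) (x : α) : kernZ β x ≤ Fintype.card α := by
  refine (sum_le_card_nsmul _ _ 1 fun c _ => ?_).trans (by simp)
  exact Real.exp_le_one_iff.2 (neg_nonpos.2 (by positivity))

theorem kern_nonneg (β : ℝ) (x c : α) : 0 ≤ kernP β x c :=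
  div_nonneg (Real.exp_pos _).le (kern_pos β x).le

theorem kern_sum (β : ℝ) (x : α) : ∑ c, kernP β x c = 1 := by
  simp only [kernP, ← sum_div]
  exact div_self (kern_pos β x).ne'

theorem kern_step (β : ℝ) (x : α) : ∑ c, kernP β x c * (β * dist x c) ≤
    2 * (Real.log (kernZ (β / 2) x) - Real.log (kernZ β x)) := by
  set m := ∑ c, kernP β x c * (β * dist x c) with hm
  have h0 := kern_pos β x
  have h1 : Real.exp (m / 2) * kernZ β x ≤ kernZ (β / 2) x := by
    have h2 : ∑ c, kernP β x c * (Real.exp (m / 2) * (β * dist x c / 2 - m / 2 + 1))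
        = Real.exp (m / 2) := by
      have e : ∀ c, kernP β x c * (Real.exp (m / 2) * (β * dist x c / 2 - m / 2 + 1))
          = Real.exp (m / 2) / 2 * (kernP β x c * (β * dist x c))
            + Real.exp (m / 2) * (1 - m / 2) * kernP β x c := fun c => by ring
      simp only [e, sum_add_distrib, ← mul_sum, kern_sum, ← hm]
      ring
    rw [← h2, sum_mul]
    refine sum_le_sum fun c _ => ?_
    have h3 := Real.add_one_le_exp (β * dist x c / 2 - m / 2)
    have h4 : Real.exp (-(β / 2 * dist x c)) =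
        Real.exp (-(β * dist x c)) * (Real.exp (m / 2) * Real.exp (β * dist x c / 2 - m / 2)) := by
      rw [← Real.exp_add, ← Real.exp_add]
      congr 1
      ring
    rw [h4, mul_right_comm, kernP, div_mul_cancel₀ _ h0.ne']
    gcongr
  have h5 := Real.log_le_log (by positivity) h1
  rw [Real.log_mul (Real.exp_ne_zero _) h0.ne', Real.log_exp] at h5
  linarith

omit [Fintype α] in
theorem kern_cmp {β : ℝ} (hβ : 0 ≤ β) {x y : α} (h : β * dist x y ≤ 1) (c : α) :
    Real.exp (-(β * dist y c)) ≤ Real.exp 1 * Real.exp (-(β * dist x c)) := by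
  rw [← Real.exp_add, Real.exp_le_exp]
  have := mul_le_mul_of_nonneg_left (dist_triangle x y c) hβ
  linarith

theorem kern_cmp' {β : ℝ} (hβ : 0 ≤ β) {x y : α} (h : β * dist x y ≤ 1) (c : α) :
    kernP β y c ≤ 8 * kernP β x c := by
  have h1 := kern_cmp hβ h c
  have h2 : kernZ β x ≤ Real.exp 1 * kernZ β y := by
    rw [kernZ, kernZ, mul_sum]
    exact sum_le_sum fun c _ => kern_cmp hβ (by rwa [dist_comm]) c
  have h3 := kern_pos β x
  have h4 := kern_pos β y
  have h5 : Real.exp 1 * Real.exp 1 ≤ 8 := by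
    have := Real.exp_one_lt_d9
    have := Real.exp_pos 1
    nlinarith
  rw [kernP, kernP, ← mul_div_assoc, div_le_div_iff₀ h4 h3]
  calc Real.exp (-(β * dist y c)) * kernZ β x
      ≤ Real.exp 1 * Real.exp (-(β * dist x c)) * (Real.exp 1 * kernZ β y) := by gcongr
    _ = Real.exp 1 * Real.exp 1 * (Real.exp (-(β * dist x c)) * kernZ β y) := by ring
    _ ≤ 8 * (Real.exp (-(β * dist x c)) * kernZ β y) := by gcongr
    _ = _ := by ring

omit [Fintype α] in
theorem kern_grad (V : α → ℝ) (x c : α) : |V x - V c| = dist x c * |grad V (x, c)| := by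
  by_cases h : x = c
  · simp [h]
  · rw [grad, abs_div, abs_dist, mul_div_cancel₀ _ (dist_ne_zero.2 h)]

theorem kern {α : Type} [MetricSpace α] [Fintype α] (Λ : ℝ) (hΛ : 1 ≤ Λ)
    (hcard : Real.log (Fintype.card α) ≤ Λ) :
    ∃ κ : α → α → ℝ, (∀ x c, 0 ≤ κ x c) ∧ (∀ x, ∑ c, κ x c ≤ 32 * Λ) ∧
      ∀ (V : α → ℝ) x y, |V x - V y| ≤
        (∑ c, κ x c * |grad V (x, c)| + ∑ c, κ y c * |grad V (y, c)|) * dist x y := by
  obtain ⟨r0, S, hr0, hS⟩ := exists_scales (α := α)
  set β : ℕ → ℝ := fun j => 1 / (r0 * 2 ^ j) with hβ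
  have β0 : ∀ j, 0 ≤ β j := fun j => by positivity
  have k0 : ∀ j (x c : α), 0 ≤ kernP (β j) x c * (β j * dist x c) := fun j x c =>
    mul_nonneg (kern_nonneg _ _ _) (mul_nonneg (β0 j) dist_nonneg)
  refine ⟨fun x c => 16 * ∑ j ∈ range S, kernP (β j) x c * (β j * dist x c),
    fun x c => mul_nonneg (by norm_num) (sum_nonneg fun j _ => k0 j x c), fun x => ?_,
    fun V x y => ?_⟩
  · rw [← mul_sum, sum_comm]
    have h1 : ∑ j ∈ range S, ∑ c, kernP (β j) x c * (β j * dist x c) ≤ ∑ j ∈ range S,
        2 * (Real.log (kernZ (β (j + 1)) x) - Real.log (kernZ (β j) x)) := by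
      refine sum_le_sum fun j _ => ?_
      rw [show β (j + 1) = β j / 2 by simp only [hβ]; field_simp; ring]
      exact kern_step _ x
    rw [← mul_sum, sum_range_sub fun j => Real.log (kernZ (β j) x)] at h1
    have h2 := Real.log_nonneg (kern_one_le (β 0) x)
    have h3 := Real.log_le_log (kern_pos (β S) x) (kern_le_card (β0 S) x)
    linarith
  · by_cases hxy : x = y
    · simp [hxy]
    obtain ⟨j, hj, h1, h2⟩ := hS x y (dist_pos.2 hxy)
    have p0 : 0 < r0 * 2 ^ j := by positivity
    have b1 : β j * dist x y ≤ 1 := by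
      rw [hβ, one_div_mul_eq_div, div_le_one p0]
      exact h2
    have b2 : 1 ≤ 2 * (β j * dist x y) := by
      rw [hβ, one_div_mul_eq_div, ← mul_div_assoc, le_div_iff₀ p0]
      linarith
    have key : ∀ (z c : α) (q : ℝ), q ≤ 8 * kernP (β j) z c → q * |V z - V c| ≤
        (16 * ∑ j ∈ range S, kernP (β j) z c * (β j * dist z c)) * |grad V (z, c)| * dist x y := by
      intro z c q hq
      have h3 := single_le_sum (f := fun j => kernP (β j) z c * (β j * dist z c))
        (fun j _ => k0 j z c) (mem_range.2 hj)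
      have h4 := kern_nonneg (β j) z c
      calc q * |V z - V c| ≤ 8 * kernP (β j) z c * |V z - V c| * 1 := by
            rw [mul_one]
            gcongr
        _ ≤ 8 * kernP (β j) z c * |V z - V c| * (2 * (β j * dist x y)) := by gcongr
        _ = 16 * (kernP (β j) z c * (β j * dist z c)) * |grad V (z, c)| * dist x y := by
            rw [kern_grad]
            ring
        _ ≤ _ := by gcongr
    rw [← one_mul |V x - V y|, ← kern_sum (β j) y, sum_mul, ← sum_add_distrib, sum_mul]
    refine sum_le_sum fun c _ => ?_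
    have h4 := kern_nonneg (β j) y c
    have h5 := key x c _ (kern_cmp' (β0 j) b1 c)
    have h6 := key y c (kernP (β j) y c) (by linarith)
    have h7 : |V x - V y| ≤ |V x - V c| + |V y - V c| := by
      rw [abs_sub_comm (V y)]
      exact abs_sub_le _ _ _
    have h8 := mul_le_mul_of_nonneg_left h7 h4
    linarith

end Vale.Agent.P249
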