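import Vale.Agent.P249.SDefs

/-! Mixing configurations by a minimax argument. -/

namespace Vale.Agent.P249

open Finset

theorem mix_abs {E : Type} [Fintype E] [Nonempty E] {S : Set (E → ℝ)} (hS : Convex ℝ S)
    (h0 : ∀ z ∈ S, ∀ e, 0 ≤ z e)
    (h : ∀ ν : E → ℝ, (∀ e, 0 < ν e) → ∑ e, ν e = 1 → ∃ z ∈ S, ∑ e, ν e * z e ≤ 1) :
    ∃ z ∈ S, ∀ e, z e ≤ 2 := by
  classical
  by_contra hcon
  have hU : IsOpen {v : E → ℝ | ∀ e, v e < 2} := by
    simp only [Set.ofPred_forall]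
    exact isOpen_iInter_of_finite fun e => isOpen_lt (continuous_apply e) continuous_const
  have hU' : Convex ℝ {v : E → ℝ | ∀ e, v e < 2} := by
    simp only [Set.ofPred_forall]
    exact convex_iInter fun e => convex_halfSpace_lt (LinearMap.proj e : (E → ℝ) →ₗ[ℝ] ℝ).isLinear 2
  obtain ⟨f, u, h1, h2⟩ := geometric_hahn_banach_open hU' hU hS
    (Set.disjoint_left.2 fun z hz hz' => hcon ⟨z, hz', fun e => (hz e).le⟩)
  have hf : ∀ v : E → ℝ, f v = ∑ e, f (Pi.single e 1) * v e := fun v => by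
    conv_lhs => rw [← univ_sum_single v]
    rw [map_sum]
    refine sum_congr rfl fun e _ => ?_
    rw [mul_comm, ← smul_eq_mul, ← map_smul, ← Pi.single_smul, smul_eq_mul, mul_one]
  have hu : 0 < u := by simpa using h1 0 fun e => by simp
  have ha : ∀ e, 0 ≤ f (Pi.single e 1) := fun e => by
    by_contra hneg
    push Not at hneg
    have h3 := h1 ((u / f (Pi.single e 1)) • Pi.single e 1) fun e' => by
      have : u / f (Pi.single e 1) ≤ 0 := div_nonpos_of_nonneg_of_nonpos hu.le hneg.le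
      by_cases h4 : e' = e
      · subst h4; simp; linarith
      · simp [h4]
    rw [map_smul, smul_eq_mul, div_mul_cancel₀ _ hneg.ne] at h3
    exact lt_irrefl _ h3
  have hT : ∑ e, f (Pi.single e 1) < u := by
    have h3 := h1 1 fun e => by simp
    rw [hf] at h3
    simpa using h3
  have hT0 : 0 ≤ ∑ e, f (Pi.single e 1) := sum_nonneg fun e _ => ha e
  have hm : (0 : ℝ) < Fintype.card E := Nat.cast_pos.2 Fintype.card_pos
  set T := ∑ e, f (Pi.single e 1) with hTd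
  have hη : 0 < (u - T) / (2 * Fintype.card E) := div_pos (by linarith) (by positivity)
  have hD : 0 < (T + u) / 2 := by linarith
  obtain ⟨z, hz, h3⟩ := h
    (fun e => (f (Pi.single e 1) + (u - T) / (2 * Fintype.card E)) / ((T + u) / 2))
    (fun e => div_pos (by linarith [ha e]) hD) (by
      rw [← sum_div, sum_add_distrib, sum_const, card_univ, nsmul_eq_mul, ← hTd,
        div_eq_one_iff_eq hD.ne']
      field_simp
      ring)
  have h4 := h2 z hz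
  rw [hf] at h4
  have h5 : ∑ e, f (Pi.single e 1) * z e / ((T + u) / 2) ≤ 1 := by
    refine le_trans (sum_le_sum fun e _ => ?_) h3
    rw [div_mul_eq_mul_div]
    have := h0 z hz e
    gcongr
    linarith
  rw [← sum_div, div_le_one hD] at h5
  linarith

theorem mix_grad {α : Type} [MetricSpace α] (t : ℝ) (V : α → ℝ) (e : α × α) :
    grad (fun x => t * V x) e = t * grad V e := by
  unfold grad
  ring

theorem mix_pow {p t : ℝ} (ht : 0 < t) (x : ℝ) : |t * x| ^ p = t ^ p * |x| ^ p := by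
  rw [abs_mul, abs_of_pos ht, Real.mul_rpow ht.le (abs_nonneg _)]

theorem mix_scale (p Γ : ℝ) (hp : 1 ≤ p) {α : Type} [MetricSpace α] (c : Cfg α)
    (hc : ∀ s, 0 < c.lam s) {a : ℝ} (ha : 0 < a) : ∃ k : Cfg α, (∀ s, 0 < k.lam s) ∧ ∀ e,
      ∑ s, |k.sig s e| ^ p = a * ∑ s, |c.sig s e| ^ p ∧ k.e1 p e = a * c.e1 p e ∧
      k.e2 p e = a * c.e2 p e ∧ k.e3 p Γ e = a * c.e3 p Γ e := by
  have hp0 : 0 < p := by linarith
  obtain ⟨t, ht, rfl⟩ : ∃ t : ℝ, 0 < t ∧ a = t ^ p :=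
    ⟨a ^ p⁻¹, Real.rpow_pos_of_pos ha _, (Real.rpow_inv_rpow ha.le hp0.ne').symm⟩
  refine ⟨⟨c.σ, c.fin, fun s x => t * c.V s x, fun s e => t * c.sig s e, fun s => t * c.lam s⟩,
    fun s => mul_pos ht (hc s), fun e => ⟨?_, ?_, ?_, ?_⟩⟩
  · rw [mul_sum]
    exact sum_congr rfl fun s _ => mix_pow ht _
  · rw [Cfg.e1, Cfg.e1, mul_sum]
    refine sum_congr rfl fun s _ => ?_
    simp only [mix_grad]
    rw [← mul_sub, mix_pow ht]
  · rw [Cfg.e2, Cfg.e2, mul_sum]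
    refine sum_congr rfl fun s _ => ?_
    simp only [mix_grad]
    rw [Real.mul_rpow ht.le (hc s).le, abs_mul, abs_of_pos ht, Real.rpow_sub_one ht.ne']
    field_simp
  · rw [Cfg.e3, Cfg.e3, mul_sum]
    refine sum_congr rfl fun s _ => ?_
    simp only [mix_grad, high]
    rw [mix_pow ht, abs_mul, abs_of_pos ht, mul_left_comm]
    simp only [mul_lt_mul_iff_right₀ ht, mul_ite, mul_zero]

theorem mix_add (p Γ : ℝ) {α : Type} [MetricSpace α] (c d : Cfg α)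
    (hc : ∀ s, 0 < c.lam s) (hd : ∀ s, 0 < d.lam s) : ∃ k : Cfg α, (∀ s, 0 < k.lam s) ∧ ∀ e,
      ∑ s, |k.sig s e| ^ p = ∑ s, |c.sig s e| ^ p + ∑ s, |d.sig s e| ^ p ∧
      k.e1 p e = c.e1 p e + d.e1 p e ∧
      k.e2 p e = c.e2 p e + d.e2 p e ∧ k.e3 p Γ e = c.e3 p Γ e + d.e3 p Γ e := by
  refine ⟨⟨c.σ ⊕ d.σ, inferInstance, Sum.elim c.V d.V, Sum.elim c.sig d.sig, Sum.elim c.lam d.lam⟩,
    fun s => ?_, fun e => ⟨?_, ?_, ?_, ?_⟩⟩
  · rcases s with s | s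
    exacts [hc s, hd s]
  all_goals exact Fintype.sum_sum_type _

theorem mix (p : ℝ) (hp : 1 ≤ p) {α : Type} [MetricSpace α] [Fintype α] [Nonempty α]
    (A Γ X1 X2 X3 : ℝ) (h1 : 0 < X1) (h2 : 0 < X2) (h3 : 0 < X3)
    (h : ∀ ν : α × α → ℝ, (∀ e, 0 < ν e) → ∑ e, ν e = 1 → ∃ c : Cfg α, c.Ok p A ∧
      ∑ e, ν e * c.e1 p e ≤ X1 ∧ ∑ e, ν e * c.e2 p e ≤ X2 ∧ ∑ e, ν e * c.e3 p Γ e ≤ X3) :
    ∃ c : Cfg α, c.Ok p A ∧
      ∀ e, c.e1 p e ≤ 6 * X1 ∧ c.e2 p e ≤ 6 * X2 ∧ c.e3 p Γ e ≤ 6 * X3 := by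
  have hn : ∀ c : Cfg α, c.Ok p A → ∀ e,
      0 ≤ c.e1 p e / X1 ∧ 0 ≤ c.e2 p e / X2 ∧ 0 ≤ c.e3 p Γ e / X3 := fun c hc e =>
    ⟨div_nonneg (sum_nonneg fun s _ => by positivity) h1.le,
      div_nonneg (sum_nonneg fun s _ => by have := hc.1 s; positivity) h2.le,
      div_nonneg (sum_nonneg fun s _ => by unfold high; split_ifs <;> positivity) h3.le⟩
  obtain ⟨z, ⟨c, hc, hz⟩, hz'⟩ := mix_abs (S := {z : α × α → ℝ | ∃ c : Cfg α, c.Ok p A ∧
      ∀ e, z e = (c.e1 p e / X1 + c.e2 p e / X2 + c.e3 p Γ e / X3) / 3})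
    (convex_iff_forall_pos.2 (by
      rintro y ⟨c, hc, hy⟩ z ⟨d, hd, hz⟩ a b ha hb hab
      obtain ⟨c', hc1, hc2⟩ := mix_scale p Γ hp c hc.1 ha
      obtain ⟨d', hd1, hd2⟩ := mix_scale p Γ hp d hd.1 hb
      obtain ⟨k, hk1, hk2⟩ := mix_add p Γ c' d' hc1 hd1
      refine ⟨k, ⟨hk1, fun e he => ?_⟩, fun e => ?_⟩
      · rw [(hk2 e).1, (hc2 e).1, (hd2 e).1, hc.2 e he, hd.2 e he, ← add_mul, hab, one_mul]
      · obtain ⟨-, a1, a2, a3⟩ := hk2 e
        obtain ⟨-, b1, b2, b3⟩ := hc2 e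
        obtain ⟨-, c1, c2, c3⟩ := hd2 e
        rw [Pi.add_apply, Pi.smul_apply, Pi.smul_apply, hy, hz, a1, a2, a3, b1, b2, b3, c1, c2, c3,
          smul_eq_mul, smul_eq_mul]
        ring))
    (by
      rintro z ⟨c, hc, hz⟩ e
      obtain ⟨a1, a2, a3⟩ := hn c hc e
      rw [hz]
      positivity)
    (fun ν hν hν1 => by
      obtain ⟨c, hc, a1, a2, a3⟩ := h ν hν hν1
      refine ⟨_, ⟨c, hc, fun e => rfl⟩, ?_⟩
      have b1 := (div_le_one h1).2 a1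
      have b2 := (div_le_one h2).2 a2
      have b3 := (div_le_one h3).2 a3
      have b4 : ∑ e, ν e * ((c.e1 p e / X1 + c.e2 p e / X2 + c.e3 p Γ e / X3) / 3) =
          ((∑ e, ν e * c.e1 p e) / X1 + (∑ e, ν e * c.e2 p e) / X2 +
            (∑ e, ν e * c.e3 p Γ e) / X3) / 3 := by
        simp only [sum_div, ← sum_add_distrib]
        exact sum_congr rfl fun e _ => by ring
      linarith)
  refine ⟨c, hc, fun e => ?_⟩
  obtain ⟨a1, a2, a3⟩ := hn c hc e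
  have a4 := hz' e
  rw [hz] at a4
  exact ⟨(div_le_iff₀ h1).1 (by linarith), (div_le_iff₀ h2).1 (by linarith),
    (div_le_iff₀ h3).1 (by linarith)⟩

end Vale.Agent.P249
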