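import Vale.Agent.P249.SDefs

/-! Two Lipschitz cuts turn a configuration into a weighted family of Lipschitz functions. -/

namespace Vale.Agent.P249

open Finset

theorem stageB_top (p : ℝ) (hp : 1 ≤ p) (L a b Ha Hb t : ℝ) (hHa : 0 ≤ Ha)
    (hHb : 0 ≤ Hb) (ha : a ≤ L / 2 + Ha) (hb : b ≤ L / 2 + Hb) (h0 : a ≤ L → b ≤ L → t = 0)
    (h1 : |t| ≤ 2 * L + a + b) : |t| ^ p ≤ 16 ^ p * (Ha ^ p + Hb ^ p) := by
  have a0 := Real.rpow_nonneg hHa p
  have b0 := Real.rpow_nonneg hHb p
  by_cases h : a ≤ L ∧ b ≤ L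
  · rw [h0 h.1 h.2, abs_zero, Real.zero_rpow (by linarith)]; positivity
  · have hM : |t| ≤ 16 * max Ha Hb := by
      have m1 := le_max_left Ha Hb
      have m2 := le_max_right Ha Hb
      rcases not_and_or.1 h with h | h <;> have := not_le.1 h <;> linarith
    refine (Real.rpow_le_rpow (abs_nonneg _) hM (by linarith)).trans ?_
    rw [Real.mul_rpow (by norm_num) (le_max_of_le_left hHa)]
    refine mul_le_mul_of_nonneg_left ?_ (by positivity)
    rcases le_total Ha Hb with h2 | h2
    · rw [max_eq_right h2]; linarith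
    · rw [max_eq_left h2]; linarith

theorem stageB_bot (p : ℝ) (hp : 1 ≤ p) (B r t : ℝ) (h1 : |t| ≤ B) (h2 : |t| ≤ r) :
    |t| ^ p ≤ B ^ (p - 1) * r := by
  have e : |t| ^ p = |t| ^ (p - 1) * |t| := by
    rw [← Real.rpow_add_one' (abs_nonneg _) (by linarith)]; norm_num
  rw [e]
  exact mul_le_mul (Real.rpow_le_rpow (abs_nonneg _) h1 (by linarith)) h2 (abs_nonneg _)
    (Real.rpow_nonneg ((abs_nonneg _).trans h1) _)

theorem stageB_avg {α : Type} [Fintype α] (κ f : α → ℝ) (k0 Y : ℝ) (hκ0 : ∀ z, 0 ≤ κ z)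
    (hκ1 : ∑ z, κ z ≤ k0) (hY : 0 ≤ Y) (hf : ∀ z, f z ≤ Y) : ∑ z, κ z * f z ≤ k0 * Y := by
  refine le_trans ?_ (mul_le_mul_of_nonneg_right hκ1 hY)
  rw [sum_mul]
  exact sum_le_sum fun z _ => mul_le_mul_of_nonneg_left (hf z) (hκ0 z)

open Classical in
theorem stageB (p : ℝ) (hp : 1 ≤ p) {α : Type} [MetricSpace α] [Fintype α] (c : Cfg α) (A : ℝ)
    (hA : 0 < A) (hc : c.Ok p A) (Γ Γb k0 Y1 Y2 Y3 : ℝ) (hΓ : 1 ≤ Γ) (hΓb : 1 ≤ Γb)
    (hk0 : 1 ≤ k0) (κ : α → α → ℝ) (hκ0 : ∀ x z, 0 ≤ κ x z) (hκ1 : ∀ x, ∑ z, κ x z ≤ k0)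
    (hκ2 : ∀ (V : α → ℝ) x y, |V x - V y| ≤
      (∑ z, κ x z * |grad V (x, z)| + ∑ z, κ y z * |grad V (y, z)|) * dist x y)
    (h1 : ∀ e, c.e1 p e ≤ Y1) (h2 : ∀ e, c.e2 p e ≤ Y2) (h3 : ∀ e, c.e3 p Γ e ≤ Y3) :
    ∃ (τ : Type) (_ : Fintype τ) (w : τ → ℝ) (g : τ → α → ℝ), (∀ k, 0 ≤ w k) ∧
      (∀ k x y, |g k x - g k y| ≤ dist x y) ∧
      (∀ x, ∑ k, (if g k x ≠ 0 then w k else 0) ≤ (8 * k0 * Γ * Γb) ^ p * k0 * Y2 / A) ∧
      ∀ x y, |(∑ k, w k * |g k x - g k y| ^ p) ^ (1 / p) - dist x y| ≤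
        ((Y1 / A) ^ (1 / p) + (2 * (16 * k0) ^ p * Y3 / A) ^ (1 / p) +
          (4 * (2 / Γb) ^ (p - 1) * k0 * Y2 / A) ^ (1 / p)) * dist x y := by
  have hp0 : (0 : ℝ) < p := by linarith
  have hlam := hc.1
  have hΓ0 : 0 < Γ := by linarith
  have hΓb0 : 0 < Γb := by linarith
  have hk00 : 0 < k0 := by linarith
  set l : c.σ → α → ℝ := fun s x => ∑ z, κ x z * |grad (c.V s) (x, z)| with hl
  have hl0 : ∀ s x, 0 ≤ l s x := fun s x =>
    sum_nonneg fun z _ => mul_nonneg (hκ0 x z) (abs_nonneg _)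
  have hlV : ∀ s x y, |c.V s x - c.V s y| ≤ (l s x + l s y) * dist x y := fun s x y => hκ2 _ x y
  set b : c.σ → ℝ := fun s => c.lam s / Γb with hb
  set L : c.σ → ℝ := fun s => 2 * k0 * Γ * c.lam s with hL
  have hb0 : ∀ s, 0 < b s := fun s => div_pos (hlam s) hΓb0
  have hL0 : ∀ s, 0 < L s := fun s => by have := hlam s; simp only [hL]; positivity
  have hbl : ∀ s, b s ≤ c.lam s := fun s => div_le_self (hlam s).le hΓb
  have hbL : ∀ s, b s ≤ L s := fun s => (hbl s).trans (le_mul_of_one_le_left (hlam s).le (by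
    have : 1 ≤ k0 * Γ := one_le_mul_of_one_le_of_one_le hk0 hΓ
    linarith))
  have hT : ∀ s (t : ℝ), 0 < t → ∃ T : α → ℝ, (∀ x y, |T x - T y| ≤ 2 * t * dist x y) ∧
      ∀ x, l s x ≤ t → T x = c.V s x := by
    intro s t ht
    refine mcshane (c.V s) {x | l s x ≤ t} _ (by positivity) fun x hx y hy => ?_
    refine (hlV s x y).trans (mul_le_mul_of_nonneg_right ?_ dist_nonneg)
    simp only [Set.mem_ofPred_eq] at hx hy
    linarith
  choose TL hTL1 hTL2 using fun s => hT s (L s) (hL0 s)
  choose Tb hTb1 hTb2 using fun s => hT s (b s) (hb0 s)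
  have hY2 : ∀ _ : α, 0 ≤ Y2 := fun x => le_trans (sum_nonneg fun s _ =>
    mul_nonneg (Real.rpow_nonneg (hlam s).le _) (abs_nonneg _)) (h2 (x, x))
  have hsum2 : ∀ x, ∑ s, c.lam s ^ (p - 1) * l s x ≤ k0 * Y2 := by
    intro x
    refine le_trans (le_of_eq ?_) (stageB_avg (κ x) (fun z => c.e2 p (x, z)) k0 Y2 (hκ0 x) (hκ1 x)
      (hY2 x) (fun z => h2 _))
    simp only [hl, Cfg.e2, mul_sum]
    rw [sum_comm]
    exact sum_congr rfl fun z _ => sum_congr rfl fun s _ => by ring
  refine ⟨c.σ, inferInstance, fun s => (4 * L s) ^ p / A,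
    fun s x => (TL s x - Tb s x) / (4 * L s), fun s => by have := hL0 s; positivity,
    fun s x y => ?_, fun x => ?_, fun x y => ?_⟩
  · have h0 := hL0 s
    simp only
    rw [← sub_div, abs_div, abs_of_pos (by positivity : 0 < 4 * L s), div_le_iff₀ (by positivity)]
    have a1 := hTL1 s x y
    have a2 := hTb1 s x y
    have a3 := abs_sub (TL s x - TL s y) (Tb s x - Tb s y)
    have a4 := mul_le_mul_of_nonneg_right (hbL s) (dist_nonneg (x := x) (y := y))
    rw [show TL s x - Tb s x - (TL s y - Tb s y) = TL s x - TL s y - (Tb s x - Tb s y) by ring]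
    linarith
  · have hK : 0 < (8 * k0 * Γ * Γb) ^ p := by positivity
    calc _ ≤ ∑ s, (8 * k0 * Γ * Γb) ^ p / A * (c.lam s ^ (p - 1) * l s x) := by
          refine sum_le_sum fun s _ => ?_
          have h0 := hlam s
          have h4 := hl0 s x
          beta_reduce
          split_ifs with hg
          · have h5 : b s ≤ l s x := by
              by_contra h6
              have h6 := (not_le.1 h6).le
              apply hg
              rw [hTL2 s x (h6.trans (hbL s)), hTb2 s x h6, sub_self, zero_div]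
            have e1 : 4 * L s = 8 * k0 * Γ * Γb * b s := by
              simp only [hL, hb]; field_simp; ring
            have e2 := stageB_bot p hp (c.lam s) (l s x) (b s)
              (by rw [abs_of_pos (hb0 s)]; exact hbl s) (by rw [abs_of_pos (hb0 s)]; exact h5)
            rw [abs_of_pos (hb0 s)] at e2
            rw [e1, Real.mul_rpow (by positivity) (hb0 s).le, mul_div_right_comm]
            exact mul_le_mul_of_nonneg_left e2 (by positivity)
          · positivity
      _ ≤ (8 * k0 * Γ * Γb) ^ p / A * (k0 * Y2) := by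
          rw [← mul_sum]
          exact mul_le_mul_of_nonneg_left (hsum2 x) (by positivity)
      _ = _ := by ring
  · by_cases hxy : x = y
    · subst hxy
      simp [Real.zero_rpow hp0.ne', hp0.ne']
    have hd : 0 < dist x y := dist_pos.2 hxy
    set d := dist x y with hdd
    set hi : c.σ → α × α → ℝ := fun s e =>
      if Γ * c.lam s < |grad (c.V s) e| then |grad (c.V s) e| else 0 with hhi
    have hhi0 : ∀ s e, 0 ≤ hi s e := fun s e => by
      simp only [hhi]; split_ifs <;> simp
    set H : c.σ → α → ℝ := fun s x => ∑ z, κ x z * hi s (x, z) with hH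
    have hH0 : ∀ s x, 0 ≤ H s x := fun s x =>
      sum_nonneg fun z _ => mul_nonneg (hκ0 x z) (hhi0 s _)
    have hlH : ∀ s x, l s x ≤ L s / 2 + H s x := by
      intro s x
      have h0 := hlam s
      have a1 := stageB_avg (κ x) (fun z => |grad (c.V s) (x, z)| - hi s (x, z)) k0 (Γ * c.lam s)
        (hκ0 x) (hκ1 x) (by positivity) (fun z => by
          simp only [hhi]
          split_ifs with h4
          · rw [sub_self]; positivity
          · rw [sub_zero]; exact not_lt.1 h4)
      simp only [mul_sub, sum_sub_distrib] at a1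
      simp only [hl, hL, hH]
      linarith
    have hY3 : 0 ≤ Y3 := le_trans (sum_nonneg fun s _ => by
      unfold high; split_ifs <;> positivity) (h3 (x, x))
    have hHs : ∀ x, ∑ s, H s x ^ p ≤ k0 ^ p * Y3 := by
      intro x
      have a1 : ∑ z, κ x z / k0 ≤ 1 := by
        rw [← sum_div, div_le_one hk00]; exact hκ1 x
      have a2 : ∀ z, 0 ≤ κ x z / k0 := fun z => div_nonneg (hκ0 x z) hk00.le
      have a3 := stageB_avg (fun z => κ x z / k0) (fun z => c.e3 p Γ (x, z)) 1 Y3 a2 a1 hY3
        (fun z => h3 _)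
      rw [one_mul] at a3
      refine le_trans ?_ (mul_le_mul_of_nonneg_left a3 (by positivity))
      simp only [Cfg.e3, mul_sum]
      rw [sum_comm]
      refine sum_le_sum fun s _ => ?_
      have a4 := subprob_jensen p hp (fun z => κ x z / k0) (fun z => hi s (x, z)) a2 a1
        (fun z => hhi0 s _)
      have e1 : H s x = k0 * ∑ z, κ x z / k0 * hi s (x, z) := by
        rw [mul_sum]
        exact sum_congr rfl fun z _ => by field_simp
      rw [e1, Real.mul_rpow hk00.le (sum_nonneg fun z _ => mul_nonneg (a2 z) (hhi0 s _)),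
        ← mul_sum]
      refine mul_le_mul_of_nonneg_left (a4.trans (le_of_eq (sum_congr rfl fun z _ => ?_)))
        (by positivity)
      simp only [hhi, high]
      split_ifs
      · rfl
      · rw [Real.zero_rpow hp0.ne']
    set u : c.σ → ℝ := fun s => (TL s x - TL s y - (Tb s x - Tb s y)) / d with hu
    set f1 : c.σ → ℝ := fun s => grad (c.V s) (x, y) - c.sig s (x, y) with hf1
    set f2 : c.σ → ℝ := fun s => (TL s x - TL s y - (c.V s x - c.V s y)) / d with hf2
    set f3 : c.σ → ℝ := fun s => -(Tb s x - Tb s y) / d with hf3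
    have b1 : ∑ s, |f1 s| ^ p ≤ Y1 := h1 (x, y)
    have b2 : ∑ s, |f2 s| ^ p ≤ 2 * (16 * k0) ^ p * Y3 := by
      calc _ ≤ ∑ s, 16 ^ p * (H s x ^ p + H s y ^ p) := by
            refine sum_le_sum fun s _ => stageB_top p hp (L s) (l s x) (l s y) _ _ _
              (hH0 s x) (hH0 s y) (hlH s x) (hlH s y) (fun a1 a2 => ?_) ?_
            · simp only [hf2]
              rw [hTL2 s x a1, hTL2 s y a2, sub_self, zero_div]
            · simp only [hf2]
              rw [abs_div, abs_of_pos hd, div_le_iff₀ hd]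
              have a1 := hTL1 s x y
              have a2 := hlV s x y
              have a3 := abs_sub (TL s x - TL s y) (c.V s x - c.V s y)
              rw [← hdd] at a1 a2
              linarith
        _ ≤ 16 ^ p * (k0 ^ p * Y3 + k0 ^ p * Y3) := by
            rw [← mul_sum, sum_add_distrib]
            exact mul_le_mul_of_nonneg_left (add_le_add (hHs x) (hHs y)) (by positivity)
        _ = _ := by rw [Real.mul_rpow (by norm_num) hk00.le]; ring
    have b3 : ∑ s, |f3 s| ^ p ≤ 4 * (2 / Γb) ^ (p - 1) * k0 * Y2 := by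
      calc _ ≤ ∑ s, 2 * (2 / Γb) ^ (p - 1) *
              (c.lam s ^ (p - 1) * l s x + c.lam s ^ (p - 1) * l s y) := by
            refine sum_le_sum fun s _ => ?_
            have a0 : |f3 s| = |Tb s x - Tb s y| / d := by
              simp only [hf3]; rw [abs_div, abs_neg, abs_of_pos hd]
            have a1 : |f3 s| ≤ 2 * b s := by
              rw [a0, div_le_iff₀ hd]; exact hTb1 s x y
            have a2 : |f3 s| ≤ 2 * (l s x + l s y) := by
              have a3 := hl0 s x
              have a4 := hl0 s y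
              by_cases h4 : l s x ≤ b s ∧ l s y ≤ b s
              · rw [a0, div_le_iff₀ hd, hTb2 s x h4.1, hTb2 s y h4.2]
                have a5 := hlV s x y
                rw [← hdd] at a5
                nlinarith
              · rcases not_and_or.1 h4 with h4 | h4 <;> have := not_le.1 h4 <;> linarith
            refine (stageB_bot p hp _ _ _ a1 a2).trans (le_of_eq ?_)
            have e1 : 2 * b s = 2 / Γb * c.lam s := by simp only [hb]; ring
            rw [e1, Real.mul_rpow (by positivity) (hlam s).le]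
            ring
        _ ≤ 2 * (2 / Γb) ^ (p - 1) * (k0 * Y2 + k0 * Y2) := by
            rw [← mul_sum, sum_add_distrib]
            exact mul_le_mul_of_nonneg_left (add_le_add (hsum2 x) (hsum2 y)) (by positivity)
        _ = _ := by ring
    have hq : 0 ≤ 1 / p := by positivity
    have hS : ∀ f : c.σ → ℝ, 0 ≤ ∑ s, |f s| ^ p := fun f =>
      sum_nonneg fun s _ => Real.rpow_nonneg (abs_nonneg _) _
    have m1 := abs_Lp_sub_le p hp u (fun s => c.sig s (x, y))
    have m2 : ∑ s, |u s - c.sig s (x, y)| ^ p = ∑ s, |f1 s + f2 s + f3 s| ^ p := by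
      refine sum_congr rfl fun s _ => ?_
      congr 2
      simp only [hu, hf1, hf2, hf3, grad, ← hdd]
      ring
    have m3 := Real.Lp_add_le univ (fun s => f1 s + f2 s) f3 hp
    have m4 := Real.Lp_add_le univ f1 f2 hp
    have n1 := Real.rpow_le_rpow (hS f1) b1 hq
    have n2 := Real.rpow_le_rpow (hS f2) b2 hq
    have n3 := Real.rpow_le_rpow (hS f3) b3 hq
    rw [m2, hc.2 (x, y) hxy] at m1
    have e1 : ∑ s, (4 * L s) ^ p / A *
        |(TL s x - Tb s x) / (4 * L s) - (TL s y - Tb s y) / (4 * L s)| ^ p =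
        d ^ p * (∑ s, |u s| ^ p) / A := by
      rw [mul_sum, sum_div]
      refine sum_congr rfl fun s _ => ?_
      have h0 : 0 < 4 * L s := by have := hL0 s; positivity
      simp only [hu]
      rw [← sub_div, abs_div, abs_div, abs_of_pos h0, abs_of_pos hd,
        Real.div_rpow (abs_nonneg _) h0.le, Real.div_rpow (abs_nonneg _) hd.le,
        show TL s x - Tb s x - (TL s y - Tb s y) = TL s x - TL s y - (Tb s x - Tb s y) by ring]
      have : 0 < (4 * L s) ^ p := by positivity
      have : 0 < d ^ p := by positivity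
      field_simp
    have ha : 0 < A ^ (1 / p) := by positivity
    have e2 : (d ^ p) ^ (1 / p) = d := by
      rw [← Real.rpow_mul hd.le, mul_one_div_cancel hp0.ne', Real.rpow_one]
    simp only
    rw [e1, Real.div_rpow (mul_nonneg (by positivity) (hS u)) hA.le,
      Real.mul_rpow (by positivity) (hS u), e2, Real.div_rpow ((hS f1).trans b1) hA.le,
      Real.div_rpow ((hS f2).trans b2) hA.le, Real.div_rpow ((hS f3).trans b3) hA.le,
      ← add_div, ← add_div]
    have e3 : d * (∑ s, |u s| ^ p) ^ (1 / p) / A ^ (1 / p) - d =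
        ((∑ s, |u s| ^ p) ^ (1 / p) - A ^ (1 / p)) / A ^ (1 / p) * d := by
      field_simp
    rw [e3, abs_mul, abs_div, abs_of_pos hd, abs_of_pos ha]
    refine mul_le_mul_of_nonneg_right (div_le_div_of_nonneg_right ?_ ha.le) hd.le
    linarith

end Vale.Agent.P249
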