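import Vale.Agent.P249.SStageA
import Vale.Agent.P249.SStageB
import Vale.Agent.P249.SMix
import Vale.Agent.P249.SKern
import Vale.Agent.P249.Main

/-! Choice of the parameters and the bound `exp (C (log n) ^ |1 - 2 / p|)`. -/

namespace Vale.Agent.P249

open Finset

/-- `f Λ` is at most `exp (c Λ ^ γ)` on `[1, ∞)`. -/
def Small (γ : ℝ) (f : ℝ → ℝ) : Prop :=
  ∃ c : ℝ, 0 < c ∧ ∀ Λ : ℝ, 1 ≤ Λ → 0 ≤ f Λ ∧ f Λ ≤ Real.exp (c * Λ ^ γ)

lemma Small.const {γ : ℝ} (hγ : 0 ≤ γ) {k : ℝ} (hk : 0 ≤ k) : Small γ fun _ => k :=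
  ⟨k + 1, by linarith, fun Λ hΛ => ⟨hk, by
    have := le_exp_mul (K := k + 1) (by linarith) (Real.one_le_rpow hΛ hγ)
    linarith⟩⟩

lemma Small.self {γ : ℝ} (hγ : 0 < γ) : Small γ fun Λ => Λ :=
  ⟨1 / γ, by positivity, fun Λ hΛ => ⟨by linarith, by
    have h := Real.log_le_rpow_div (by linarith : 0 ≤ Λ) hγ
    calc Λ = Real.exp (Real.log Λ) := (Real.exp_log (by linarith)).symm
      _ ≤ _ := Real.exp_le_exp.2 (h.trans (le_of_eq (by ring)))⟩⟩

lemma Small.mul {γ : ℝ} {f g : ℝ → ℝ} (hf : Small γ f) (hg : Small γ g) :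
    Small γ fun Λ => f Λ * g Λ := by
  obtain ⟨a, ha, hf⟩ := hf
  obtain ⟨b, hb, hg⟩ := hg
  refine ⟨a + b, by positivity, fun Λ hΛ => ⟨mul_nonneg (hf Λ hΛ).1 (hg Λ hΛ).1, ?_⟩⟩
  rw [add_mul, Real.exp_add]
  exact mul_le_mul (hf Λ hΛ).2 (hg Λ hΛ).2 (hg Λ hΛ).1 (by positivity)

lemma Small.add_one {γ : ℝ} (hγ : 0 ≤ γ) {f : ℝ → ℝ} (hf : Small γ f) :
    Small γ fun Λ => f Λ + 1 := by
  obtain ⟨a, ha, hf⟩ := hf
  refine ⟨a + 1, by positivity, fun Λ hΛ => ⟨by linarith [(hf Λ hΛ).1], ?_⟩⟩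
  have h1 := Real.one_le_rpow hΛ hγ
  have h2 := Real.add_one_le_exp (Λ ^ γ)
  have h3 : 1 ≤ Real.exp (a * Λ ^ γ) := Real.one_le_exp (by positivity)
  rw [add_mul, Real.exp_add, one_mul]
  nlinarith [(hf Λ hΛ).2]

lemma Small.rpow {γ : ℝ} {f : ℝ → ℝ} (hf : Small γ f) {q : ℝ} (hq : 0 < q) :
    Small γ fun Λ => f Λ ^ q := by
  obtain ⟨a, ha, hf⟩ := hf
  refine ⟨a * q, by positivity, fun Λ hΛ => ⟨Real.rpow_nonneg (hf Λ hΛ).1 _, ?_⟩⟩
  refine (Real.rpow_le_rpow (hf Λ hΛ).1 (hf Λ hΛ).2 hq.le).trans (le_of_eq ?_)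
  rw [← Real.exp_mul]
  congr 1
  ring

lemma Small.four {γ : ℝ} (hγ : 0 ≤ γ) {c : ℝ} (hc : 0 < c) :
    Small γ fun Λ => (4 : ℝ) ^ ⌈c * Λ ^ γ⌉₊ := by
  refine ⟨2 * (c + 1), by positivity, fun Λ hΛ => ⟨by positivity, ?_⟩⟩
  have h1 := Real.one_le_rpow hΛ hγ
  have h2 := Nat.ceil_lt_add_one (by positivity : 0 ≤ c * Λ ^ γ)
  have h4 : (4 : ℝ) ≤ Real.exp 2 := by
    have := Real.add_one_le_exp (1 : ℝ)
    have e : Real.exp 2 = Real.exp 1 * Real.exp 1 := by rw [← Real.exp_add]; norm_num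
    nlinarith
  calc (4 : ℝ) ^ ⌈c * Λ ^ γ⌉₊ ≤ Real.exp 2 ^ ⌈c * Λ ^ γ⌉₊ := pow_le_pow_left₀ (by norm_num) h4 _
    _ = Real.exp (⌈c * Λ ^ γ⌉₊ * 2) := (Real.exp_nat_mul 2 _).symm
    _ ≤ _ := Real.exp_le_exp.2 (by nlinarith)

lemma sharp_root {p x a : ℝ} (hp : 0 < p) (hx : 0 ≤ x) (ha : 0 ≤ a) (h : x ≤ a ^ p) :
    x ^ (1 / p) ≤ a := by
  have := Real.rpow_le_rpow hx h (by positivity : 0 ≤ 1 / p)
  rwa [← Real.rpow_mul ha, mul_one_div_cancel hp.ne', Real.rpow_one] at this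

lemma sharp_div {a η : ℝ} (ha : 0 ≤ a) (hη : 0 < η) : a / (a / η + 1) ≤ η := by
  rw [div_le_iff₀ (by positivity), mul_add, mul_div_cancel₀ _ hη.ne']
  linarith

open Classical in
theorem sharp_sparse (p ε : ℝ) (hp : 1 < p) (hp2 : p ≠ 2) (hε : 0 < ε) :
    ∃ Q : ℝ → ℝ, Small |1 - 2 / p| Q ∧ (∀ Λ, 1 ≤ Λ → 1 ≤ Q Λ) ∧
    ∀ {α ι : Type} [MetricSpace α] [Fintype α] [Nonempty α] [Fintype ι] (F : ι → α → ℝ),
      (∀ x y, ∑ i, |F i x - F i y| ^ p = dist x y ^ p) → ∀ Λ : ℝ, 1 ≤ Λ →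
      Real.log (Fintype.card α) ≤ Λ →
      ∃ (τ : Type) (_ : Fintype τ) (w : τ → ℝ) (g : τ → α → ℝ), (∀ k, 0 ≤ w k) ∧
        (∀ k x y, |g k x - g k y| ≤ dist x y) ∧
        (∀ x, ∑ k, (if g k x ≠ 0 then w k else 0) ≤ Q Λ) ∧
        ∀ x y, |(∑ k, w k * |g k x - g k y| ^ p) ^ (1 / p) - dist x y| ≤ ε * dist x y := by
  have hp0 : 0 < p := by linarith
  obtain ⟨C, hC, hA⟩ := stageA p hp hp2
  set γ := |1 - 2 / p| with hγdef
  have hγp : γ * p = |p - 2| := by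
    rw [hγdef, ← abs_of_pos hp0, ← abs_mul, abs_of_pos hp0]
    congr 1
    field_simp
  have hγ : 0 < γ := by
    have : 0 < |p - 2| := abs_pos.2 (sub_ne_zero.2 hp2)
    rw [← hγp] at this
    exact (mul_pos_iff_of_pos_right hp0).1 this
  set η := (ε / 3) ^ p with hη
  have hη0 : 0 < η := by positivity
  set c1 := 3 * C * 2 ^ p / η + 1 with hc1
  set c2 := 6 * C * 512 ^ p * 2 ^ p / η + 1 with hc2
  set c3 := 384 * C * 2 ^ p / η + 1 with hc3
  have hc11 : 1 ≤ c1 := le_add_of_nonneg_left (by positivity)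
  have hc21 : 1 ≤ c2 := le_add_of_nonneg_left (by positivity)
  have hc31 : 1 ≤ c3 := le_add_of_nonneg_left (by positivity)
  have hq : 0 < 1 / (p - 1) := by
    have : 0 < p - 1 := by linarith
    positivity
  have k : ∀ {a : ℝ}, 0 ≤ a → Small γ fun _ => a := fun ha => Small.const hγ.le ha
  have s := Small.self hγ
  refine ⟨fun Λ => (8 * (32 * Λ) * (c2 * Λ ^ (p + 1) * 4 ^ ⌈c1 * Λ ^ γ⌉₊) *
      (2 * (c3 * (Λ * Λ)) ^ (1 / (p - 1)))) ^ p * (32 * Λ) * (6 * (C * Λ)) * 2 ^ p + 1,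
    ?_, fun Λ hΛ => le_add_of_nonneg_left (by positivity), ?_⟩
  · refine Small.add_one hγ.le ?_
    refine (((Small.rpow ?_ hp0).mul ((k (by norm_num)).mul s)).mul
      ((k (by norm_num)).mul ((k hC.le).mul s))).mul (k (by positivity))
    refine (((k (by norm_num)).mul ((k (by norm_num)).mul s)).mul ?_).mul
      ((k (by norm_num)).mul (((k (by positivity)).mul (s.mul s)).rpow hq))
    exact ((k (by positivity)).mul (s.rpow (by linarith))).mul (Small.four hγ.le (by positivity))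
  intro α ι _ _ _ _ F hF Λ hΛ hcard
  have hΛ0 : 0 < Λ := by linarith
  have hΛγ := Real.one_le_rpow hΛ hγ.le
  set W := ⌈c1 * Λ ^ γ⌉₊ with hWdef
  have hW : 0 < W := Nat.ceil_pos.2 (by positivity)
  have hW' : (0 : ℝ) < W := Nat.cast_pos.2 hW
  have hW1 : (1 : ℝ) ≤ W := by exact_mod_cast hW
  have hWp : c1 * Λ ^ |p - 2| ≤ (W : ℝ) ^ p := by
    have h1 := Real.rpow_le_rpow (by positivity) (Nat.le_ceil (c1 * Λ ^ γ)) hp0.le
    rw [Real.mul_rpow (by positivity) (by positivity), ← Real.rpow_mul hΛ0.le, hγp] at h1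
    refine le_trans (mul_le_mul_of_nonneg_right ?_ (by positivity)) h1
    simpa using Real.rpow_le_rpow_of_exponent_le hc11 hp.le
  have hΛp : 0 < Λ ^ |p - 2| := by positivity
  set Γ := c2 * Λ ^ (p + 1) * 4 ^ W with hΓ
  set Γb := 2 * (c3 * (Λ * Λ)) ^ (1 / (p - 1)) with hΓb
  have hΛp1 : 1 ≤ Λ ^ p := Real.one_le_rpow hΛ hp0.le
  have hΓ1 : 1 ≤ Γ := one_le_mul_of_one_le_of_one_le
    (one_le_mul_of_one_le_of_one_le hc21 (Real.one_le_rpow hΛ (by linarith)))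
    (one_le_pow₀ (by norm_num))
  have hc3Λ : 1 ≤ c3 * (Λ * Λ) := one_le_mul_of_one_le_of_one_le hc31
    (one_le_mul_of_one_le_of_one_le hΛ hΛ)
  have hΓb1 : 1 ≤ Γb := by
    have := Real.one_le_rpow hc3Λ hq.le
    rw [hΓb]
    linarith
  obtain ⟨c, hc, hE⟩ := mix p hp.le (α := α) (tentA p W) Γ (C * W / c1) (C * Λ)
    (C * W / (c2 * Λ ^ p)) (by positivity) (by positivity) (by positivity) (by
      intro ν hν hν1
      obtain ⟨c, hc, h1, h2, h3⟩ := hA F hF Λ hΛ hcard W hW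
        (le_trans (le_mul_of_one_le_left hΛp.le hc11) hWp) Γ (by linarith) ν hν hν1
      refine ⟨c, hc, h1.trans ?_, h2, h3.trans ?_⟩
      · rw [div_le_div_iff₀ (by positivity) (by positivity)]
        have := mul_le_mul_of_nonneg_left hWp (by positivity : 0 ≤ C * W)
        linarith
      · have e : Λ * 4 ^ W / Γ = 1 / (c2 * Λ ^ p) := by
          rw [hΓ, Real.rpow_add_one hΛ0.ne']
          field_simp
        have h4 : 1 ≤ c2 * Λ ^ p := one_le_mul_of_one_le_of_one_le hc21 hΛp1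
        have h5 : 1 / (c2 * Λ ^ p) ≤ 1 := (div_le_one (by positivity)).2 h4
        rw [e, div_eq_mul_one_div (C * W)]
        refine mul_le_mul_of_nonneg_left ?_ (by positivity)
        rw [sq]
        exact mul_le_of_le_one_left (by positivity) h5)
  obtain ⟨κ, hκ0, hκ1, hκ2⟩ := kern (α := α) Λ hΛ hcard
  have hAge := tentA_ge p hp.le W hW
  have h2p : (0 : ℝ) < 2 ^ p := by positivity
  have hA0 : 0 < tentA p W := lt_of_lt_of_le (by positivity) hAge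
  have hdivA : ∀ x : ℝ, 0 ≤ x → x / tentA p W ≤ x * 2 ^ p / (2 * W) := by
    intro x hx
    refine (div_le_div_of_nonneg_left hx (by positivity) hAge).trans (le_of_eq ?_)
    field_simp
  obtain ⟨τ, hτ, w, g, hw, hg, hQ, hS⟩ := stageB p hp.le c (tentA p W) hA0 hc Γ Γb (32 * Λ)
    (6 * (C * W / c1)) (6 * (C * Λ)) (6 * (C * W / (c2 * Λ ^ p))) hΓ1 hΓb1 (by linarith) κ hκ0
    hκ1 hκ2 (fun e => (hE e).1) (fun e => (hE e).2.1) (fun e => (hE e).2.2)
  refine ⟨τ, hτ, w, g, hw, hg, fun x => (hQ x).trans ?_, fun x y => (hS x y).trans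
    (mul_le_mul_of_nonneg_right ?_ dist_nonneg)⟩
  · refine (hdivA _ (by positivity)).trans ?_
    refine (div_le_self (by positivity) (by linarith)).trans ?_
    simp only [hΓ, hΓb]
    linarith
  · have h1 : (6 * (C * W / c1) / tentA p W) ^ (1 / p) ≤ ε / 3 := by
      refine sharp_root hp0 (by positivity) (by positivity) ((hdivA _ (by positivity)).trans ?_)
      refine le_trans (le_of_eq ?_) (sharp_div (a := 3 * C * 2 ^ p) (by positivity) hη0)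
      rw [← hc1]
      field_simp
      ring
    have h2 : (2 * (16 * (32 * Λ)) ^ p * (6 * (C * W / (c2 * Λ ^ p))) / tentA p W) ^ (1 / p) ≤
        ε / 3 := by
      refine sharp_root hp0 (by positivity) (by positivity) ((hdivA _ (by positivity)).trans ?_)
      refine le_trans (le_of_eq ?_) (sharp_div (a := 6 * C * 512 ^ p * 2 ^ p) (by positivity) hη0)
      have e : (16 * (32 * Λ)) ^ p = 512 ^ p * Λ ^ p := by
        rw [← Real.mul_rpow (by norm_num) hΛ0.le]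
        congr 1
        ring
      rw [← hc2, e]
      field_simp
    have h3 : (4 * (2 / Γb) ^ (p - 1) * (32 * Λ) * (6 * (C * Λ)) / tentA p W) ^ (1 / p) ≤
        ε / 3 := by
      refine sharp_root hp0 (by positivity) (by positivity) ((hdivA _ (by positivity)).trans ?_)
      refine le_trans ?_ (sharp_div (a := 384 * C * 2 ^ p) (by positivity) hη0)
      have e : (2 / Γb) ^ (p - 1) = 1 / (c3 * (Λ * Λ)) := by
        have e1 : 2 / Γb = 1 / (c3 * (Λ * Λ)) ^ (1 / (p - 1)) := by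
          rw [hΓb]
          field_simp
        rw [e1, Real.div_rpow (by norm_num) (by positivity), Real.one_rpow,
          ← Real.rpow_mul (by positivity), one_div_mul_cancel (by linarith), Real.rpow_one]
      rw [← hc3, e]
      have e2 : 4 * (1 / (c3 * (Λ * Λ))) * (32 * Λ) * (6 * (C * Λ)) * 2 ^ p / (2 * W) =
          384 * C * 2 ^ p / c3 / W := by
        field_simp
        ring
      rw [e2]
      exact div_le_self (by positivity) hW1
    linarith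

/-- From sparse Lipschitz coordinates to an embedding in dimension `N`. -/
theorem sharp_embed {α κ : Type} [PseudoMetricSpace α] [Fintype α] [Fintype κ] (p : ℝ)
    (hp : 1 ≤ p) (w : κ → ℝ) (g : κ → α → ℝ) (hw : ∀ k, 0 ≤ w k)
    (hg : ∀ k x y, |g k x - g k y| ≤ dist x y) (Q : ℝ) (hQ1 : 1 ≤ Q)
    (hQ : ∀ x, ∑ k, (open Classical in if g k x ≠ 0 then w k else 0) ≤ Q)
    (ε : ℝ) (hε : 0 < ε) (hε1 : ε ≤ 1)
    (hS : ∀ x y, |(∑ k, w k * |g k x - g k y| ^ p) ^ (1 / p) - dist x y| ≤ ε * dist x y)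
    (N : ℕ) (hN0 : 0 < N)
    (hN : 4 * (2 ^ p * (2 ^ (p + 1) * Q / ε)) ^ 2 *
      Real.log (2 * (Fintype.card α : ℝ) ^ 2 + 2) / ε ^ 2 ≤ N) :
    ∃ φ : α → Fin N → ℝ, ∀ x y,
      ((1 - ε) * (1 - ε) ^ p - ε) * dist x y ^ p ≤ ∑ k, |φ x k - φ y k| ^ p ∧
      ∑ k, |φ x k - φ y k| ^ p ≤ ((1 + ε) * (1 + ε) ^ p + ε) * dist x y ^ p := by
  have hp0 : 0 < p := by linarith
  obtain ⟨φ, hφ⟩ := compress p hp w g hw hg Q hQ1 hQ ε hε hε1 N hN0 hN
  refine ⟨φ, fun x y => ?_⟩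
  obtain ⟨k1, k2⟩ := hφ x y
  have k3 := hS x y
  set S := ∑ k, w k * |g k x - g k y| ^ p with hSdef
  have hS0 : 0 ≤ S := sum_nonneg fun k _ => mul_nonneg (hw k) (by positivity)
  have hSp : (S ^ (1 / p)) ^ p = S := by
    rw [← Real.rpow_mul hS0, one_div_mul_cancel hp0.ne', Real.rpow_one]
  rw [abs_le] at k3
  have hd0 : 0 ≤ dist x y := dist_nonneg
  have lo : (1 - ε) ^ p * dist x y ^ p ≤ S := by
    rw [← hSp, ← Real.mul_rpow (by linarith) hd0]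
    exact Real.rpow_le_rpow (mul_nonneg (by linarith) hd0) (by linarith [k3.1]) hp0.le
  have hi : S ≤ (1 + ε) ^ p * dist x y ^ p := by
    rw [← hSp, ← Real.mul_rpow (by linarith) hd0]
    exact Real.rpow_le_rpow (by positivity) (by linarith [k3.2]) hp0.le
  have lo' := mul_le_mul_of_nonneg_left lo (by linarith : 0 ≤ 1 - ε)
  have hi' := mul_le_mul_of_nonneg_left hi (by linarith : 0 ≤ 1 + ε)
  constructor <;> nlinarith

universe u

open MeasureTheory in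
theorem sharp (p D : ℝ) (hp : 1 < p) (hp2 : p ≠ 2) (hD : 1 < D) : ∃ C : ℝ, 0 < C ∧
    ∀ n : ℕ, 3 ≤ n → ∃ N : ℕ, (N : ℝ) ≤ Real.exp (C * Real.log n ^ |1 - 2 / p|) ∧
    ∀ (Ω : Type u) [MeasurableSpace Ω] (μ : Measure Ω)
      (X : Finset (Lp ℝ (ENNReal.ofReal p) μ)), X.card ≤ n →
      ∃ (f : Lp ℝ (ENNReal.ofReal p) μ → Fin N → ℝ) (s : ℝ), 0 < s ∧ ∀ x ∈ X, ∀ y ∈ X,
        s * ‖x - y‖ ≤ (∑ k, |f x k - f y k| ^ p) ^ (1 / p) ∧
        (∑ k, |f x k - f y k| ^ p) ^ (1 / p) ≤ D * s * ‖x - y‖ := by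
  have hp0 : 0 < p := by linarith
  obtain ⟨ε, hε, hε1, hlo, hD'⟩ := exists_eps p D hp.le hD
  obtain ⟨Q, hQ, hQ1, hsp⟩ := sharp_sparse p ε hp hp2 hε
  have hγ : 0 < |1 - 2 / p| := by
    refine abs_pos.2 (sub_ne_zero.2 fun h => hp2 ?_)
    field_simp at h
    exact h
  have k : ∀ {a : ℝ}, 0 ≤ a → Small |1 - 2 / p| fun _ => a := fun ha => Small.const hγ.le ha
  have hX : Small |1 - 2 / p| fun Λ =>
      4 * (2 ^ p * (2 ^ (p + 1) / ε)) ^ 2 * 3 / ε ^ 2 * (Q Λ * Q Λ * Λ) + 1 :=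
    Small.add_one hγ.le ((k (by positivity)).mul ((hQ.mul hQ).mul (Small.self hγ)))
  obtain ⟨C, hC, hXC⟩ := hX
  refine ⟨C, hC, fun n hn => ?_⟩
  set Λ := Real.log n with hΛ
  have hΛ1 : 1 ≤ Λ := le_trans (by norm_num) (log_ge_of_three hn)
  set X0 := 4 * (2 ^ p * (2 ^ (p + 1) / ε)) ^ 2 * 3 / ε ^ 2 * (Q Λ * Q Λ * Λ) with hX0
  have hQΛ := hQ1 Λ hΛ1
  have hX00 : 0 ≤ X0 := by positivity
  refine ⟨⌊X0⌋₊ + 1, ?_, fun Ω _ μ X hX => ?_⟩
  · have := (hXC Λ hΛ1).2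
    have := Nat.floor_le hX00
    push_cast
    linarith
  refine transfer p D ε hp.le hD hε hε1 _ _ hlo (by positivity) hD' n _ ?_ μ X hX
  intro α ι _ _ _ F hd hcard
  rcases isEmpty_or_nonempty α with hα | hα
  · exact ⟨fun _ _ => 0, fun x => hα.elim x⟩
  have hsurj : Function.Surjective (SeparationQuotient.mk : α → SeparationQuotient α) :=
    SeparationQuotient.surjective_mk
  have : Finite (SeparationQuotient α) := Finite.of_surjective _ hsurj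
  let _ : Fintype (SeparationQuotient α) := Fintype.ofFinite _
  have : Nonempty (SeparationQuotient α) := hα.map SeparationQuotient.mk
  have hcard' : Fintype.card (SeparationQuotient α) ≤ n :=
    (Fintype.card_le_of_surjective _ hsurj).trans hcard
  obtain ⟨τ, hτ, w, g, hw, hg, hocc, hS⟩ := hsp (α := SeparationQuotient α)
    (fun i a => F i (Function.surjInv hsurj a)) (fun a b => by
      rw [hd, ← SeparationQuotient.dist_mk, Function.surjInv_eq hsurj, Function.surjInv_eq hsurj])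
    Λ hΛ1 (Real.log_le_log (Nat.cast_pos.2 Fintype.card_pos) (Nat.cast_le.2 hcard'))
  obtain ⟨φ, hφ⟩ := sharp_embed p hp.le w g hw hg (Q Λ) hQΛ hocc ε hε (by linarith) hS
    (⌊X0⌋₊ + 1) (Nat.succ_pos _) (by
      have h1 := log_card_le hn hcard'
      have h2 := (Nat.lt_floor_add_one X0).le
      push_cast
      refine le_trans ?_ h2
      calc _ ≤ 4 * (2 ^ p * (2 ^ (p + 1) * Q Λ / ε)) ^ 2 * (3 * Λ) / ε ^ 2 := by gcongr
        _ = _ := by rw [hX0]; ring)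
  refine ⟨fun x => φ (SeparationQuotient.mk x), fun x y => ?_⟩
  have := hφ (SeparationQuotient.mk x) (SeparationQuotient.mk y)
  rwa [SeparationQuotient.dist_mk] at this

end Vale.Agent.P249
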