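import Vale.Agent.P249.SDefs

/-! Geometric sums of dyadic levels below or above a threshold. -/

namespace Vale.Agent.P249

open Finset

theorem geo_below_all (q : ℝ) (hq : 0 < q) (h : ℝ) (hh : 0 < h) (N : ℕ) :
    ∑ k ∈ range N, (h * 2 ^ k) ^ q ≤ 1 / (2 ^ q - 1) * (h * 2 ^ N) ^ q := by
  have h2 : (1 : ℝ) < 2 ^ q := Real.one_lt_rpow (by norm_num) hq
  have h3 : (0 : ℝ) < 2 ^ q - 1 := by linarith
  induction N with
  | zero => simp only [range_zero, sum_empty]; positivity
  | succ N ih =>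
    rw [sum_range_succ]
    have e : (h * 2 ^ (N + 1)) ^ q = 2 ^ q * (h * 2 ^ N) ^ q := by
      rw [← Real.mul_rpow (by norm_num) (by positivity)]
      congr 1; ring
    rw [e]
    refine (add_le_add ih le_rfl).trans (le_of_eq ?_)
    field_simp
    ring

theorem geo_below (q : ℝ) (hq : 0 < q) : ∃ C : ℝ, 0 < C ∧ ∀ (h y : ℝ), 0 < h → 0 ≤ y → ∀ N : ℕ,
    ∑ k ∈ range N, (if h * 2 ^ k ≤ y then (h * 2 ^ k) ^ q else 0) ≤ C * y ^ q := by
  have h2 : (1 : ℝ) < 2 ^ q := Real.one_lt_rpow (by norm_num) hq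
  have h3 : (0 : ℝ) < 2 ^ q - 1 := by linarith
  refine ⟨1 / (2 ^ q - 1) * 2 ^ q, by positivity, fun h y hh hy N => ?_⟩
  induction N with
  | zero => simp only [range_zero, sum_empty]; positivity
  | succ N ih =>
    by_cases hN : h * 2 ^ N ≤ y
    · have e : (h * 2 ^ (N + 1)) ^ q = 2 ^ q * (h * 2 ^ N) ^ q := by
        rw [← Real.mul_rpow (by norm_num) (by positivity)]
        congr 1; ring
      calc _ ≤ ∑ k ∈ range (N + 1), (h * 2 ^ k) ^ q := by
            refine sum_le_sum fun k _ => ?_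
            split_ifs
            · exact le_rfl
            · positivity
        _ ≤ 1 / (2 ^ q - 1) * (h * 2 ^ (N + 1)) ^ q := geo_below_all q hq h hh _
        _ ≤ _ := by
            rw [e, ← mul_assoc]
            exact mul_le_mul_of_nonneg_left (Real.rpow_le_rpow (by positivity) hN hq.le)
              (by positivity)
    · rw [sum_range_succ, if_neg hN, add_zero]
      exact ih

theorem geo_above (q : ℝ) (hq : 0 < q) : ∃ C : ℝ, 0 < C ∧ ∀ (h y : ℝ), 0 < h → 0 < y → ∀ N : ℕ,
    ∑ k ∈ range N, (if y ≤ h * 2 ^ k then (h * 2 ^ k) ^ (-q) else 0) ≤ C * y ^ (-q) := by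
  have h2 : (2 : ℝ) ^ (-q) < 1 := Real.rpow_lt_one_of_one_lt_of_neg (by norm_num) (by linarith)
  have h3 : (0 : ℝ) < 1 - 2 ^ (-q) := by linarith
  refine ⟨1 / (1 - 2 ^ (-q)), by positivity, fun h y hh hy N => ?_⟩
  have hm : ∀ N : ℕ, (max y (h * 2 ^ N)) ^ (-q) ≤ y ^ (-q) := fun N =>
    Real.rpow_le_rpow_of_nonpos hy (le_max_left _ _) (by linarith)
  have key : ∀ N : ℕ, ∑ k ∈ range N, (if y ≤ h * 2 ^ k then (h * 2 ^ k) ^ (-q) else 0) ≤
      1 / (1 - 2 ^ (-q)) * (y ^ (-q) - (max y (h * 2 ^ N)) ^ (-q)) := by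
    intro N
    induction N with
    | zero =>
      simp only [range_zero, sum_empty]
      exact mul_nonneg (by positivity) (sub_nonneg.2 (hm 0))
    | succ N ih =>
      rw [sum_range_succ]
      by_cases hN : y ≤ h * 2 ^ N
      · have hN' : y ≤ h * 2 ^ (N + 1) := by
          have : 0 < h * 2 ^ N := by positivity
          rw [pow_succ, ← mul_assoc]; linarith
        have e : (h * 2 ^ (N + 1)) ^ (-q) = 2 ^ (-q) * (h * 2 ^ N) ^ (-q) := by
          rw [← Real.mul_rpow (by norm_num) (by positivity)]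
          congr 1; ring
        rw [max_eq_right hN] at ih
        rw [if_pos hN, max_eq_right hN', e]
        refine (add_le_add ih le_rfl).trans (le_of_eq ?_)
        field_simp
        ring
      · rw [max_eq_left (not_le.1 hN).le, sub_self, mul_zero] at ih
        rw [if_neg hN, add_zero]
        exact ih.trans (mul_nonneg (by positivity) (sub_nonneg.2 (hm _)))
  refine (key N).trans (mul_le_mul_of_nonneg_left ?_ (by positivity))
  have : 0 ≤ (max y (h * 2 ^ N)) ^ (-q) := Real.rpow_nonneg (le_max_of_le_left hy.le) _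
  linarith

end Vale.Agent.P249
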