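import Vale.Agent.P249.SGeo

/-! A pointwise form of Marcinkiewicz interpolation for the truncation errors. -/

namespace Vale.Agent.P249

open Finset

theorem interp_ptA (p : ℝ) (hp : 2 < p) : ∃ C : ℝ, 0 < C ∧ ∀ (L : ℝ), 0 < L → ∀ (a : ℕ → ℝ),
    (∀ k, 0 ≤ a k) → (∀ k, a k ≤ L * 2 ^ k) → ∀ N : ℕ,
      (∑ k ∈ range N, a k) ^ p ≤ C * ∑ k ∈ range N, (L * 2 ^ k) ^ (p - 2) * a k ^ 2 := by
  obtain ⟨C1, hC1, h1⟩ := geo_below 1 one_pos
  obtain ⟨C2, hC2, h2⟩ := geo_above (p - 2) (by linarith)
  refine ⟨4 * C2 * (2 * C1) ^ (p - 2), by positivity, fun L hL a ha haL N => ?_⟩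
  set S := ∑ k ∈ range N, a k with hS
  set T := ∑ k ∈ range N, (L * 2 ^ k) ^ (p - 2) * a k ^ 2 with hT
  have hT0 : 0 ≤ T := sum_nonneg fun k _ => by positivity
  have hS0 : 0 ≤ S := sum_nonneg fun k _ => ha k
  rcases hS0.eq_or_lt with h0 | h0
  · rw [← h0, Real.zero_rpow (by linarith)]; positivity
  set y := S / (2 * C1) with hy
  have hy0 : 0 < y := by positivity
  have l1 := h1 L y hL hy0.le N
  simp only [Real.rpow_one] at l1
  have l2 := h2 L y hL hy0 N
  set H := ∑ k ∈ range N, (if y ≤ L * 2 ^ k then a k else 0) with hH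
  have hSH : S ≤ C1 * y + H := by
    refine le_trans ?_ (add_le_add l1 le_rfl)
    rw [hH, ← sum_add_distrib]
    refine sum_le_sum fun k _ => ?_
    have := haL k
    have := ha k
    have : 0 < L * 2 ^ k := by positivity
    split_ifs <;> linarith
  have e1 : C1 * y = S / 2 := by rw [hy]; field_simp
  have hH2 : H ^ 2 ≤ (∑ k ∈ range N, (if y ≤ L * 2 ^ k then (L * 2 ^ k) ^ (-(p - 2)) else 0)) * T := by
    refine sum_sq_le_sum_mul_sum_of_sq_le_mul _ (fun k _ => ?_) (fun k _ => by positivity)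
      (fun k _ => le_of_eq ?_)
    · split_ifs <;> positivity
    · split_ifs
      · have : 0 < L * 2 ^ k := by positivity
        rw [Real.rpow_neg this.le]
        have : 0 < (L * 2 ^ k) ^ (p - 2) := by positivity
        field_simp
      · simp
  have h3 : (S / 2) ^ 2 ≤ C2 * y ^ (-(p - 2)) * T :=
    ((pow_le_pow_left₀ (by positivity) (by linarith) 2).trans hH2).trans
      (mul_le_mul_of_nonneg_right l2 hT0)
  have e2 : S ^ p = S ^ 2 * S ^ (p - 2) := by
    rw [← Real.rpow_natCast, ← Real.rpow_add h0]; norm_num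
  have e3 : y ^ (-(p - 2)) * S ^ (p - 2) = (2 * C1) ^ (p - 2) := by
    rw [Real.rpow_neg hy0.le, hy, Real.div_rpow h0.le (by positivity)]
    have : 0 < S ^ (p - 2) := by positivity
    have : 0 < (2 * C1) ^ (p - 2) := by positivity
    field_simp
  have h4 : 0 < S ^ (p - 2) := by positivity
  calc S ^ p = 4 * ((S / 2) ^ 2 * S ^ (p - 2)) := by rw [e2]; ring
    _ ≤ 4 * (C2 * y ^ (-(p - 2)) * T * S ^ (p - 2)) := by gcongr
    _ = 4 * C2 * (y ^ (-(p - 2)) * S ^ (p - 2)) * T := by ring
    _ = _ := by rw [e3]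

theorem interp_ptB (p : ℝ) (hp : 1 < p) (hp2 : p < 2) : ∃ C : ℝ, 0 < C ∧ ∀ (L : ℝ), 0 < L →
    ∀ (a : ℕ → ℝ), (∀ k, 0 ≤ a k) → ∀ N : ℕ,
      (∑ k ∈ range N, a k) ^ p ≤ C * (∑ k ∈ range N, (L * 2 ^ k) ^ (p - 2) * a k ^ 2 +
        ∑ k ∈ range N, (L * 2 ^ k) ^ (p - 1) * a k) := by
  obtain ⟨C1, hC1, h1⟩ := geo_below (2 - p) (by linarith)
  refine ⟨4 * C1 + 2, by positivity, fun L hL a ha N => ?_⟩
  set S := ∑ k ∈ range N, a k with hS
  set T := ∑ k ∈ range N, (L * 2 ^ k) ^ (p - 2) * a k ^ 2 with hT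
  set U := ∑ k ∈ range N, (L * 2 ^ k) ^ (p - 1) * a k with hU
  have hT0 : 0 ≤ T := sum_nonneg fun k _ => by positivity
  have hU0 : 0 ≤ U := sum_nonneg fun k _ => mul_nonneg (by positivity) (ha k)
  have hS0 : 0 ≤ S := sum_nonneg fun k _ => ha k
  rcases hS0.eq_or_lt with h0 | h0
  · rw [← h0, Real.zero_rpow (by linarith)]; positivity
  have l1 := h1 L S hL h0.le N
  set H := ∑ k ∈ range N, (if L * 2 ^ k ≤ S then 0 else a k) with hH
  set B := ∑ k ∈ range N, (if L * 2 ^ k ≤ S then a k else 0) with hB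
  have hSH : S = B + H := by
    rw [hH, hB, ← sum_add_distrib]
    refine sum_congr rfl fun k _ => ?_
    split_ifs <;> simp
  rcases le_total (S / 2) H with h2 | h2
  · have e2 : S ^ p = S ^ (p - 1) * S := by
      rw [Real.rpow_sub_one h0.ne']; field_simp
    have h3 : S ^ (p - 1) * H ≤ U := by
      rw [hH, mul_sum]
      refine sum_le_sum fun k _ => ?_
      split_ifs with hk
      · rw [mul_zero]; exact mul_nonneg (by positivity) (ha k)
      · exact mul_le_mul_of_nonneg_right
          (Real.rpow_le_rpow h0.le (not_le.1 hk).le (by linarith)) (ha k)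
    have h4 : 0 < S ^ (p - 1) := by positivity
    have h5 : S ^ (p - 1) * (S / 2) ≤ S ^ (p - 1) * H := by gcongr
    rw [e2]
    nlinarith [mul_nonneg hC1.le hT0, mul_nonneg hC1.le hU0]
  · have hB2 : B ^ 2 ≤ (∑ k ∈ range N, (if L * 2 ^ k ≤ S then (L * 2 ^ k) ^ (2 - p) else 0)) * T := by
      refine sum_sq_le_sum_mul_sum_of_sq_le_mul _ (fun k _ => ?_) (fun k _ => by positivity)
        (fun k _ => le_of_eq ?_)
      · split_ifs <;> positivity
      · split_ifs
        · have : 0 < L * 2 ^ k := by positivity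
          rw [← mul_assoc, ← Real.rpow_add this]; simp
        · simp
    have h3 : (S / 2) ^ 2 ≤ C1 * S ^ (2 - p) * T :=
      ((pow_le_pow_left₀ (by positivity) (by linarith) 2).trans hB2).trans
        (mul_le_mul_of_nonneg_right l1 hT0)
    have e2 : S ^ p = S ^ 2 * S ^ (p - 2) := by
      rw [← Real.rpow_natCast, ← Real.rpow_add h0]; norm_num
    have e3 : S ^ (2 - p) * S ^ (p - 2) = 1 := by
      rw [← Real.rpow_add h0]; simp
    have h4 : 0 < S ^ (p - 2) := by positivity
    have h5 : S ^ p ≤ 4 * C1 * T := by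
      calc S ^ p = 4 * ((S / 2) ^ 2 * S ^ (p - 2)) := by rw [e2]; ring
        _ ≤ 4 * (C1 * S ^ (2 - p) * T * S ^ (p - 2)) := by gcongr
        _ = 4 * C1 * (S ^ (2 - p) * S ^ (p - 2)) * T := by ring
        _ = _ := by rw [e3, mul_one]
    nlinarith [mul_nonneg hC1.le hU0]

theorem interp_L1 {E : Type} [Fintype E] (θ : E → ℝ) (R : E → E → ℝ) (K : ℝ) (hθ : ∀ e, 0 ≤ θ e)
    (hK : 1 ≤ K) (hcol : ∀ f, ∑ e, θ e * |R e f| ≤ K * θ f) (u : E → ℝ) :
    ∑ e, θ e * |u e - ∑ f, R e f * u f| ≤ 2 * K * ∑ e, θ e * |u e| := by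
  have h1 : ∑ e, θ e * |u e - ∑ f, R e f * u f| ≤
      ∑ e, θ e * |u e| + ∑ e, ∑ f, θ e * |R e f| * |u f| := by
    rw [← sum_add_distrib]
    refine sum_le_sum fun e _ => ?_
    have : |u e - ∑ f, R e f * u f| ≤ |u e| + ∑ f, |R e f| * |u f| := by
      refine (abs_sub _ _).trans (add_le_add le_rfl ((abs_sum_le_sum_abs _ _).trans ?_))
      exact sum_le_sum fun f _ => (abs_mul _ _).le
    refine (mul_le_mul_of_nonneg_left this (hθ e)).trans (le_of_eq ?_)
    rw [mul_add, mul_sum]
    simp only [mul_assoc]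
  have h2 : ∑ e, ∑ f, θ e * |R e f| * |u f| ≤ K * ∑ f, θ f * |u f| := by
    rw [sum_comm, mul_sum]
    refine sum_le_sum fun f _ => ?_
    rw [← sum_mul, ← mul_assoc]
    exact mul_le_mul_of_nonneg_right (hcol f) (abs_nonneg _)
  have h3 : 0 ≤ ∑ e, θ e * |u e| := sum_nonneg fun e _ => mul_nonneg (hθ e) (abs_nonneg _)
  nlinarith

theorem interp (p : ℝ) (hp : 1 < p) (hp2 : p ≠ 2) : ∃ C : ℝ, 0 < C ∧
    ∀ {E : Type} [Fintype E] (θ : E → ℝ) (R : E → E → ℝ) (K : ℝ), (∀ e, 0 ≤ θ e) → 1 ≤ K →
      (∀ e, ∑ f, |R e f| ≤ K) → (∀ f, ∑ e, θ e * |R e f| ≤ K * θ f) →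
      (∀ u : E → ℝ, ∑ e, θ e * (u e - ∑ f, R e f * u f) ^ 2 ≤ ∑ e, θ e * u e ^ 2) →
      ∀ g : E → ℝ, (∀ e, ∑ f, R e f * g f = g e) → ∀ h : ℝ, 0 < h → ∀ N : ℕ,
        ∑ e, θ e * (∑ k ∈ range N, |trunc h k (g e) - ∑ f, R e f * trunc h k (g f)|) ^ p ≤
          C * K ^ |p - 2| * ∑ e, θ e * |g e| ^ p := by
  have hQ : ∀ {E : Type} [Fintype E] (R : E → E → ℝ) (g : E → ℝ), (∀ e, ∑ f, R e f * g f = g e) →
      ∀ (t : E → ℝ) e, |t e - ∑ f, R e f * t f| =
        |(g e - t e) - ∑ f, R e f * (g f - t f)| := by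
    intro E _ R g hg t e
    simp only [mul_sub, sum_sub_distrib, hg]
    rw [← abs_neg]; congr 1; ring
  rcases lt_or_gt_of_ne hp2 with hp2 | hp2
  · obtain ⟨C1, hC1, h1⟩ := interp_ptB p hp hp2
    obtain ⟨C2, hC2, h2⟩ := geo_above (2 - p) (by linarith)
    obtain ⟨C3, hC3, h3⟩ := geo_below (p - 1) (by linarith)
    refine ⟨C1 * (C2 + 2 * C3), by positivity, ?_⟩
    intro E _ θ R K hθ hK hrow hcol hL2 g hg h hh N
    have hK0 : 0 < K := by linarith
    set a : ℕ → E → ℝ := fun k e => |trunc h k (g e) - ∑ f, R e f * trunc h k (g f)| with ha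
    set Z := ∑ e, θ e * |g e| ^ p with hZ
    have s1 : ∑ e, θ e * ∑ k ∈ range N, (h / K * 2 ^ k) ^ (p - 2) * a k e ^ 2 ≤
        C2 * K ^ (2 - p) * Z := by
      calc _ = ∑ k ∈ range N, (h / K * 2 ^ k) ^ (p - 2) * ∑ e, θ e * a k e ^ 2 := by
            simp only [mul_sum]
            rw [sum_comm]
            exact sum_congr rfl fun k _ => sum_congr rfl fun e _ => by ring
        _ ≤ ∑ k ∈ range N, (h / K * 2 ^ k) ^ (p - 2) * ∑ e, θ e * trunc h k (g e) ^ 2 := by
            refine sum_le_sum fun k _ => mul_le_mul_of_nonneg_left ?_ (by positivity)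
            simp only [ha, sq_abs]
            exact hL2 _
        _ = K ^ (2 - p) * ∑ e, θ e * (g e ^ 2 * ∑ k ∈ range N,
              (if |g e| ≤ h * 2 ^ k then (h * 2 ^ k) ^ (-(2 - p)) else 0)) := by
            simp only [mul_sum]
            rw [sum_comm]
            refine sum_congr rfl fun e _ => sum_congr rfl fun k _ => ?_
            have e1 : (h / K * 2 ^ k) ^ (p - 2) = K ^ (2 - p) * (h * 2 ^ k) ^ (-(2 - p)) := by
              rw [div_mul_eq_mul_div, Real.div_rpow (by positivity) hK0.le, neg_sub,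
                ← neg_sub p 2, Real.rpow_neg hK0.le]
              field_simp
            rw [e1]
            unfold trunc
            split_ifs <;> ring
        _ ≤ K ^ (2 - p) * ∑ e, θ e * (C2 * |g e| ^ p) := by
            refine mul_le_mul_of_nonneg_left (sum_le_sum fun e _ =>
              mul_le_mul_of_nonneg_left ?_ (hθ e)) (by positivity)
            by_cases h0 : g e = 0
            · rw [h0]; simp only [ne_eq, OfNat.ofNat_ne_zero, not_false_eq_true, zero_pow, zero_mul]
              positivity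
            · have hg0 : 0 < |g e| := abs_pos.2 h0
              refine (mul_le_mul_of_nonneg_left (h2 h _ hh hg0 N) (sq_nonneg _)).trans
                (le_of_eq ?_)
              rw [← sq_abs, ← Real.rpow_natCast, mul_left_comm, ← Real.rpow_add hg0]
              norm_num
        _ = _ := by
            rw [hZ, mul_sum, mul_sum]
            exact sum_congr rfl fun e _ => by ring
    have s2 : ∑ e, θ e * ∑ k ∈ range N, (h / K * 2 ^ k) ^ (p - 1) * a k e ≤
        2 * C3 * K ^ (2 - p) * Z := by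
      calc _ = ∑ k ∈ range N, (h / K * 2 ^ k) ^ (p - 1) * ∑ e, θ e * a k e := by
            simp only [mul_sum]
            rw [sum_comm]
            exact sum_congr rfl fun k _ => sum_congr rfl fun e _ => by ring
        _ ≤ ∑ k ∈ range N, (h / K * 2 ^ k) ^ (p - 1) *
              (2 * K * ∑ e, θ e * |g e - trunc h k (g e)|) := by
            refine sum_le_sum fun k _ => mul_le_mul_of_nonneg_left ?_ (by positivity)
            simp only [ha, hQ R g hg (fun e => trunc h k (g e))]
            exact interp_L1 θ R K hθ hK hcol (fun e => g e - trunc h k (g e))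
        _ ≤ 2 * K ^ (2 - p) * ∑ e, θ e * (|g e| * ∑ k ∈ range N,
              (if h * 2 ^ k ≤ |g e| then (h * 2 ^ k) ^ (p - 1) else 0)) := by
            simp only [mul_sum]
            rw [sum_comm]
            refine sum_le_sum fun e _ => sum_le_sum fun k _ => ?_
            have e1 : (h / K * 2 ^ k) ^ (p - 1) * K = K ^ (2 - p) * (h * 2 ^ k) ^ (p - 1) := by
              rw [div_mul_eq_mul_div, Real.div_rpow (by positivity) hK0.le,
                show 2 - p = 1 - (p - 1) by ring, Real.rpow_sub hK0 1, Real.rpow_one]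
              ring
            have := hθ e
            unfold trunc
            by_cases hk : |g e| ≤ h * 2 ^ k
            · rw [if_pos hk, sub_self, abs_zero, mul_zero, mul_zero, mul_zero]
              split_ifs <;> positivity
            · rw [if_neg hk, if_pos (not_le.1 hk).le, sub_zero]
              apply le_of_eq
              linear_combination (2 * θ e * |g e|) * e1
        _ ≤ 2 * K ^ (2 - p) * ∑ e, θ e * (C3 * |g e| ^ p) := by
            refine mul_le_mul_of_nonneg_left (sum_le_sum fun e _ =>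
              mul_le_mul_of_nonneg_left ?_ (hθ e)) (by positivity)
            refine (mul_le_mul_of_nonneg_left (h3 h _ hh (abs_nonneg _) N) (abs_nonneg _)).trans
              (le_of_eq ?_)
            rw [mul_left_comm, mul_comm |g e|, ← Real.rpow_add_one' (abs_nonneg _) (by linarith)]
            norm_num
        _ = _ := by
            rw [hZ, mul_sum, mul_sum]
            exact sum_congr rfl fun e _ => by ring
    rw [abs_of_neg (by linarith), neg_sub]
    calc _ ≤ ∑ e, θ e * (C1 * (∑ k ∈ range N, (h / K * 2 ^ k) ^ (p - 2) * a k e ^ 2 +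
            ∑ k ∈ range N, (h / K * 2 ^ k) ^ (p - 1) * a k e)) :=
          sum_le_sum fun e _ => mul_le_mul_of_nonneg_left
            (h1 (h / K) (by positivity) (fun k => a k e) (fun k => abs_nonneg _) N) (hθ e)
      _ = C1 * (∑ e, θ e * ∑ k ∈ range N, (h / K * 2 ^ k) ^ (p - 2) * a k e ^ 2 +
            ∑ e, θ e * ∑ k ∈ range N, (h / K * 2 ^ k) ^ (p - 1) * a k e) := by
          rw [← sum_add_distrib, mul_sum]
          exact sum_congr rfl fun e _ => by ring
      _ ≤ C1 * (C2 * K ^ (2 - p) * Z + 2 * C3 * K ^ (2 - p) * Z) := by gcongr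
      _ = _ := by ring
  · obtain ⟨C1, hC1, h1⟩ := interp_ptA p hp2
    obtain ⟨C3, hC3, h3⟩ := geo_below (p - 2) (by linarith)
    refine ⟨C1 * 2 ^ (p - 2) * C3, by positivity, ?_⟩
    intro E _ θ R K hθ hK hrow hcol hL2 g hg h hh N
    have hK0 : 0 < K := by linarith
    set a : ℕ → E → ℝ := fun k e => |trunc h k (g e) - ∑ f, R e f * trunc h k (g f)| with ha
    have ht : ∀ k t, |trunc h k t| ≤ h * 2 ^ k := fun k t => by
      unfold trunc
      split_ifs with hk
      · exact hk
      · rw [abs_zero]; positivity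
    have hab : ∀ k e, a k e ≤ 2 * K * h * 2 ^ k := fun k e => by
      have h4 : |∑ f, R e f * trunc h k (g f)| ≤ K * (h * 2 ^ k) := by
        refine (abs_sum_le_sum_abs _ _).trans (le_trans ?_
          (mul_le_mul_of_nonneg_right (hrow e) (by positivity)))
        rw [sum_mul]
        refine sum_le_sum fun f _ => ?_
        rw [abs_mul]
        exact mul_le_mul_of_nonneg_left (ht _ _) (abs_nonneg _)
      have h5 := abs_sub (trunc h k (g e)) (∑ f, R e f * trunc h k (g f))
      have h6 := ht k (g e)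
      have h7 : 0 < h * 2 ^ k := by positivity
      simp only [ha]
      nlinarith
    rw [abs_of_pos (by linarith)]
    calc _ ≤ ∑ e, θ e * (C1 * ∑ k ∈ range N, (2 * K * h * 2 ^ k) ^ (p - 2) * a k e ^ 2) :=
          sum_le_sum fun e _ => mul_le_mul_of_nonneg_left
            (h1 (2 * K * h) (by positivity) (fun k => a k e) (fun k => abs_nonneg _)
              (fun k => hab k e) N) (hθ e)
      _ = C1 * ∑ k ∈ range N, (2 * K * h * 2 ^ k) ^ (p - 2) * ∑ e, θ e * a k e ^ 2 := by
          simp only [mul_sum]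
          rw [sum_comm]
          exact sum_congr rfl fun k _ => sum_congr rfl fun e _ => by ring
      _ ≤ C1 * ∑ k ∈ range N, (2 * K * h * 2 ^ k) ^ (p - 2) *
            ∑ e, θ e * (g e - trunc h k (g e)) ^ 2 := by
          refine mul_le_mul_of_nonneg_left (sum_le_sum fun k _ =>
            mul_le_mul_of_nonneg_left ?_ (by positivity)) hC1.le
          simp only [ha, hQ R g hg (fun e => trunc h k (g e)), sq_abs]
          exact hL2 (fun e => g e - trunc h k (g e))
      _ ≤ C1 * ((2 * K) ^ (p - 2) * ∑ e, θ e * (g e ^ 2 * ∑ k ∈ range N,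
            (if h * 2 ^ k ≤ |g e| then (h * 2 ^ k) ^ (p - 2) else 0))) := by
          refine mul_le_mul_of_nonneg_left ?_ hC1.le
          simp only [mul_sum]
          rw [sum_comm]
          refine sum_le_sum fun e _ => sum_le_sum fun k _ => ?_
          have e1 : (2 * K * h * 2 ^ k) ^ (p - 2) = (2 * K) ^ (p - 2) * (h * 2 ^ k) ^ (p - 2) := by
            rw [← Real.mul_rpow (by positivity) (by positivity), mul_assoc (2 * K)]
          have := hθ e
          unfold trunc
          by_cases hk : |g e| ≤ h * 2 ^ k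
          · rw [if_pos hk, sub_self, zero_pow two_ne_zero, mul_zero, mul_zero]
            split_ifs <;> positivity
          · rw [if_neg hk, if_pos (not_le.1 hk).le, sub_zero, e1]
            apply le_of_eq
            ring
      _ ≤ C1 * ((2 * K) ^ (p - 2) * ∑ e, θ e * (C3 * |g e| ^ p)) := by
          refine mul_le_mul_of_nonneg_left (mul_le_mul_of_nonneg_left (sum_le_sum fun e _ =>
            mul_le_mul_of_nonneg_left ?_ (hθ e)) (by positivity)) hC1.le
          refine (mul_le_mul_of_nonneg_left (h3 h _ hh (abs_nonneg _) N) (sq_nonneg _)).trans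
            (le_of_eq ?_)
          rw [← sq_abs, ← Real.rpow_natCast, mul_left_comm,
            ← Real.rpow_add' (abs_nonneg _) (by norm_num; linarith)]
          norm_num
      _ = _ := by
          rw [Real.mul_rpow (by norm_num) hK0.le]
          simp only [mul_sum]
          exact sum_congr rfl fun e _ => by ring

end Vale.Agent.P249
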