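import Vale.Agent.P249.SDefs

/-! Localization of electrical flows: the absolute transfer-current form is `O(log n)`. -/

namespace Vale.Agent.P249

open Finset Filter Topology

lemma loc_tlog {t c : ℝ} (ht : 0 ≤ t) (hc : 0 < c) :
    t * Real.log c + t - c ≤ t * Real.log t := by
  rcases ht.eq_or_lt with rfl | ht
  · simp only [zero_mul, add_zero, zero_sub, Left.neg_nonpos_iff]
    exact hc.le
  · have h := Real.log_le_sub_one_of_pos (div_pos hc ht)
    rw [Real.log_div hc.ne' ht.ne'] at h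
    have h2 : t * (Real.log c - Real.log t) ≤ t * (c / t - 1) := mul_le_mul_of_nonneg_left h ht.le
    rw [mul_sub, mul_sub, mul_div_cancel₀ _ ht.ne'] at h2
    linarith

lemma loc_ent {α : Type} [Fintype α] (Q : α → ℝ) (hQ0 : ∀ y, 0 ≤ Q y) (h : α → ℝ)
    (h0 : ∀ y, 0 ≤ h y) :
    (∑ y, Q y * h y) * Real.log (∑ y, Q y * h y) + (∑ y, Q y * h y) -
      (∑ y, Q y * √(h y)) ^ 2 ≤ ∑ y, Q y * (h y * Real.log (h y)) := by
  set m := ∑ y, Q y * h y with hm
  have hm0 : 0 ≤ m := sum_nonneg fun y _ => mul_nonneg (hQ0 y) (h0 y)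
  rcases hm0.eq_or_lt with hz | hpos
  · have hz' : ∀ y, Q y * h y = 0 := fun y =>
      (sum_eq_zero_iff_of_nonneg fun y _ => mul_nonneg (hQ0 y) (h0 y)).1 hz.symm y (mem_univ y)
    have : ∑ y, Q y * (h y * Real.log (h y)) = 0 :=
      sum_eq_zero fun y _ => by rw [← mul_assoc, hz', zero_mul]
    rw [this, ← hz]
    have := sq_nonneg (∑ y, Q y * √(h y))
    linarith
  · set r := √m with hr
    have hr0 : 0 < r := Real.sqrt_pos.2 hpos
    have hrr : r * r = m := Real.mul_self_sqrt hm0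
    have hlr : Real.log r = Real.log m / 2 := Real.log_sqrt hm0
    have key : ∀ y, Q y * h y * Real.log m + 2 * (Q y * h y) - 2 * r * (Q y * √(h y)) ≤
        Q y * (h y * Real.log (h y)) := by
      intro y
      have hf0 : 0 ≤ √(h y) := Real.sqrt_nonneg _
      have hff : √(h y) * √(h y) = h y := Real.mul_self_sqrt (h0 y)
      have h1 := loc_tlog hf0 hr0
      rw [hlr, Real.log_sqrt (h0 y)] at h1
      have h2 := mul_le_mul_of_nonneg_left h1 (mul_nonneg (hQ0 y) hf0)
      have e1 : Q y * √(h y) * (√(h y) * (Real.log m / 2) + √(h y) - r) =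
          (Q y * (√(h y) * √(h y)) * Real.log m + 2 * (Q y * (√(h y) * √(h y))) -
            2 * r * (Q y * √(h y))) / 2 := by ring
      have e2 : Q y * √(h y) * (√(h y) * (Real.log (h y) / 2)) =
          Q y * ((√(h y) * √(h y)) * Real.log (h y)) / 2 := by ring
      rw [e1, e2, hff] at h2
      linarith
    have hs := sum_le_sum fun y (_ : y ∈ (univ : Finset α)) => key y
    rw [sum_sub_distrib, sum_add_distrib, ← sum_mul, ← mul_sum, ← mul_sum, ← hm] at hs
    nlinarith [sq_nonneg (r - ∑ y, Q y * √(h y))]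

/-- The lazy walk attached to an incidence matrix `A` and vertex weights `μ`. -/
noncomputable def locT {α E : Type} [Fintype α] [Fintype E] (A : E → α → ℝ) (μ : α → ℝ) (δ : ℝ) :
    Module.End ℝ (α → ℝ) where
  toFun f x := f x - δ / μ x * ∑ e, A e x * ∑ y, A e y * f y
  map_add' f g := by
    ext x
    simp only [Pi.add_apply, mul_add, sum_add_distrib]
    ring
  map_smul' r f := by
    ext x
    simp only [Pi.smul_apply, smul_eq_mul, RingHom.id_apply]
    have : ∀ e, A e x * ∑ y, A e y * (r * f y) = r * (A e x * ∑ y, A e y * f y) := by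
      intro e
      have : ∑ y, A e y * (r * f y) = r * ∑ y, A e y * f y := by
        rw [mul_sum]
        exact sum_congr rfl fun y _ => by ring
      rw [this]
      ring
    rw [sum_congr rfl fun e _ => this e, ← mul_sum]
    ring

section chain

variable {α E : Type} [Fintype α] [Fintype E] {A : E → α → ℝ} {μ : α → ℝ} {δ : ℝ}

lemma locT_apply (f : α → ℝ) (x : α) :
    locT A μ δ f x = f x - δ / μ x * ∑ e, A e x * ∑ y, A e y * f y := rfl

lemma loc_swap (v : E → ℝ) (g : α → ℝ) :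
    ∑ x, (∑ e, A e x * v e) * g x = ∑ e, v e * ∑ x, A e x * g x := by
  simp only [sum_mul, mul_sum]
  rw [sum_comm]
  exact sum_congr rfl fun e _ => sum_congr rfl fun x _ => by ring

lemma locT_inner (hμ : ∀ x, 0 < μ x) (f g : α → ℝ) :
    ∑ x, μ x * (locT A μ δ f x * g x) =
      ∑ x, μ x * (f x * g x) - δ * ∑ e, (∑ y, A e y * f y) * ∑ y, A e y * g y := by
  rw [← loc_swap, mul_sum, ← sum_sub_distrib]
  refine sum_congr rfl fun x _ => ?_
  rw [locT_apply]
  have := (hμ x).ne'
  field_simp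

lemma locT_adj (hμ : ∀ x, 0 < μ x) (f g : α → ℝ) :
    ∑ x, μ x * (locT A μ δ f x * g x) = ∑ x, μ x * (f x * locT A μ δ g x) := by
  have h := locT_inner (A := A) (δ := δ) hμ g f
  rw [locT_inner hμ]
  simp only [mul_comm (f _)]
  rw [h]
  congr 2
  exact sum_congr rfl fun e _ => mul_comm _ _

lemma locT_pow_adj (hμ : ∀ x, 0 < μ x) (s : ℕ) (f g : α → ℝ) :
    ∑ x, μ x * ((locT A μ δ ^ s) f x * g x) = ∑ x, μ x * (f x * (locT A μ δ ^ s) g x) := by
  induction s generalizing g with
  | zero => simp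
  | succ s ih =>
    rw [pow_succ', Module.End.mul_apply, locT_adj hμ, ih, ← pow_succ', pow_succ,
      Module.End.mul_apply]

lemma locT_mass (hμ : ∀ x, 0 < μ x) (hA : ∀ e, ∑ x, A e x = 0) (f : α → ℝ) :
    ∑ x, μ x * locT A μ δ f x = ∑ x, μ x * f x := by
  have h := locT_inner (A := A) (δ := δ) hμ f fun _ => 1
  simpa [hA] using h

lemma locT_energy (hμ : ∀ x, 0 < μ x) (hδ : 0 < δ)
    (hδ1 : δ * ∑ x, (∑ e, A e x ^ 2) / μ x ≤ 1) (f : α → ℝ) :
    ∑ x, μ x * locT A μ δ f x ^ 2 + δ * ∑ e, (∑ y, A e y * f y) ^ 2 ≤ ∑ x, μ x * f x ^ 2 := by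
  set v : E → ℝ := fun e => ∑ y, A e y * f y with hv
  have h1 : ∀ x, μ x * locT A μ δ f x ^ 2 ≤ μ x * f x ^ 2 - 2 * δ * ((∑ e, A e x * v e) * f x) +
      δ * (δ * ((∑ e, A e x ^ 2) / μ x)) * ∑ e, v e ^ 2 := by
    intro x
    have hx := hμ x
    have cs := sum_mul_sq_le_sq_mul_sq univ (fun e => A e x) v
    have e1 : μ x * locT A μ δ f x ^ 2 = μ x * f x ^ 2 - 2 * δ * ((∑ e, A e x * v e) * f x) +
        δ * δ / μ x * (∑ e, A e x * v e) ^ 2 := by
      rw [locT_apply]
      simp only [hv]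
      field_simp
      ring
    have e2 : δ * (δ * ((∑ e, A e x ^ 2) / μ x)) * ∑ e, v e ^ 2 =
        δ * δ / μ x * ((∑ e, A e x ^ 2) * ∑ e, v e ^ 2) := by ring
    rw [e1, e2]
    have := mul_le_mul_of_nonneg_left cs (by positivity : 0 ≤ δ * δ / μ x)
    linarith
  have h2 := sum_le_sum fun x (_ : x ∈ (univ : Finset α)) => h1 x
  rw [sum_add_distrib, sum_sub_distrib, ← mul_sum, loc_swap, ← sum_mul, ← mul_sum,
    ← mul_sum] at h2
  have e3 : ∑ e, v e * ∑ x, A e x * f x = ∑ e, v e ^ 2 := sum_congr rfl fun e _ => by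
    simp only [hv]
    ring
  rw [e3] at h2
  have hv0 : 0 ≤ ∑ e, v e ^ 2 := sum_nonneg fun e _ => sq_nonneg _
  have h3 := mul_le_mul_of_nonneg_right (mul_le_mul_of_nonneg_left hδ1 hδ.le) hv0
  nlinarith

lemma locT_kernel (hμ : ∀ x, 0 < μ x) (hδ : 0 < δ)
    (hδ1 : δ * ∑ x, (∑ e, A e x ^ 2) / μ x ≤ 1)
    (hA2 : ∀ e x y, x ≠ y → A e x * A e y ≤ 0) (x : α) :
    ∃ Q : α → ℝ, (∀ y, 0 ≤ Q y) ∧ ∀ f : α → ℝ, locT A μ δ f x = ∑ y, Q y * f y := by
  classical
  refine ⟨fun y => (if x = y then 1 else 0) - δ / μ x * ∑ e, A e x * A e y, fun y => ?_,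
    fun f => ?_⟩
  · have hx := hμ x
    by_cases hxy : x = y
    · subst hxy
      simp only [if_true]
      have h1 : (∑ e, A e x ^ 2) / μ x ≤ ∑ x, (∑ e, A e x ^ 2) / μ x :=
        single_le_sum (f := fun x => (∑ e, A e x ^ 2) / μ x)
          (fun y _ => div_nonneg (sum_nonneg fun e _ => sq_nonneg _) (hμ y).le) (mem_univ x)
      have h2 := mul_le_mul_of_nonneg_left h1 hδ.le
      have e : δ / μ x * ∑ e, A e x * A e x = δ * ((∑ e, A e x ^ 2) / μ x) := by
        simp only [sq]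
        ring
      rw [e]
      linarith
    · simp only [if_neg hxy]
      have h1 : ∑ e, A e x * A e y ≤ 0 := sum_nonpos fun e _ => hA2 e x y hxy
      have := mul_nonneg (by positivity : 0 ≤ δ / μ x) (neg_nonneg.2 h1)
      linarith
  · rw [locT_apply]
    simp only [sub_mul, sum_sub_distrib, ite_mul, one_mul, zero_mul, sum_ite_eq, mem_univ,
      if_true]
    congr 1
    simp only [mul_sum, sum_mul]
    rw [sum_comm]
    exact sum_congr rfl fun y _ => sum_congr rfl fun e _ => by ring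

lemma locT_nonneg (hμ : ∀ x, 0 < μ x) (hδ : 0 < δ)
    (hδ1 : δ * ∑ x, (∑ e, A e x ^ 2) / μ x ≤ 1)
    (hA2 : ∀ e x y, x ≠ y → A e x * A e y ≤ 0) (s : ℕ) (f : α → ℝ) (hf : ∀ x, 0 ≤ f x) (x : α) :
    0 ≤ (locT A μ δ ^ s) f x := by
  induction s generalizing x with
  | zero => simpa using hf x
  | succ s ih =>
    obtain ⟨Q, hQ0, hQ⟩ := locT_kernel hμ hδ hδ1 hA2 x
    rw [pow_succ', Module.End.mul_apply, hQ]
    exact sum_nonneg fun y _ => mul_nonneg (hQ0 y) (ih y)

lemma locT_entropy (hμ : ∀ x, 0 < μ x) (hδ : 0 < δ)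
    (hδ1 : δ * ∑ x, (∑ e, A e x ^ 2) / μ x ≤ 1) (hA : ∀ e, ∑ x, A e x = 0)
    (hA2 : ∀ e x y, x ≠ y → A e x * A e y ≤ 0) (f : α → ℝ) (hf : ∀ x, 0 ≤ f x) :
    ∑ x, μ x * (locT A μ δ f x * Real.log (locT A μ δ f x)) +
      δ * ∑ e, (∑ y, A e y * √(f y)) ^ 2 ≤ ∑ x, μ x * (f x * Real.log (f x)) := by
  have h1 : ∀ x, μ x * (locT A μ δ f x * Real.log (locT A μ δ f x)) + μ x * locT A μ δ f x -
      μ x * locT A μ δ (fun y => √(f y)) x ^ 2 ≤
      μ x * locT A μ δ (fun y => f y * Real.log (f y)) x := by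
    intro x
    obtain ⟨Q, hQ0, hQ⟩ := locT_kernel hμ hδ hδ1 hA2 x
    have := mul_le_mul_of_nonneg_left (loc_ent Q hQ0 f hf) (hμ x).le
    simp only [hQ]
    linarith
  have h2 := sum_le_sum fun x (_ : x ∈ (univ : Finset α)) => h1 x
  rw [sum_sub_distrib, sum_add_distrib, locT_mass hμ hA, locT_mass hμ hA] at h2
  have h3 := locT_energy hμ hδ hδ1 fun y => √(f y)
  simp only [Real.sq_sqrt (hf _)] at h3
  linarith

lemma locT_entropy_sum (hμ : ∀ x, 0 < μ x) (hδ : 0 < δ)
    (hδ1 : δ * ∑ x, (∑ e, A e x ^ 2) / μ x ≤ 1) (hA : ∀ e, ∑ x, A e x = 0)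
    (hA2 : ∀ e x y, x ≠ y → A e x * A e y ≤ 0) (f : α → ℝ) (hf : ∀ x, 0 ≤ f x) (N : ℕ) :
    ∑ x, μ x * ((locT A μ δ ^ N) f x * Real.log ((locT A μ δ ^ N) f x)) +
      δ * ∑ s ∈ range N, ∑ e, (∑ y, A e y * √((locT A μ δ ^ s) f y)) ^ 2 ≤
      ∑ x, μ x * (f x * Real.log (f x)) := by
  induction N with
  | zero => simp
  | succ N ih =>
    have := locT_entropy hμ hδ hδ1 hA hA2 _ (locT_nonneg hμ hδ hδ1 hA2 N f hf)
    rw [sum_range_succ, pow_succ', Module.End.mul_apply, mul_add]
    linarith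

lemma locT_pow_mass (hμ : ∀ x, 0 < μ x) (hA : ∀ e, ∑ x, A e x = 0) (f : α → ℝ) (s : ℕ) :
    ∑ x, μ x * (locT A μ δ ^ s) f x = ∑ x, μ x * f x := by
  induction s with
  | zero => simp
  | succ s ih => rw [pow_succ', Module.End.mul_apply, locT_mass hμ hA, ih]

lemma locT_decay (hμ : ∀ x, 0 < μ x) (hδ : 0 < δ)
    (hδ1 : δ * ∑ x, (∑ e, A e x ^ 2) / μ x ≤ 1) (f : α → ℝ) (e : E) :
    Tendsto (fun N => ∑ y, A e y * (locT A μ δ ^ N) f y) atTop (𝓝 0) := by
  have h1 : ∀ N, ∑ x, μ x * (locT A μ δ ^ N) f x ^ 2 +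
      δ * ∑ s ∈ range N, ∑ e, (∑ y, A e y * (locT A μ δ ^ s) f y) ^ 2 ≤ ∑ x, μ x * f x ^ 2 := by
    intro N
    induction N with
    | zero => simp
    | succ N ih =>
      have := locT_energy hμ hδ hδ1 ((locT A μ δ ^ N) f)
      rw [sum_range_succ, pow_succ', Module.End.mul_apply, mul_add]
      linarith
  have h2 : Summable fun s => (∑ y, A e y * (locT A μ δ ^ s) f y) ^ 2 := by
    refine summable_of_sum_range_le (c := (∑ x, μ x * f x ^ 2) / δ) (fun s => sq_nonneg _)
      fun N => ?_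
    rw [le_div_iff₀ hδ]
    have h3 : ∑ s ∈ range N, (∑ y, A e y * (locT A μ δ ^ s) f y) ^ 2 ≤
        ∑ s ∈ range N, ∑ e, (∑ y, A e y * (locT A μ δ ^ s) f y) ^ 2 :=
      sum_le_sum fun s _ => single_le_sum
        (f := fun e => (∑ y, A e y * (locT A μ δ ^ s) f y) ^ 2) (fun e _ => sq_nonneg _)
        (mem_univ e)
    have h4 : 0 ≤ ∑ x, μ x * (locT A μ δ ^ N) f x ^ 2 :=
      sum_nonneg fun x _ => mul_nonneg (hμ x).le (sq_nonneg _)
    have := h1 N
    nlinarith
  have h5 := h2.tendsto_atTop_zero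
  have h6 := (Real.continuous_sqrt.tendsto 0).comp h5
  rw [Real.sqrt_zero] at h6
  rw [tendsto_zero_iff_abs_tendsto_zero]
  refine h6.congr fun N => ?_
  simp [Real.sqrt_sq_eq_abs]

lemma locT_total [Nonempty α] [DecidableEq α] (hμ : ∀ x, 0 < μ x) (hδ : 0 < δ)
    (hδ1 : δ * ∑ x, (∑ e, A e x ^ 2) / μ x ≤ 1) (hA : ∀ e, ∑ x, A e x = 0)
    (hA2 : ∀ e x y, x ≠ y → A e x * A e y ≤ 0) (N : ℕ) :
    δ * ∑ s ∈ range N, ∑ u, μ u * ∑ e,
      (∑ y, A e y * √((locT A μ δ ^ s) (fun x => if x = u then 1 / μ u else 0) y)) ^ 2 ≤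
      (∑ x, μ x) * Real.log (Fintype.card α) := by
  set Z := ∑ x, μ x with hZ
  have hZ0 : 0 < Z := sum_pos (fun x _ => hμ x) univ_nonempty
  have hn : (0 : ℝ) < Fintype.card α := Nat.cast_pos.2 Fintype.card_pos
  have h1 : ∀ u, δ * ∑ s ∈ range N, ∑ e,
      (∑ y, A e y * √((locT A μ δ ^ s) (fun x => if x = u then 1 / μ u else 0) y)) ^ 2 ≤
      Real.log Z - Real.log (μ u) := by
    intro u
    have hu := hμ u
    have hf : ∀ x, 0 ≤ (fun x => if x = u then 1 / μ u else 0) x := fun x => by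
      simp only
      split_ifs
      · positivity
      · exact le_rfl
    have h2 := locT_entropy_sum hμ hδ hδ1 hA hA2 _ hf N
    have h3 : ∑ x, μ x * ((if x = u then 1 / μ u else 0) *
        Real.log (if x = u then 1 / μ u else 0)) = -Real.log (μ u) := by
      rw [sum_eq_single u (fun x _ hx => by simp [hx]) (by simp)]
      simp only [if_true, one_div, Real.log_inv]
      field_simp
    have h4 : ∑ x, μ x * (locT A μ δ ^ N) (fun x => if x = u then 1 / μ u else 0) x = 1 := by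
      rw [locT_pow_mass hμ hA, sum_eq_single u (fun x _ hx => by simp [hx]) (by simp)]
      simp only [if_true]
      field_simp
    set g := (locT A μ δ ^ N) (fun x => if x = u then 1 / μ u else 0) with hg
    have h5 : ∀ x, μ x * g x * Real.log (1 / Z) + μ x * g x - μ x * (1 / Z) ≤
        μ x * (g x * Real.log (g x)) := by
      intro x
      have := mul_le_mul_of_nonneg_left (loc_tlog (locT_nonneg hμ hδ hδ1 hA2 N _ hf x)
        (by positivity : 0 < 1 / Z)) (hμ x).le
      linarith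
    have h6 := sum_le_sum fun x (_ : x ∈ (univ : Finset α)) => h5 x
    rw [sum_sub_distrib, sum_add_distrib, ← sum_mul, ← sum_mul, h4, ← hZ, one_div, Real.log_inv,
      mul_inv_cancel₀ hZ0.ne'] at h6
    rw [h3] at h2
    linarith
  rw [sum_comm, mul_sum]
  have h7 : ∀ u, μ u * (Real.log Z - Real.log (μ u)) ≤
      μ u * Real.log (Fintype.card α) - μ u + Z / Fintype.card α := by
    intro u
    have := loc_tlog (hμ u).le (div_pos hZ0 hn)
    rw [Real.log_div hZ0.ne' hn.ne'] at this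
    linarith
  calc _ ≤ ∑ u, (μ u * Real.log (Fintype.card α) - μ u + Z / Fintype.card α) := by
        refine sum_le_sum fun u _ => le_trans ?_ (h7 u)
        rw [← mul_sum, mul_left_comm]
        exact mul_le_mul_of_nonneg_left (h1 u) (hμ u).le
    _ = _ := by
        rw [sum_add_distrib, sum_sub_distrib, ← sum_mul, ← hZ, sum_const, card_univ,
          nsmul_eq_mul, mul_div_cancel₀ _ hn.ne']
        ring

lemma locT_split [DecidableEq α] (hμ : ∀ x, 0 < μ x) (s t : ℕ) (e f : E) :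
    ∑ x, A e x * (locT A μ δ ^ (s + t)) (fun x => A f x / μ x) x =
      ∑ u, μ u * ((∑ y, A e y * (locT A μ δ ^ s) (fun x => if x = u then 1 / μ u else 0) y) *
        ∑ y, A f y * (locT A μ δ ^ t) (fun x => if x = u then 1 / μ u else 0) y) := by
  have h1 : ∀ (s : ℕ) (e : E) u, (locT A μ δ ^ s) (fun x => A e x / μ x) u =
      ∑ y, A e y * (locT A μ δ ^ s) (fun x => if x = u then 1 / μ u else 0) y := by
    intro s e u
    have h := locT_pow_adj (A := A) (δ := δ) hμ s (fun x => A e x / μ x)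
      (fun x => if x = u then 1 / μ u else 0)
    rw [sum_eq_single u (fun x _ hx => by simp [hx]) (by simp)] at h
    simp only [if_true] at h
    have hu := (hμ u).ne'
    have e1 : ∀ a : ℝ, μ u * (a * (1 / μ u)) = a := fun a => by field_simp
    rw [e1] at h
    rw [h]
    refine sum_congr rfl fun y _ => ?_
    have := (hμ y).ne'
    field_simp
  simp only [← h1]
  rw [locT_pow_adj hμ, pow_add, Module.End.mul_apply]
  refine sum_congr rfl fun y _ => ?_
  have := (hμ y).ne'
  field_simp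

lemma locT_tele (m r : α → ℝ) (h : m - locT A μ δ m = δ • r) (N : ℕ) :
    m - (locT A μ δ ^ (N + N)) m =
      δ • ∑ s ∈ range N, ((locT A μ δ ^ (s + s)) r + (locT A μ δ ^ (s + (s + 1))) r) := by
  have h1 : ∀ k, (locT A μ δ ^ k) m - (locT A μ δ ^ (k + 1)) m = δ • (locT A μ δ ^ k) r := by
    intro k
    rw [← map_smul, ← h, map_sub, pow_succ, Module.End.mul_apply]
  induction N with
  | zero => simp
  | succ N ih =>
    have e1 : N + 1 + (N + 1) = N + N + 1 + 1 := by ring
    have e2 : N + (N + 1) = N + N + 1 := by ring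
    rw [sum_range_succ, smul_add, ← ih, smul_add, e1, e2, ← h1, ← h1]
    abel

end chain

lemma loc_cs {α E : Type} [Fintype E] (a b : E → α) (c z : E → ℝ)
    (h : α → ℝ) (h0 : ∀ x, 0 ≤ h x) (h1 : ∑ e, z e ^ 2 * (h (a e) + h (b e)) ≤ 1) :
    (∑ e, |c e * (h (a e) - h (b e))| * z e) ^ 2 ≤
      2 * ∑ e, (c e * (√(h (a e)) - √(h (b e)))) ^ 2 := by
  have cs := sum_mul_sq_le_sq_mul_sq univ (fun e => |c e * (√(h (a e)) - √(h (b e)))|)
    (fun e => z e * (√(h (a e)) + √(h (b e))))
  have e1 : ∀ e, |c e * (√(h (a e)) - √(h (b e)))| * (z e * (√(h (a e)) + √(h (b e)))) =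
      |c e * (h (a e) - h (b e))| * z e := by
    intro e
    have hs : 0 ≤ √(h (a e)) + √(h (b e)) := by positivity
    have : c e * (h (a e) - h (b e)) =
        c e * (√(h (a e)) - √(h (b e))) * (√(h (a e)) + √(h (b e))) := by
      have ha := Real.mul_self_sqrt (h0 (a e))
      have hb := Real.mul_self_sqrt (h0 (b e))
      calc _ = c e * (√(h (a e)) * √(h (a e)) - √(h (b e)) * √(h (b e))) := by rw [ha, hb]
        _ = _ := by ring
    rw [this, abs_mul (c e * _), abs_of_nonneg hs]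
    ring
  simp only [e1, sq_abs] at cs
  have h2 : ∑ e, (z e * (√(h (a e)) + √(h (b e)))) ^ 2 ≤ 2 := by
    calc _ ≤ ∑ e, 2 * (z e ^ 2 * (h (a e) + h (b e))) := by
          refine sum_le_sum fun e _ => ?_
          have ha := Real.sq_sqrt (h0 (a e))
          have hb := Real.sq_sqrt (h0 (b e))
          have : (√(h (a e)) + √(h (b e))) ^ 2 ≤ 2 * (h (a e) + h (b e)) := by
            nlinarith [sq_nonneg (√(h (a e)) - √(h (b e)))]
          rw [mul_pow]
          nlinarith [sq_nonneg (z e)]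
      _ ≤ 2 := by rw [← mul_sum]; linarith
  have h3 : 0 ≤ ∑ e, (c e * (√(h (a e)) - √(h (b e)))) ^ 2 := sum_nonneg fun e _ => sq_nonneg _
  nlinarith

theorem loc {α E : Type} [Fintype α] [Nonempty α] [Fintype E] (a b : E → α) (c : E → ℝ)
    (P : E → E → ℝ) (M : α → E → ℝ) (hsym : ∀ e f, P e f = P f e)
    (hM : ∀ e f, P e f = c e * (M (a e) f - M (b e) f))
    (hfix : ∀ (φ : α → ℝ) e,
      ∑ f, P e f * (c f * (φ (a f) - φ (b f))) = c e * (φ (a e) - φ (b e)))
    (z : E → ℝ) (hz : ∀ e, 0 ≤ z e) :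
    ∑ e, ∑ f, |P e f| * z e * z f ≤ 12 * Real.log (Fintype.card α) * ∑ e, z e ^ 2 := by
  classical
  set Z := ∑ e, z e ^ 2 with hZ
  have hZ0 : 0 ≤ Z := sum_nonneg fun e _ => sq_nonneg _
  rcases hZ0.eq_or_lt with h0 | hZpos
  · have : ∀ e, z e = 0 := fun e => pow_eq_zero_iff (two_ne_zero) |>.1
      ((sum_eq_zero_iff_of_nonneg fun e _ => sq_nonneg (z e)).1 h0.symm e (mem_univ e))
    simp [this, ← h0]
  have hn : (0 : ℝ) < Fintype.card α := Nat.cast_pos.2 Fintype.card_pos
  set A : E → α → ℝ := fun e x =>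
    c e * ((if x = a e then 1 else 0) - (if x = b e then 1 else 0)) with hAdef
  have hD : ∀ (φ : α → ℝ) e, ∑ x, A e x * φ x = c e * (φ (a e) - φ (b e)) := by
    intro φ e
    simp only [hAdef, mul_assoc, sub_mul, ← mul_sum, sum_sub_distrib, ite_mul, one_mul, zero_mul,
      sum_ite_eq', mem_univ, if_true]
  have hA : ∀ e, ∑ x, A e x = 0 := fun e => by simpa using hD (fun _ => 1) e
  have hA2 : ∀ e x y, x ≠ y → A e x * A e y ≤ 0 := by
    intro e x y hxy
    simp only [hAdef]
    have hc := mul_self_nonneg (c e)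
    split_ifs <;> first | nlinarith | (exfalso; apply hxy; simp [*])
  set μ : α → ℝ := fun x => ∑ e, z e ^ 2 *
    ((if x = a e then 1 else 0) + (if x = b e then 1 else 0)) + Z / Fintype.card α with hμdef
  have hμ1 : ∀ x, 0 ≤ ∑ e, z e ^ 2 *
      ((if x = a e then (1 : ℝ) else 0) + (if x = b e then 1 else 0)) := fun x =>
    sum_nonneg fun e _ => mul_nonneg (sq_nonneg _) (by split_ifs <;> norm_num)
  have hμ : ∀ x, 0 < μ x := fun x => by
    have := hμ1 x
    have := div_pos hZpos hn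
    simp only [hμdef]
    linarith
  have hμh : ∀ h : α → ℝ, ∑ x, μ x * h x =
      ∑ e, z e ^ 2 * (h (a e) + h (b e)) + Z / Fintype.card α * ∑ x, h x := by
    intro h
    simp only [hμdef, add_mul, sum_add_distrib, sum_mul, ← mul_sum]
    congr 1
    rw [sum_comm]
    refine sum_congr rfl fun e _ => ?_
    simp only [mul_assoc, add_mul, ← mul_sum, sum_add_distrib, ite_mul, one_mul, zero_mul,
      sum_ite_eq', mem_univ, if_true]
  have hμs : ∑ x, μ x = 3 * Z := by
    have := hμh fun _ => 1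
    simp only [mul_one, sum_const, card_univ, nsmul_eq_mul, ← sum_mul] at this
    rw [this, div_mul_cancel₀ _ hn.ne', ← hZ]
    ring
  set S := ∑ x, (∑ e, A e x ^ 2) / μ x with hS
  have hS0 : 0 ≤ S := sum_nonneg fun x _ => div_nonneg (sum_nonneg fun e _ => sq_nonneg _) (hμ x).le
  set δ := 1 / (S + 1) with hδdef
  have hδ : 0 < δ := by positivity
  have hδ1 : δ * S ≤ 1 := by
    rw [hδdef, one_div, inv_mul_le_iff₀ (by positivity)]
    linarith
  set T := locT A μ δ with hT
  set H : ℕ → α → α → ℝ := fun s u => (T ^ s) (fun x => if x = u then 1 / μ u else 0) with hH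
  set En : ℕ → α → ℝ := fun s u => ∑ e, (∑ y, A e y * √(H s u y)) ^ 2 with hEn
  have hEn0 : ∀ s u, 0 ≤ En s u := fun s u => sum_nonneg fun e _ => sq_nonneg _
  have hH0 : ∀ s u x, 0 ≤ H s u x := fun s u x =>
    locT_nonneg hμ hδ hδ1 hA2 s _ (fun x => by
      have := hμ u
      split_ifs
      · positivity
      · exact le_rfl) x
  have hcs : ∀ s u, (∑ e, |∑ y, A e y * H s u y| * z e) ^ 2 ≤ 2 * En s u := by
    intro s u
    simp only [hEn, hD]
    refine loc_cs a b c z (H s u) (hH0 s u) ?_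
    have h4 : ∑ x, μ x * H s u x = 1 := by
      simp only [hH, hT]
      rw [locT_pow_mass hμ hA, sum_eq_single u (fun x _ hx => by simp [hx]) (by simp)]
      have := (hμ u).ne'
      simp only [if_true]
      field_simp
    rw [hμh] at h4
    have : 0 ≤ Z / Fintype.card α * ∑ x, H s u x :=
      mul_nonneg (by positivity) (sum_nonneg fun x _ => hH0 s u x)
    linarith
  have hst : ∀ s t, ∑ e, ∑ f, |∑ x, A e x * (T ^ (s + t)) (fun x => A f x / μ x) x| * z e * z f ≤
      ∑ u, μ u * En s u + ∑ u, μ u * En t u := by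
    intro s t
    calc _ ≤ ∑ e, ∑ f, ∑ u, μ u * ((|∑ y, A e y * H s u y| * z e) *
            (|∑ y, A f y * H t u y| * z f)) := by
          refine sum_le_sum fun e _ => sum_le_sum fun f _ => ?_
          rw [hT, locT_split hμ, mul_assoc]
          refine (mul_le_mul_of_nonneg_right (abs_sum_le_sum_abs _ _)
            (mul_nonneg (hz e) (hz f))).trans (le_of_eq ?_)
          rw [sum_mul]
          refine sum_congr rfl fun u _ => ?_
          rw [abs_mul, abs_mul, abs_of_pos (hμ u)]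
          simp only [hH, hT]
          ring
      _ = ∑ u, μ u * ((∑ e, |∑ y, A e y * H s u y| * z e) *
            (∑ f, |∑ y, A f y * H t u y| * z f)) := by
          rw [sum_congr rfl fun e _ => sum_comm, sum_comm]
          refine sum_congr rfl fun u _ => ?_
          rw [sum_mul_sum, mul_sum]
          exact sum_congr rfl fun e _ => by rw [mul_sum]
      _ ≤ _ := by
          rw [← sum_add_distrib]
          refine sum_le_sum fun u _ => ?_
          rw [← mul_add]
          refine mul_le_mul_of_nonneg_left ?_ (hμ u).le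
          nlinarith [hcs s u, hcs t u, sq_nonneg ((∑ e, |∑ y, A e y * H s u y| * z e) -
            (∑ f, |∑ y, A f y * H t u y| * z f))]
  have htot : ∀ N, δ * ∑ s ∈ range N, ∑ u, μ u * En s u ≤ 3 * Z * Real.log (Fintype.card α) := by
    intro N
    rw [← hμs]
    exact locT_total hμ hδ hδ1 hA hA2 N
  have hstep : ∀ f, (fun x => M x f) - T (fun x => M x f) = δ • fun x => A f x / μ x := by
    intro f
    ext x
    simp only [Pi.sub_apply, Pi.smul_apply, smul_eq_mul, hT, locT_apply, hD, ← hM]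
    have h1 := hfix (fun y => if x = y then 1 else 0) f
    have h2 : ∑ e, A e x * P e f = A f x := by
      simp only [hAdef]
      rw [← h1]
      exact sum_congr rfl fun e _ => by rw [hsym, mul_comm]
    rw [h2]
    ring
  have hN : ∀ N, ∑ e, ∑ f, |P e f - ∑ x, A e x * (T ^ (N + N)) (fun x => M x f) x| * z e * z f ≤
      12 * Real.log (Fintype.card α) * Z := by
    intro N
    have h1 : ∀ e f, P e f - ∑ x, A e x * (T ^ (N + N)) (fun x => M x f) x =
        δ * ∑ s ∈ range N, (∑ x, A e x * (T ^ (s + s)) (fun x => A f x / μ x) x +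
          ∑ x, A e x * (T ^ (s + (s + 1))) (fun x => A f x / μ x) x) := by
      intro e f
      have h2 := locT_tele _ _ (hstep f) N
      rw [hM, ← hD (fun x => M x f), ← sum_sub_distrib]
      have h3 : ∀ x, A e x * M x f - A e x * (T ^ (N + N)) (fun x => M x f) x =
          δ * ∑ s ∈ range N, (A e x * (T ^ (s + s)) (fun x => A f x / μ x) x +
            A e x * (T ^ (s + (s + 1))) (fun x => A f x / μ x) x) := by
        intro x
        have h4 := congrFun h2 x
        simp only [Pi.sub_apply, Pi.smul_apply, smul_eq_mul, Finset.sum_apply, Pi.add_apply] at h4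
        rw [← mul_sub, hT, h4]
        simp only [← mul_add, ← mul_sum]
        ring
      rw [sum_congr rfl fun x _ => h3 x, ← mul_sum, sum_comm]
      simp only [sum_add_distrib]
    have hg0 : ∀ s, 0 ≤ ∑ u, μ u * En s u := fun s =>
      sum_nonneg fun u _ => mul_nonneg (hμ u).le (hEn0 s u)
    calc _ ≤ ∑ e, ∑ f, δ * ∑ s ∈ range N,
            (|∑ x, A e x * (T ^ (s + s)) (fun x => A f x / μ x) x| * z e * z f +
              |∑ x, A e x * (T ^ (s + (s + 1))) (fun x => A f x / μ x) x| * z e * z f) := by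
          refine sum_le_sum fun e _ => sum_le_sum fun f _ => ?_
          rw [h1, abs_mul, abs_of_pos hδ, mul_assoc, mul_assoc]
          refine mul_le_mul_of_nonneg_left ?_ hδ.le
          refine (mul_le_mul_of_nonneg_right (abs_sum_le_sum_abs _ _)
            (mul_nonneg (hz e) (hz f))).trans ?_
          rw [sum_mul]
          refine sum_le_sum fun s _ => ?_
          refine (mul_le_mul_of_nonneg_right (abs_add_le _ _)
            (mul_nonneg (hz e) (hz f))).trans (le_of_eq ?_)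
          ring
      _ = δ * ∑ s ∈ range N,
            (∑ e, ∑ f, |∑ x, A e x * (T ^ (s + s)) (fun x => A f x / μ x) x| * z e * z f +
            ∑ e, ∑ f, |∑ x, A e x * (T ^ (s + (s + 1))) (fun x => A f x / μ x) x| * z e * z f) := by
          simp only [← mul_sum]
          congr 1
          rw [sum_congr rfl fun e _ => sum_comm, sum_comm]
          simp only [sum_add_distrib]
      _ ≤ δ * ∑ s ∈ range N, (3 * ∑ u, μ u * En s u + ∑ u, μ u * En (s + 1) u) := by
          refine mul_le_mul_of_nonneg_left (sum_le_sum fun s _ => ?_) hδ.le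
          linarith [hst s s, hst s (s + 1)]
      _ ≤ _ := by
          have h5 := htot N
          have h6 := htot (N + 1)
          rw [sum_range_succ'] at h6
          rw [sum_add_distrib, ← mul_sum]
          nlinarith [mul_nonneg hδ.le (hg0 0)]
  have hlim : Tendsto (fun N => ∑ e, ∑ f,
      |P e f - ∑ x, A e x * (T ^ (N + N)) (fun x => M x f) x| * z e * z f) atTop
      (𝓝 (∑ e, ∑ f, |P e f - 0| * z e * z f)) := by
    refine tendsto_finsetSum _ fun e _ => tendsto_finsetSum _ fun f _ => ?_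
    refine Tendsto.mul_const _ (Tendsto.mul_const _ (Tendsto.abs (Tendsto.const_sub _ ?_)))
    exact (locT_decay hμ hδ hδ1 _ e).comp (tendsto_atTop_mono (fun N => Nat.le_add_right N N)
      tendsto_id)
  simp only [sub_zero] at hlim
  exact le_of_tendsto' hlim hN

end Vale.Agent.P249
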