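import Vale.Agent.P249.SSchur
import Vale.Agent.P249.SLoc
import Vale.Agent.P249.SElec
import Vale.Agent.Lib.Brouwer

/-! A weighted projection onto gradients, bounded on all three scales. -/

namespace Vale.Agent.P249

open Finset

theorem proj_fix (p : ℝ) (hp : 0 < p) {E : Type} [Fintype E] [Nonempty E] (ν : E → ℝ)
    (hν : ∀ e, 0 < ν e) (y : (E → ℝ) → E → ℝ) (hyc : ∀ e, Continuous fun t => y t e)
    (hxy : ∀ t e, Real.exp (t e) ≤ y t e)
    (hy1 : ∀ t e, ∑ f, Real.exp (t f) ^ 2 ≤ Fintype.card E * y t e ^ 2)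
    (hy2 : ∀ t, ∑ e, y t e ^ 2 ≤ 16 * ∑ e, Real.exp (t e) ^ 2) :
    ∃ t : E → ℝ, ∀ e, Real.exp (t e) ^ (p + 2) =
      ν e * (y t e / Real.sqrt (∑ f, Real.exp (t f) ^ 2)) ^ p := by
  set s : (E → ℝ) → ℝ := fun t => Real.sqrt (∑ f, Real.exp (t f) ^ 2) with hs
  have hS : ∀ t : E → ℝ, 0 < ∑ f, Real.exp (t f) ^ 2 := fun t =>
    sum_pos (fun f _ => by positivity) univ_nonempty
  have hs0 : ∀ t, 0 < s t := fun t => Real.sqrt_pos.2 (hS t)
  have hs2 : ∀ t, s t ^ 2 = ∑ f, Real.exp (t f) ^ 2 := fun t => Real.sq_sqrt (hS t).le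
  have hsc : Continuous s := by
    refine Continuous.sqrt (continuous_finsetSum _ fun f _ => ?_)
    fun_prop
  have hy0 : ∀ t e, 0 < y t e := fun t e => (Real.exp_pos _).trans_le (hxy t e)
  have hm1 : (1 : ℝ) ≤ Fintype.card E := by exact_mod_cast Fintype.card_pos
  have hlog : ∀ t e, |Real.log (y t e / s t)| ≤ 4 + Fintype.card E := by
    intro t e
    have hr : 0 < y t e / s t := div_pos (hy0 t e) (hs0 t)
    have h1 : y t e / s t ≤ 4 := by
      rw [div_le_iff₀ (hs0 t)]
      refine (abs_le_of_sq_le_sq' ?_ (by have := hs0 t; positivity)).2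
      have := single_le_sum (f := fun e => y t e ^ 2) (fun e _ => sq_nonneg _) (mem_univ e)
      have h2 := hy2 t
      rw [← hs2] at h2
      rw [mul_pow]; linarith
    have h2 : (y t e / s t)⁻¹ ≤ Fintype.card E := by
      rw [inv_div, div_le_iff₀ (hy0 t e)]
      refine (abs_le_of_sq_le_sq' ?_ (by have := hy0 t e; positivity)).2
      have h3 := hy1 t e
      rw [← hs2] at h3
      rw [mul_pow]
      have h4 : (Fintype.card E : ℝ) ≤ (Fintype.card E : ℝ) ^ 2 := by nlinarith
      exact h3.trans (mul_le_mul_of_nonneg_right h4 (sq_nonneg _))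
    have h3 := Real.log_le_sub_one_of_pos hr
    have h4 := Real.log_le_sub_one_of_pos (inv_pos.2 hr)
    rw [Real.log_inv] at h4
    rw [abs_le]
    constructor <;> linarith
  obtain ⟨t, ht⟩ := Vale.Agent.Lib.Brouwer.exists_fixed
    (fun (t : E → ℝ) e => (Real.log (ν e) + p * Real.log (y t e / s t)) / (p + 2))
    (continuous_pi fun e => (continuous_const.add (continuous_const.mul
      (((hyc e).div hsc fun t => (hs0 t).ne').log
        fun t => (div_pos (hy0 t e) (hs0 t)).ne'))).div_const _)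
    ((∑ e, |Real.log (ν e)| + p * (4 + Fintype.card E)) / (p + 2)) (fun t => by
      have h0 : 0 ≤ ∑ e, |Real.log (ν e)| := sum_nonneg fun e _ => abs_nonneg _
      refine (pi_norm_le_iff_of_nonneg (by positivity)).2 fun e => ?_
      rw [Real.norm_eq_abs, abs_div, abs_of_pos (by positivity : 0 < p + 2)]
      refine div_le_div_of_nonneg_right ((abs_add_le _ _).trans (add_le_add ?_ ?_)) (by positivity)
      · exact single_le_sum (f := fun e => |Real.log (ν e)|) (fun e _ => abs_nonneg _) (mem_univ e)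
      · rw [abs_mul, abs_of_pos hp]
        exact mul_le_mul_of_nonneg_left (hlog t e) hp.le)
  refine ⟨t, fun e => ?_⟩
  have h1 : t e * (p + 2) = Real.log (ν e) + Real.log (y t e / s t) * p := by
    have := congrFun ht e
    rw [div_eq_iff (by positivity)] at this
    linarith
  rw [← Real.exp_mul, h1, Real.exp_add, Real.exp_log (hν e),
    Real.rpow_def_of_pos (div_pos (hy0 t e) (hs0 t))]

theorem proj (p : ℝ) (hp : 0 < p) {α : Type} [MetricSpace α] [Fintype α] [Nonempty α] (Λ : ℝ)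
    (hΛ : 1 ≤ Λ) (hcard : Real.log (Fintype.card α) ≤ Λ) (ν : α × α → ℝ) (hν : ∀ e, 0 < ν e)
    (hν1 : ∑ e, ν e = 1) :
    ∃ (w : α × α → ℝ) (R : α × α → α × α → ℝ), (∀ e, 1 ≤ w e) ∧
      ∑ e, ν e * w e ^ (p + 2) ≤ 16 * 5 ^ (p + 2) ∧
      (∀ u : α × α → ℝ, ∃ V : α → ℝ, ∀ e, w e * ∑ f, R e f * u f = grad V e) ∧
      (∀ (φ : α → ℝ) e, ∑ f, R e f * (grad φ f / w f) = grad φ e / w e) ∧
      (∀ e, ∑ f, |R e f| ≤ 48 * Λ) ∧
      (∀ f, ∑ e, ν e * w e ^ (p + 2) * |R e f| ≤ 48 * Λ * (ν f * w f ^ (p + 2))) ∧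
      ∀ u : α × α → ℝ, ∑ e, ν e * w e ^ (p + 2) * (u e - ∑ f, R e f * u f) ^ 2 ≤
        ∑ e, ν e * w e ^ (p + 2) * u e ^ 2 := by
  obtain ⟨P, M, hPc, hPs, hM, hfix⟩ := elec (α := α)
  obtain ⟨y, hyc, hxy, hy1, hy2, hy3⟩ := schur (T := α × α → ℝ) (fun t e f => |P t e f|)
    (fun e f => (hPc e f).abs) (fun t e f => abs_nonneg _) (fun t e f => by rw [hPs]) (12 * Λ)
    (by positivity) (fun t z hz => (loc Prod.fst Prod.snd
      (fun e => Real.exp (t e) / dist e.1 e.2) (P t) (M t) (hPs t) (hM t) (hfix t) z hz).trans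
        (mul_le_mul_of_nonneg_right (by linarith) (sum_nonneg fun e _ => sq_nonneg _)))
    (fun t e => Real.exp (t e)) (fun e => by fun_prop) (fun t e => Real.exp_pos _)
  obtain ⟨t, ht⟩ := proj_fix p hp ν hν y hyc hxy hy1 hy2
  set s := Real.sqrt (∑ f, Real.exp (t f) ^ 2) with hs
  have hS : 0 < ∑ f, Real.exp (t f) ^ 2 := sum_pos (fun f _ => by positivity) univ_nonempty
  have hs0 : 0 < s := Real.sqrt_pos.2 hS
  have hs2 : s ^ 2 = ∑ f, Real.exp (t f) ^ 2 := Real.sq_sqrt hS.le
  have hy0 : ∀ e, 0 < y t e := fun e => (Real.exp_pos _).trans_le (hxy t e)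
  have hθ : ∀ e, ν e * (y t e / Real.exp (t e)) ^ (p + 2) = s ^ p * y t e ^ 2 := by
    intro e
    have h1 := hy0 e
    have h2 := hν e
    rw [Real.div_rpow h1.le (Real.exp_pos _).le, ht e, Real.div_rpow h1.le hs0.le,
      Real.rpow_add h1, Real.rpow_two]
    have : 0 < y t e ^ p := by positivity
    have : 0 < s ^ p := by positivity
    field_simp
  have hx2 : ∀ e, Real.exp (t e) ^ 2 ≤ ν e + y t e ^ 2 / s ^ 2 := by
    intro e
    by_contra hc
    have hc := not_le.1 hc
    have h0 := Real.exp_pos (t e)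
    have h1 := hy0 e
    have h2 := hν e
    have h3 : ν e < Real.exp (t e) ^ 2 := by
      have : 0 ≤ y t e ^ 2 / s ^ 2 := by positivity
      linarith
    have h4 : y t e / s ≤ Real.exp (t e) := by
      refine (abs_le_of_sq_le_sq' ?_ h0.le).2
      rw [div_pow]; linarith
    have h5 := Real.rpow_le_rpow (by positivity) h4 hp.le
    have h6 := ht e
    rw [Real.rpow_add h0, Real.rpow_two] at h6
    have h7 : 0 < Real.exp (t e) ^ p := by positivity
    nlinarith
  have hs5 : s ≤ 5 := by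
    refine (abs_le_of_sq_le_sq' ?_ (by norm_num)).2
    have h1 := sum_le_sum fun e (_ : e ∈ univ) => hx2 e
    rw [sum_add_distrib, hν1, ← sum_div, ← hs2] at h1
    have h2 := hy2 t
    rw [← hs2] at h2
    have h3 : (∑ e, y t e ^ 2) / s ^ 2 ≤ 16 := by rwa [div_le_iff₀ (by positivity)]
    linarith
  have hsp : 0 < s ^ p := by positivity
  refine ⟨fun e => y t e / Real.exp (t e), fun e f => P t e f * y t f / y t e,
    fun e => (one_le_div (Real.exp_pos _)).2 (hxy t e), ?_, fun u => ?_, fun φ e => ?_,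
    fun e => ?_, fun f => ?_, fun u => ?_⟩
  · simp only [hθ]
    rw [← mul_sum]
    have h2 := hy2 t
    rw [← hs2] at h2
    have h3 : s ^ (p + 2) ≤ 5 ^ (p + 2) := Real.rpow_le_rpow hs0.le hs5 (by linarith)
    rw [Real.rpow_add hs0, Real.rpow_two] at h3
    nlinarith
  · refine ⟨fun a => ∑ f, M t a f * (y t f * u f), fun e => ?_⟩
    unfold grad
    rw [← sum_sub_distrib, mul_sum, sum_div]
    refine sum_congr rfl fun f _ => ?_
    have h0 := Real.exp_pos (t e)
    have h1 := hy0 e
    simp only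
    rw [hM, div_eq_mul_inv _ (dist e.1 e.2), div_eq_mul_inv _ (dist e.1 e.2)]
    field_simp
  · have h0 := Real.exp_pos (t e)
    have h1 := hy0 e
    have h2 : ∑ f, P t e f * y t f / y t e * (grad φ f / (y t f / Real.exp (t f))) =
        (∑ f, P t e f * (Real.exp (t f) / dist f.1 f.2 * (φ f.1 - φ f.2))) / y t e := by
      rw [sum_div]
      refine sum_congr rfl fun f _ => ?_
      have h3 := Real.exp_pos (t f)
      have h4 := hy0 f
      unfold grad
      rw [div_eq_mul_inv _ (dist f.1 f.2), div_eq_mul_inv _ (dist f.1 f.2)]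
      field_simp
    simp only
    rw [h2, hfix]
    unfold grad
    rw [div_eq_mul_inv _ (dist e.1 e.2), div_eq_mul_inv _ (dist e.1 e.2)]
    field_simp
  · have h1 := hy0 e
    have h2 : ∑ f, |P t e f * y t f / y t e| = (∑ f, |P t e f| * y t f) / y t e := by
      rw [sum_div]
      refine sum_congr rfl fun f _ => ?_
      rw [abs_div, abs_mul, abs_of_pos h1, abs_of_pos (hy0 f)]
    rw [h2, div_le_iff₀ h1]
    linarith [hy3 t e]
  · simp only [hθ]
    have h2 : ∑ e, s ^ p * y t e ^ 2 * |P t e f * y t f / y t e| =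
        s ^ p * y t f * ∑ e, |P t f e| * y t e := by
      rw [mul_sum]
      refine sum_congr rfl fun e _ => ?_
      have h1 := hy0 e
      rw [abs_div, abs_mul, abs_of_pos h1, abs_of_pos (hy0 f), hPs t f e]
      field_simp
    rw [h2]
    refine (mul_le_mul_of_nonneg_left (hy3 t f) (mul_pos hsp (hy0 f)).le).trans (le_of_eq ?_)
    ring
  · simp only [hθ]
    set v : α × α → ℝ := fun e => y t e * u e with hv
    set q : α × α → ℝ := fun e => ∑ f, P t e f * v f with hq
    have h1 : ∀ e, s ^ p * y t e ^ 2 * (u e - ∑ f, P t e f * y t f / y t e * u f) ^ 2 =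
        s ^ p * (v e - q e) ^ 2 := by
      intro e
      have h0 := hy0 e
      have h2 : ∑ f, P t e f * y t f / y t e * u f = q e / y t e := by
        simp only [hq, hv]
        rw [sum_div]
        exact sum_congr rfl fun f _ => by ring
      rw [h2]
      simp only [hv]
      field_simp
    have h2 : ∀ e, q e = Real.exp (t e) / dist e.1 e.2 *
        (∑ g, M t e.1 g * v g - ∑ g, M t e.2 g * v g) := by
      intro e
      rw [← sum_sub_distrib, mul_sum]
      refine sum_congr rfl fun g _ => ?_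
      rw [hM]; ring
    have h3 : ∀ e, ∑ f, P t e f * q f = q e := by
      intro e
      have := hfix t (fun a => ∑ g, M t a g * v g) e
      simp only [← h2] at this
      exact this
    have h4 : ∑ e, q e * v e = ∑ e, q e ^ 2 := by
      calc ∑ e, q e * v e = ∑ e, ∑ f, P t e f * q f * v e := by
            refine sum_congr rfl fun e _ => ?_
            rw [← sum_mul, h3]
        _ = ∑ f, q f * ∑ e, P t f e * v e := by
            rw [sum_comm]
            refine sum_congr rfl fun f _ => ?_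
            rw [mul_sum]
            exact sum_congr rfl fun e _ => by rw [hPs t e f]; ring
        _ = _ := sum_congr rfl fun f _ => by rw [sq]
    have h5 : ∑ e, (v e - q e) ^ 2 = ∑ e, v e ^ 2 - 2 * ∑ e, q e * v e + ∑ e, q e ^ 2 := by
      rw [mul_sum, ← sum_sub_distrib, ← sum_add_distrib]
      exact sum_congr rfl fun e _ => by ring
    have h6 : 0 ≤ ∑ e, q e ^ 2 := sum_nonneg fun e _ => sq_nonneg _
    have h7 : ∑ e, s ^ p * y t e ^ 2 * u e ^ 2 = s ^ p * ∑ e, v e ^ 2 := by
      rw [mul_sum]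
      exact sum_congr rfl fun e _ => by simp only [hv]; ring
    simp only [h1]
    rw [h7, ← mul_sum]
    exact mul_le_mul_of_nonneg_left (by linarith) hsp.le

end Vale.Agent.P249
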