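import Vale.Agent.P249.SDefs

/-! A continuous Schur test vector for a nonnegative symmetric kernel. -/

namespace Vale.Agent.P249

open Finset

theorem schur_op {E : Type} [Fintype E] (N : E → E → ℝ) (hN0 : ∀ e f, 0 ≤ N e f)
    (hsym : ∀ e f, N e f = N f e) (κ : ℝ) (hκ : 0 < κ)
    (hq : ∀ z : E → ℝ, (∀ e, 0 ≤ z e) → ∑ e, ∑ f, N e f * z e * z f ≤ κ * ∑ e, z e ^ 2)
    (y : E → ℝ) (hy : ∀ e, 0 ≤ y e) :
    ∑ e, ((∑ f, N e f * y f) / (4 * κ)) ^ 2 ≤ 1 / 4 * ∑ e, y e ^ 2 := by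
  set u : E → ℝ := fun e => (∑ f, N e f * y f) / (2 * κ) with hu
  have hu0 : ∀ e, 0 ≤ u e := fun e =>
    div_nonneg (sum_nonneg fun f _ => mul_nonneg (hN0 e f) (hy f)) (by positivity)
  have h1 := hq (fun e => u e + y e) (fun e => add_nonneg (hu0 e) (hy e))
  have h2 : ∑ e, ∑ f, N e f * u e * y f = 2 * κ * ∑ e, u e ^ 2 := by
    rw [mul_sum]
    refine sum_congr rfl fun e _ => ?_
    have : ∑ f, N e f * u e * y f = u e * ∑ f, N e f * y f := by
      rw [mul_sum]; exact sum_congr rfl fun f _ => by ring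
    have e2 : ∑ f, N e f * y f = 2 * κ * u e := by simp only [hu]; field_simp
    rw [this, e2]; ring
  have h3 : ∑ e, ∑ f, N e f * y e * u f = 2 * κ * ∑ e, u e ^ 2 := by
    rw [← h2, sum_comm]
    exact sum_congr rfl fun e _ => sum_congr rfl fun f _ => by rw [hsym]; ring
  have h4 : ∑ e, ∑ f, N e f * u e * y f + ∑ e, ∑ f, N e f * y e * u f ≤
      ∑ e, ∑ f, N e f * (u e + y e) * (u f + y f) := by
    rw [← sum_add_distrib]
    refine sum_le_sum fun e _ => ?_
    rw [← sum_add_distrib]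
    refine sum_le_sum fun f _ => ?_
    have a1 := mul_nonneg (hN0 e f) (mul_nonneg (hu0 e) (hu0 f))
    have a2 := mul_nonneg (hN0 e f) (mul_nonneg (hy e) (hy f))
    nlinarith
  have h5 : ∑ e, (u e + y e) ^ 2 ≤ 2 * ∑ e, u e ^ 2 + 2 * ∑ e, y e ^ 2 := by
    rw [mul_sum, mul_sum, ← sum_add_distrib]
    exact sum_le_sum fun e _ => by nlinarith [sq_nonneg (u e - y e)]
  have h6 : ∑ e, u e ^ 2 ≤ ∑ e, y e ^ 2 := by
    have := mul_le_mul_of_nonneg_left h5 hκ.le
    refine le_of_mul_le_mul_left (a := 2 * κ) ?_ (by positivity)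
    linarith
  have h7 : ∑ e, ((∑ f, N e f * y f) / (4 * κ)) ^ 2 = 1 / 4 * ∑ e, u e ^ 2 := by
    rw [mul_sum]
    refine sum_congr rfl fun e _ => ?_
    simp only [hu]; field_simp; ring
  rw [h7]; linarith

theorem schur {E T : Type} [Fintype E] [Nonempty E] [TopologicalSpace T] (N : T → E → E → ℝ)
    (hN : ∀ e f, Continuous fun t => N t e f) (hN0 : ∀ t e f, 0 ≤ N t e f)
    (hsym : ∀ t e f, N t e f = N t f e) (κ : ℝ) (hκ : 0 < κ)
    (hq : ∀ t (z : E → ℝ), (∀ e, 0 ≤ z e) → ∑ e, ∑ f, N t e f * z e * z f ≤ κ * ∑ e, z e ^ 2)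
    (x : T → E → ℝ) (hx : ∀ e, Continuous fun t => x t e) (hx0 : ∀ t e, 0 < x t e) :
    ∃ y : T → E → ℝ, (∀ e, Continuous fun t => y t e) ∧ (∀ t e, x t e ≤ y t e) ∧
      (∀ t e, ∑ f, x t f ^ 2 ≤ Fintype.card E * y t e ^ 2) ∧
      (∀ t, ∑ e, y t e ^ 2 ≤ 16 * ∑ e, x t e ^ 2) ∧
      ∀ t e, ∑ f, N t e f * y t f ≤ 4 * κ * y t e := by
  set m := Fintype.card E with hm
  have hm0 : (0 : ℝ) < m := by exact_mod_cast Fintype.card_pos
  set r : T → ℝ := fun t => Real.sqrt ((∑ f, x t f ^ 2) / m) with hr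
  have hr0 : ∀ t, 0 ≤ r t := fun t => Real.sqrt_nonneg _
  have hr2 : ∀ t, m * r t ^ 2 = ∑ f, x t f ^ 2 := fun t => by
    simp only [hr]
    rw [Real.sq_sqrt (div_nonneg (sum_nonneg fun f _ => sq_nonneg _) hm0.le)]
    field_simp
  have hrc : Continuous r :=
    ((continuous_finsetSum _ fun f _ => (hx f).pow 2).div_const _).sqrt
  set y0 : T → E → ℝ := fun t e => x t e + r t with hy0
  have hy00 : ∀ t e, 0 ≤ y0 t e := fun t e => add_nonneg (hx0 t e).le (hr0 t)
  have hy0n : ∀ t, ∑ e, y0 t e ^ 2 ≤ 4 * ∑ e, x t e ^ 2 := fun t => by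
    have h1 : ∑ e, y0 t e ^ 2 ≤ ∑ e : E, (2 * x t e ^ 2 + 2 * r t ^ 2) :=
      sum_le_sum fun e _ => by simp only [hy0]; nlinarith [sq_nonneg (x t e - r t)]
    rw [sum_add_distrib, ← mul_sum, sum_const, card_univ, nsmul_eq_mul, ← hm] at h1
    have := hr2 t
    linarith
  let Y : ℕ → T → E → ℝ := fun j => Nat.rec y0
    (fun _ Yj t e => y0 t e + (∑ f, N t e f * Yj t f) / (4 * κ)) j
  have hY0 : Y 0 = y0 := rfl
  have hYs : ∀ j t e, Y (j + 1) t e = y0 t e + (∑ f, N t e f * Y j t f) / (4 * κ) :=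
    fun _ _ _ => rfl
  have hYc : ∀ j e, Continuous fun t => Y j t e := by
    intro j
    induction j with
    | zero => exact fun e => (hx e).add hrc
    | succ j ih =>
      intro e
      simp only [hYs]
      exact ((hx e).add hrc).add
        ((continuous_finsetSum _ fun f _ => (hN e f).mul (ih f)).div_const _)
  have hYl : ∀ j t e, y0 t e ≤ Y j t e := by
    intro j
    induction j with
    | zero => exact fun t e => le_rfl
    | succ j ih =>
      intro t e
      rw [hYs]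
      exact le_add_of_nonneg_right (div_nonneg (sum_nonneg fun f _ =>
        mul_nonneg (hN0 t e f) ((hy00 t f).trans (ih t f))) (by positivity))
  have hYn : ∀ j t, ∑ e, Y j t e ^ 2 ≤ 4 * ∑ e, y0 t e ^ 2 := by
    intro j t
    have h0 : 0 ≤ ∑ e, y0 t e ^ 2 := sum_nonneg fun e _ => sq_nonneg _
    induction j with
    | zero => rw [hY0]; linarith
    | succ j ih =>
      have h1 := schur_op (N t) (hN0 t) (hsym t) κ hκ (hq t) (Y j t)
        (fun e => (hy00 t e).trans (hYl j t e))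
      have h2 : ∑ e, Y (j + 1) t e ^ 2 ≤
          2 * ∑ e, y0 t e ^ 2 + 2 * ∑ e, ((∑ f, N t e f * Y j t f) / (4 * κ)) ^ 2 := by
        rw [mul_sum, mul_sum, ← sum_add_distrib]
        refine sum_le_sum fun e _ => ?_
        rw [hYs]
        nlinarith [sq_nonneg (y0 t e - (∑ f, N t e f * Y j t f) / (4 * κ))]
      linarith
  have hd : ∀ j t, (∀ e, 0 ≤ Y (j + 1) t e - Y j t e) ∧
      ∑ e, (Y (j + 1) t e - Y j t e) ^ 2 ≤ (1 / 4) ^ (j + 1) * ∑ e, y0 t e ^ 2 := by
    intro j t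
    induction j with
    | zero =>
      refine ⟨fun e => sub_nonneg.2 (hYl 1 t e), ?_⟩
      have h1 := schur_op (N t) (hN0 t) (hsym t) κ hκ (hq t) (y0 t) (hy00 t)
      simp only [hYs, hY0, add_sub_cancel_left, zero_add, pow_one]
      exact h1
    | succ j ih =>
      have e1 : ∀ e, Y (j + 1 + 1) t e - Y (j + 1) t e =
          (∑ f, N t e f * (Y (j + 1) t f - Y j t f)) / (4 * κ) := fun e => by
        rw [hYs (j + 1) t e, hYs j t e]
        simp only [mul_sub, sum_sub_distrib]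
        ring
      have h1 := schur_op (N t) (hN0 t) (hsym t) κ hκ (hq t) _ ih.1
      simp only [e1]
      refine ⟨fun e => div_nonneg (sum_nonneg fun f _ => mul_nonneg (hN0 t e f) (ih.1 f))
        (by positivity), h1.trans ?_⟩
      rw [pow_succ _ (j + 1)]
      linarith [ih.2]
  refine ⟨Y m, hYc m, fun t e => (le_add_of_nonneg_right (hr0 t)).trans (hYl m t e),
    fun t e => ?_, fun t => by linarith [hYn m t, hy0n t], fun t e => ?_⟩
  · rw [← hr2]
    refine mul_le_mul_of_nonneg_left (pow_le_pow_left₀ (hr0 t) ?_ 2) hm0.le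
    exact (le_add_of_nonneg_left (hx0 t e).le).trans (hYl m t e)
  · have h1 : (Y (m + 1) t e - Y m t e) ^ 2 ≤ r t ^ 2 := by
      have h2 : (Y (m + 1) t e - Y m t e) ^ 2 ≤ ∑ e, (Y (m + 1) t e - Y m t e) ^ 2 :=
        single_le_sum (f := fun e => (Y (m + 1) t e - Y m t e) ^ 2)
          (fun e _ => sq_nonneg _) (mem_univ e)
      have h3 : (m : ℝ) ≤ 4 ^ m := by
        exact_mod_cast (Nat.lt_pow_self (by norm_num : 1 < 4)).le
      have h4 : ((1 : ℝ) / 4) ^ (m + 1) * (4 * (m * r t ^ 2)) ≤ r t ^ 2 := by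
        have h5 : ((1 : ℝ) / 4) ^ (m + 1) * (4 * m) ≤ 1 := by
          rw [pow_succ, one_div_pow, div_mul_eq_mul_div, div_mul_eq_mul_div,
            div_le_one (by positivity)]
          linarith
        nlinarith [sq_nonneg (r t)]
      have h6 := hy0n t
      rw [← hr2] at h6
      exact h2.trans ((hd m t).2.trans ((mul_le_mul_of_nonneg_left h6 (by positivity)).trans h4))
    have h2 : Y (m + 1) t e - Y m t e ≤ r t := (abs_le_of_sq_le_sq' h1 (hr0 t)).2
    rw [hYs] at h2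
    have h3 : (∑ f, N t e f * Y m t f) / (4 * κ) ≤ Y m t e := by
      have := hx0 t e
      simp only [hy0] at h2
      linarith
    rw [div_le_iff₀ (by positivity)] at h3
    linarith

end Vale.Agent.P249
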