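import Vale.Agent.P249.SProj
import Vale.Agent.P249.SGeo
import Vale.Agent.P249.SInterp

/-! Soft level cut of the projected gradients: the three averaged errors. -/

namespace Vale.Agent.P249

open Finset Filter Topology

lemma stageA_tent_le (W s : ℕ) : tent W s ≤ 1 := by
  unfold tent
  rcases Nat.eq_zero_or_pos W with rfl | hW
  · simp
  · rw [div_le_one (by exact_mod_cast hW)]
    calc _ ≤ ∑ u ∈ range W, (1 : ℝ) := sum_le_sum fun u _ => by split_ifs <;> norm_num
      _ = W := by simp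

lemma stageA_tentA_le (p : ℝ) (hp : 0 ≤ p) (W : ℕ) : tentA p W ≤ 2 * W := by
  unfold tentA
  calc _ ≤ ∑ s ∈ range (2 * W), (1 : ℝ) := sum_le_sum fun s _ =>
        Real.rpow_le_one (tent_nonneg _ _) (stageA_tent_le _ _) hp
    _ = _ := by simp

lemma stageA_lev (h : ℝ) (hh : 0 < h) (t : ℝ) : ∃ j : ℕ, ∀ k, j ≤ k ↔ |t| ≤ h * 2 ^ k := by
  classical
  have hex : ∃ k : ℕ, |t| ≤ h * 2 ^ k := by
    obtain ⟨n, hn⟩ := pow_unbounded_of_one_lt (|t| / h) (by norm_num : (1 : ℝ) < 2)
    rw [div_lt_iff₀ hh] at hn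
    exact ⟨n, by linarith⟩
  refine ⟨Nat.find hex, fun k => ⟨fun hk => ?_, fun hk => Nat.find_min' hex hk⟩⟩
  exact (Nat.find_spec hex).trans
    (mul_le_mul_of_nonneg_left (pow_le_pow_right₀ (by norm_num) hk) hh.le)

lemma stageA_soft {h t : ℝ} {j : ℕ} (hj : ∀ k, j ≤ k ↔ |t| ≤ h * 2 ^ k) (W m : ℕ) :
    tent W (j - m) * t = (∑ v ∈ range W, (trunc h (m + W + v) t - trunc h (m + v) t)) / W := by
  unfold tent trunc
  rw [div_mul_eq_mul_div, sum_mul]
  congr 1
  refine sum_congr rfl fun v _ => ?_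
  simp only [← hj]
  split_ifs <;> first | ring1 | (exfalso; omega)

lemma stageA_sup {h t : ℝ} (hh : 0 < h) {j : ℕ} (hj : ∀ k, j ≤ k ↔ |t| ≤ h * 2 ^ k) (W m : ℕ) :
    |tent W (j - m) * t| ≤ 4 ^ W * (h * 2 ^ m) := by
  by_cases h1 : 2 * W ≤ j - m
  · rw [tent_big W _ h1, zero_mul, abs_zero]
    positivity
  · have h2 := (hj (m + 2 * W)).1 (by omega)
    rw [abs_mul, abs_of_nonneg (tent_nonneg _ _)]
    have e : h * 2 ^ (m + 2 * W) = 4 ^ W * (h * 2 ^ m) := by
      rw [pow_add, pow_mul]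
      norm_num
      ring
    rw [e] at h2
    exact (mul_le_of_le_one_left (abs_nonneg _) (stageA_tent_le _ _)).trans h2

lemma stageA_low {p C h t : ℝ} (hp : 1 < p) (hh : 0 < h)
    (hC : ∀ (h y : ℝ), 0 < h → 0 ≤ y → ∀ N : ℕ, ∑ k ∈ range N,
      (if h * 2 ^ k ≤ y then (h * 2 ^ k) ^ (p - 1) else 0) ≤ C * y ^ (p - 1))
    {j : ℕ} (hj : ∀ k, j ≤ k ↔ |t| ≤ h * 2 ^ k) (W N : ℕ) :
    ∑ m ∈ range N, (h * 2 ^ m) ^ (p - 1) * |tent W (j - m) * t| ≤ C * |t| ^ p := by
  have h1 := mul_le_mul_of_nonneg_right (hC h |t| hh (abs_nonneg t) N) (abs_nonneg t)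
  have e : C * |t| ^ (p - 1) * |t| = C * |t| ^ p := by
    rw [mul_assoc, ← Real.rpow_add_one' (abs_nonneg t) (by linarith), sub_add_cancel]
  rw [e, sum_mul] at h1
  refine le_trans (sum_le_sum fun m _ => ?_) h1
  by_cases h2 : j ≤ m
  · rw [Nat.sub_eq_zero_of_le h2, tent_zero, zero_mul, abs_zero, mul_zero]
    refine mul_nonneg ?_ (abs_nonneg t)
    split_ifs <;> positivity
  · rw [hj] at h2
    rw [if_pos (le_of_lt (not_le.1 h2)), abs_mul, abs_of_nonneg (tent_nonneg _ _)]
    exact mul_le_mul_of_nonneg_left (mul_le_of_le_one_left (abs_nonneg _) (stageA_tent_le _ _))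
      (by positivity)

lemma stageA_shift (a : ℕ → ℝ) (ha : ∀ k, 0 ≤ a k) (c n N : ℕ) (h : c + n ≤ N) :
    ∑ v ∈ range n, a (c + v) ≤ ∑ k ∈ range N, a k := by
  have := sum_Ico_eq_sum_range a c (c + n)
  rw [Nat.add_sub_cancel_left] at this
  rw [← this]
  refine sum_le_sum_of_subset_of_nonneg (fun k hk => ?_) fun k _ _ => ha k
  simp only [mem_Ico, mem_range] at hk ⊢
  omega

lemma stageA_window {p : ℝ} (hp : 1 < p) (a : ℕ → ℝ) (ha : ∀ k, 0 ≤ a k) (W m1 : ℕ) :
    ∑ m ∈ range m1, ((∑ v ∈ range W, (a (m + W + v) + a (m + v))) / W) ^ p ≤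
      2 ^ p * W / (W : ℝ) ^ p * (∑ k ∈ range (m1 + 2 * W), a k) ^ p := by
  set S := ∑ k ∈ range (m1 + 2 * W), a k with hS
  have hS0 : 0 ≤ S := sum_nonneg fun k _ => ha k
  set B : ℕ → ℝ := fun m => ∑ v ∈ range W, (a (m + W + v) + a (m + v)) with hB
  have hB0 : ∀ m, 0 ≤ B m := fun m => sum_nonneg fun v _ => add_nonneg (ha _) (ha _)
  have h1 : ∀ m ∈ range m1, B m ≤ 2 * S := by
    intro m hm
    have := mem_range.1 hm
    simp only [hB, sum_add_distrib]
    linarith [stageA_shift a ha (m + W) W (m1 + 2 * W) (by omega),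
      stageA_shift a ha m W (m1 + 2 * W) (by omega)]
  have h2 : ∑ m ∈ range m1, B m ≤ W * (2 * S) := by
    simp only [hB]
    rw [sum_comm]
    calc _ ≤ ∑ v ∈ range W, 2 * S := by
          refine sum_le_sum fun v hv => ?_
          have := mem_range.1 hv
          have k1 := stageA_shift a ha (W + v) m1 (m1 + 2 * W) (by omega)
          have k2 := stageA_shift a ha v m1 (m1 + 2 * W) (by omega)
          rw [sum_add_distrib]
          simp only [add_comm (W + v), ← add_assoc] at k1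
          simp only [add_comm v] at k2
          linarith
      _ = _ := by simp
  have hW0 : (0 : ℝ) ≤ W := Nat.cast_nonneg W
  calc _ ≤ ∑ m ∈ range m1, (2 * S) ^ (p - 1) * B m / (W : ℝ) ^ p := by
        refine sum_le_sum fun m hm => ?_
        rw [Real.div_rpow (hB0 m) hW0]
        refine div_le_div_of_nonneg_right ?_ (by positivity)
        have e : B m ^ p = B m ^ (p - 1) * B m := by
          rw [← Real.rpow_add_one' (hB0 m) (by linarith), sub_add_cancel]
        rw [e]
        exact mul_le_mul_of_nonneg_right (Real.rpow_le_rpow (hB0 m) (h1 m hm) (by linarith))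
          (hB0 m)
    _ ≤ (2 * S) ^ (p - 1) * (W * (2 * S)) / (W : ℝ) ^ p := by
        rw [← sum_div, ← mul_sum]
        exact div_le_div_of_nonneg_right (mul_le_mul_of_nonneg_left h2 (by positivity))
          (by positivity)
    _ = _ := by
        have e : (2 * S) ^ p = (2 * S) ^ (p - 1) * (2 * S) := by
          rw [← Real.rpow_add_one' (by positivity) (by linarith), sub_add_cancel]
        rw [Real.mul_rpow (by norm_num) hS0] at e
        rw [div_mul_eq_mul_div]
        congr 1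
        calc _ = (W : ℝ) * ((2 * S) ^ (p - 1) * (2 * S)) := by ring
          _ = _ := by rw [← e]; ring

lemma stageA_small {κ : Type} [Fintype κ] (a : κ → ℝ) :
    ∃ r : ℝ, 0 < r ∧ ∀ k, a k ≠ 0 → r < |a k| := by
  have h1 : ∀ᶠ r in 𝓝 (0 : ℝ), ∀ k, a k ≠ 0 → r < |a k| := by
    refine eventually_all.2 fun k => ?_
    by_cases hk : a k = 0
    · simp [hk]
    · exact (eventually_lt_nhds (abs_pos.2 hk)).mono fun r hr _ => hr
  obtain ⟨r, h2, h3⟩ := ((h1.filter_mono (nhdsWithin_le_nhds (s := Set.Ioi 0))).and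
    (self_mem_nhdsWithin (s := Set.Ioi (0 : ℝ)))).exists
  exact ⟨r, h3, h2⟩

lemma stageA_add_rpow {p : ℝ} (hp : 0 ≤ p) (a b : ℝ) :
    |a| ^ p ≤ 2 ^ p * (|b| ^ p + |a - b| ^ p) := by
  have h1 : |a| ≤ 2 * max |b| |a - b| := by
    have := abs_add_le b (a - b)
    rw [add_sub_cancel] at this
    linarith [le_max_left |b| |a - b|, le_max_right |b| |a - b|]
  have h2 := Real.rpow_le_rpow (abs_nonneg a) h1 hp
  rw [Real.mul_rpow (by norm_num) (le_max_of_le_left (abs_nonneg b))] at h2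
  refine h2.trans (mul_le_mul_of_nonneg_left ?_ (by positivity))
  have k1 : 0 ≤ |b| ^ p := by positivity
  have k2 : 0 ≤ |a - b| ^ p := by positivity
  rcases le_total |b| |a - b| with h | h
  · rw [max_eq_right h]
    linarith
  · rw [max_eq_left h]
    linarith

theorem stageA (p : ℝ) (hp : 1 < p) (hp2 : p ≠ 2) : ∃ C : ℝ, 0 < C ∧
    ∀ {α ι : Type} [MetricSpace α] [Fintype α] [Nonempty α] [Fintype ι] (F : ι → α → ℝ),
      (∀ x y, ∑ i, |F i x - F i y| ^ p = dist x y ^ p) → ∀ Λ : ℝ, 1 ≤ Λ →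
      Real.log (Fintype.card α) ≤ Λ → ∀ W : ℕ, 0 < W → Λ ^ |p - 2| ≤ (W : ℝ) ^ p →
      ∀ Γ : ℝ, 0 < Γ → ∀ ν : α × α → ℝ, (∀ e, 0 < ν e) → ∑ e, ν e = 1 →
      ∃ c : Cfg α, c.Ok p (tentA p W) ∧
        ∑ e, ν e * c.e1 p e ≤ C * W * Λ ^ |p - 2| / (W : ℝ) ^ p ∧
        ∑ e, ν e * c.e2 p e ≤ C * Λ ∧
        ∑ e, ν e * c.e3 p Γ e ≤ C * W * (Λ * 4 ^ W / Γ) ^ 2 := by
  have hp0 : 0 < p := by linarith
  obtain ⟨Ci, hCi, hI⟩ := interp p hp hp2
  obtain ⟨Cg, hCg, hgeo⟩ := geo_below (p - 1) (by linarith)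
  set Cw : ℝ := 16 * 5 ^ (p + 2) with hCw
  have hCw0 : 0 < Cw := by positivity
  set C1 : ℝ := 2 ^ p * Ci * 48 ^ |p - 2| * Cw with hC1
  have hC10 : 0 < C1 := by positivity
  set C2 : ℝ := 48 * Cg * Cw with hC2
  have hC20 : 0 < C2 := by positivity
  set C3 : ℝ := 48 ^ 2 * 2 ^ p * (2 * Cw + C1) with hC3
  have hC30 : 0 < C3 := by positivity
  refine ⟨C1 + C2 + C3, by positivity, ?_⟩
  intro α ι _ _ _ _ F hF Λ hΛ hcard W hW hΛW Γ hΓ ν hν hν1
  obtain ⟨w, R, hw1, hwC, hgrad, hfix, hrow, hcol, hL2⟩ := proj p hp0 Λ hΛ hcard ν hν hν1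
  have hw0 : ∀ e, 0 < w e := fun e => lt_of_lt_of_le one_pos (hw1 e)
  have hW' : (0 : ℝ) < W := Nat.cast_pos.2 hW
  set θ : α × α → ℝ := fun e => ν e * w e ^ (p + 2) with hθ
  have hθ0 : ∀ e, 0 ≤ θ e := fun e => by
    have := hν e
    have := hw0 e
    simp only [hθ]
    positivity
  have hθe : ∀ e, θ e = ν e * w e ^ 2 * w e ^ p := fun e => by
    simp only [hθ]
    rw [Real.rpow_add (hw0 e), Real.rpow_two]
    ring
  have hwp : ∀ e, 1 ≤ w e ^ p := fun e => Real.one_le_rpow (hw1 e) hp0.le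
  have hw2 : ∑ e, ν e * w e ^ 2 ≤ Cw := by
    refine le_trans (sum_le_sum fun e _ => ?_) hwC
    have := hθe e
    simp only [hθ] at this
    rw [this]
    exact le_mul_of_one_le_right (mul_nonneg (hν e).le (sq_nonneg _)) (hwp e)
  -- the normalised gradients
  have hg1 : ∀ e : α × α, e.1 ≠ e.2 → ∑ i, |grad (F i) e| ^ p = 1 := by
    intro e he
    have hd : 0 < dist e.1 e.2 := dist_pos.2 he
    simp only [grad, abs_div, abs_of_pos hd, Real.div_rpow (abs_nonneg _) hd.le]
    rw [← sum_div, hF, div_self (by positivity)]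
  have hg2 : ∀ e : α × α, ∑ i, |grad (F i) e| ^ p ≤ 1 := by
    intro e
    by_cases he : e.1 = e.2
    · simp [grad, he, Real.zero_rpow hp0.ne']
    · exact (hg1 e he).le
  set gh : ι → α × α → ℝ := fun i e => grad (F i) e / w e with hgh
  have hghp : ∀ i e, w e ^ p * |gh i e| ^ p = |grad (F i) e| ^ p := by
    intro i e
    rw [← Real.mul_rpow (hw0 e).le (abs_nonneg _)]
    simp only [hgh]
    rw [abs_div, abs_of_pos (hw0 e), mul_div_cancel₀ _ (hw0 e).ne']
  have hmass : ∑ i, ∑ e, θ e * |gh i e| ^ p ≤ Cw := by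
    rw [sum_comm]
    refine le_trans (sum_le_sum fun e _ => ?_) hw2
    simp only [hθe, mul_assoc _ (w e ^ p), hghp, ← mul_sum]
    exact mul_le_of_le_one_right (mul_nonneg (hν e).le (sq_nonneg _)) (hg2 e)
  obtain ⟨r, hr0, hr⟩ := stageA_small fun q : ι × (α × α) => gh q.1 q.2
  set h : ℝ := r / 2 ^ (2 * W) with hhdef
  have hh : 0 < h := by positivity
  choose j hj using fun i e => stageA_lev h hh (gh i e)
  set m1 := (univ : Finset (ι × (α × α))).sup fun q => j q.1 q.2 with hm1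
  have hj1 : ∀ i e, j i e ≤ m1 := fun i e =>
    le_sup (f := fun q : ι × (α × α) => j q.1 q.2) (mem_univ (i, e))
  have hj2 : ∀ i e, gh i e ≠ 0 → 2 * W ≤ j i e := by
    intro i e he
    by_contra hc
    have h1 := (hj i e (2 * W)).1 (by omega)
    have h2 := hr (i, e) he
    rw [hhdef, div_mul_cancel₀ _ (by positivity)] at h1
    linarith
  set u : ι → ℕ → α × α → ℝ := fun i m e => tent W (j i e - m) * gh i e with hu
  choose V hV using fun i m => hgrad (u i m)
  have hsum : ∀ f : ι → ℕ → ℝ, ∑ s : ι × Fin m1, f s.1 s.2 = ∑ i, ∑ m ∈ range m1, f i m := by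
    intro f
    rw [Fintype.sum_prod_type]
    exact sum_congr rfl fun i _ => Fin.sum_univ_eq_sum_range (f i) m1
  have hsig : ∀ e, ∑ i, ∑ m ∈ range m1, |w e * u i m e| ^ p =
      tentA p W * ∑ i, |grad (F i) e| ^ p := by
    intro e
    rw [mul_sum]
    refine sum_congr rfl fun i _ => ?_
    by_cases he : gh i e = 0
    · rw [← hghp, he]
      simp [hu, he, Real.zero_rpow hp0.ne']
    · rw [← tent_shift_sum p hp.le W (j i e) m1 (hj2 i e he) (hj1 i e), sum_mul]
      refine sum_congr rfl fun m _ => ?_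
      rw [← hghp, ← Real.mul_rpow (hw0 e).le (abs_nonneg _),
        ← Real.mul_rpow (tent_nonneg _ _) (mul_nonneg (hw0 e).le (abs_nonneg _))]
      simp only [hu]
      rw [abs_mul, abs_mul, abs_of_pos (hw0 e), abs_of_nonneg (tent_nonneg _ _)]
      congr 1
      ring
  -- first error
  set a : ι → α × α → ℕ → ℝ := fun i e k =>
    |trunc h k (gh i e) - ∑ f, R e f * trunc h k (gh i f)| with ha
  have ha0 : ∀ i e k, 0 ≤ a i e k := fun i e k => abs_nonneg _
  have hdiff : ∀ i m e, |grad (V i m) e - w e * u i m e| ≤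
      w e * ((∑ v ∈ range W, (a i e (m + W + v) + a i e (m + v))) / W) := by
    intro i m e
    rw [← hV, ← mul_sub, abs_mul, abs_of_pos (hw0 e)]
    refine mul_le_mul_of_nonneg_left ?_ (hw0 e).le
    have e1 : ∑ f, R e f * u i m f - u i m e = (∑ v ∈ range W,
        ((trunc h (m + v) (gh i e) - ∑ f, R e f * trunc h (m + v) (gh i f)) -
          (trunc h (m + W + v) (gh i e) - ∑ f, R e f * trunc h (m + W + v) (gh i f)))) / W := by
      simp only [hu, stageA_soft (hj i _)]
      simp only [← mul_div_assoc, ← sum_div, ← sub_div]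
      congr 1
      simp only [mul_sum]
      rw [sum_comm, ← sum_sub_distrib]
      refine sum_congr rfl fun v _ => ?_
      simp only [mul_sub, sum_sub_distrib]
      ring
    rw [e1, abs_div, abs_of_pos hW']
    refine div_le_div_of_nonneg_right ((abs_sum_le_sum_abs _ _).trans
      (sum_le_sum fun v _ => ?_)) hW'.le
    exact (abs_sub _ _).trans (add_comm _ _).le
  set E1 : α × α → ℝ := fun e => ∑ i, ∑ m ∈ range m1, |grad (V i m) e - w e * u i m e| ^ p
    with hE1
  have hE10 : ∀ e, 0 ≤ E1 e := fun e =>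
    sum_nonneg fun i _ => sum_nonneg fun m _ => by positivity
  have hX : ∑ e, ν e * w e ^ 2 * E1 e ≤ C1 * W * Λ ^ |p - 2| / (W : ℝ) ^ p := by
    have h1 : ∀ e, ν e * w e ^ 2 * E1 e ≤ ∑ i, 2 ^ p * W / (W : ℝ) ^ p *
        (θ e * (∑ k ∈ range (m1 + 2 * W), a i e k) ^ p) := by
      intro e
      simp only [hE1]
      rw [mul_sum]
      refine sum_le_sum fun i _ => ?_
      have h2 : ∑ m ∈ range m1, |grad (V i m) e - w e * u i m e| ^ p ≤
          w e ^ p * ∑ m ∈ range m1,
            ((∑ v ∈ range W, (a i e (m + W + v) + a i e (m + v))) / W) ^ p := by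
        rw [mul_sum]
        refine sum_le_sum fun m _ => ?_
        rw [← Real.mul_rpow (hw0 e).le (div_nonneg (sum_nonneg fun v _ =>
          add_nonneg (ha0 _ _ _) (ha0 _ _ _)) hW'.le)]
        exact Real.rpow_le_rpow (abs_nonneg _) (hdiff i m e) hp0.le
      have h3 := mul_le_mul_of_nonneg_left (stageA_window hp (a i e) (ha0 i e) W m1)
        (Real.rpow_nonneg (hw0 e).le p)
      have h4 := mul_le_mul_of_nonneg_left (h2.trans h3) (mul_nonneg (hν e).le (sq_nonneg (w e)))
      refine h4.trans (le_of_eq ?_)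
      rw [hθe]
      ring
    have h5 : ∀ i, ∑ e, θ e * (∑ k ∈ range (m1 + 2 * W), a i e k) ^ p ≤
        Ci * (48 * Λ) ^ |p - 2| * ∑ e, θ e * |gh i e| ^ p := fun i =>
      hI θ R (48 * Λ) hθ0 (by linarith) hrow hcol hL2 (gh i) (hfix (F i)) h hh _
    refine (sum_le_sum fun e _ => h1 e).trans ?_
    calc _ = 2 ^ p * W / (W : ℝ) ^ p *
            ∑ i, ∑ e, θ e * (∑ k ∈ range (m1 + 2 * W), a i e k) ^ p := by
          rw [sum_comm]
          simp only [← mul_sum]
      _ ≤ 2 ^ p * W / (W : ℝ) ^ p * (Ci * (48 * Λ) ^ |p - 2| * Cw) := by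
          refine mul_le_mul_of_nonneg_left ?_ (by positivity)
          refine (sum_le_sum fun i _ => h5 i).trans ?_
          rw [← mul_sum]
          exact mul_le_mul_of_nonneg_left hmass (by positivity)
      _ = _ := by
          rw [Real.mul_rpow (by norm_num) (by linarith), hC1]
          ring
  have hΛp : 0 ≤ Λ ^ |p - 2| := by positivity
  refine ⟨⟨ι × Fin m1, inferInstance, fun s => V s.1 s.2, fun s e => w e * u s.1 s.2 e,
    fun s => h * 2 ^ (s.2 : ℕ)⟩, ⟨fun s => by positivity, fun e he => ?_⟩, ?_, ?_, ?_⟩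
  · refine (hsum fun i m => |w e * u i m e| ^ p).trans ?_
    rw [hsig, hg1 e he, mul_one]
  · have e1 : ∀ e, ∑ s : ι × Fin m1, |grad (V s.1 s.2) e - w e * u s.1 s.2 e| ^ p = E1 e :=
      fun e => hsum fun i m => |grad (V i m) e - w e * u i m e| ^ p
    change ∑ e, ν e * ∑ s : ι × Fin m1, |grad (V s.1 s.2) e - w e * u s.1 s.2 e| ^ p ≤ _
    simp only [e1]
    refine le_trans (sum_le_sum fun e _ => ?_) (hX.trans ?_)
    · refine mul_le_mul_of_nonneg_right ?_ (hE10 e)
      exact le_mul_of_one_le_right (hν e).le (one_le_pow₀ (hw1 e))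
    · gcongr
      linarith
  · change ∑ e, ν e * ∑ s : ι × Fin m1,
      (h * 2 ^ (s.2 : ℕ)) ^ (p - 1) * |grad (V s.1 s.2) e| ≤ _
    have e1 : ∀ e, ∑ s : ι × Fin m1, (h * 2 ^ (s.2 : ℕ)) ^ (p - 1) * |grad (V s.1 s.2) e| =
        ∑ i, ∑ m ∈ range m1, (h * 2 ^ m) ^ (p - 1) * |grad (V i m) e| :=
      fun e => hsum fun i m => (h * 2 ^ m) ^ (p - 1) * |grad (V i m) e|
    simp only [e1]
    have h1 : ∀ i m, ∑ e, ν e * |grad (V i m) e| ≤ 48 * Λ * ∑ f, θ f * |u i m f| := by
      intro i m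
      calc _ ≤ ∑ e, ∑ f, θ e * |R e f| * |u i m f| := by
            refine sum_le_sum fun e _ => ?_
            rw [← hV, abs_mul, abs_of_pos (hw0 e), ← mul_assoc]
            have h2 : ν e * w e ≤ θ e := by
              rw [hθe, mul_assoc]
              refine mul_le_mul_of_nonneg_left ?_ (hν e).le
              nlinarith [hw1 e, hwp e, sq_nonneg (w e)]
            refine (mul_le_mul h2 (abs_sum_le_sum_abs _ _) (abs_nonneg _) (hθ0 e)).trans
              (le_of_eq ?_)
            rw [mul_sum]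
            exact sum_congr rfl fun f _ => by rw [abs_mul, mul_assoc (θ e)]
        _ ≤ _ := by
            rw [sum_comm, mul_sum]
            refine sum_le_sum fun f _ => ?_
            rw [← sum_mul, ← mul_assoc]
            exact mul_le_mul_of_nonneg_right (hcol f) (abs_nonneg _)
    calc _ = ∑ i, ∑ m ∈ range m1, (h * 2 ^ m) ^ (p - 1) * ∑ e, ν e * |grad (V i m) e| := by
          simp only [mul_sum]
          rw [sum_comm]
          refine sum_congr rfl fun i _ => ?_
          rw [sum_comm]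
          exact sum_congr rfl fun m _ => sum_congr rfl fun e _ => by ring
      _ ≤ ∑ i, ∑ m ∈ range m1, (h * 2 ^ m) ^ (p - 1) * (48 * Λ * ∑ f, θ f * |u i m f|) :=
          sum_le_sum fun i _ => sum_le_sum fun m _ =>
            mul_le_mul_of_nonneg_left (h1 i m) (by positivity)
      _ = 48 * Λ * ∑ i, ∑ f, θ f * ∑ m ∈ range m1, (h * 2 ^ m) ^ (p - 1) * |u i m f| := by
          simp only [mul_sum]
          refine sum_congr rfl fun i _ => ?_
          rw [sum_comm]
          exact sum_congr rfl fun m _ => sum_congr rfl fun e _ => by ring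
      _ ≤ 48 * Λ * ∑ i, ∑ f, θ f * (Cg * |gh i f| ^ p) := by
          refine mul_le_mul_of_nonneg_left (sum_le_sum fun i _ => sum_le_sum fun f _ =>
            mul_le_mul_of_nonneg_left ?_ (hθ0 f)) (by positivity)
          exact stageA_low hp hh hgeo (hj i f) W m1
      _ = 48 * Λ * Cg * ∑ i, ∑ f, θ f * |gh i f| ^ p := by
          simp only [mul_sum]
          exact sum_congr rfl fun m _ => sum_congr rfl fun e _ => by ring
      _ ≤ 48 * Λ * Cg * Cw := mul_le_mul_of_nonneg_left hmass (by positivity)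
      _ ≤ _ := by
          have : 48 * Λ * Cg * Cw = C2 * Λ := by rw [hC2]; ring
          rw [this]
          gcongr
          linarith
  · change ∑ e, ν e * ∑ s : ι × Fin m1,
      high p Γ (h * 2 ^ (s.2 : ℕ)) (grad (V s.1 s.2) e) ≤ _
    have e1 : ∀ e, ∑ s : ι × Fin m1, high p Γ (h * 2 ^ (s.2 : ℕ)) (grad (V s.1 s.2) e) =
        ∑ i, ∑ m ∈ range m1, high p Γ (h * 2 ^ m) (grad (V i m) e) :=
      fun e => hsum fun i m => high p Γ (h * 2 ^ m) (grad (V i m) e)
    simp only [e1]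
    set B : ℝ := 48 * (Λ * 4 ^ W / Γ) with hB
    have hB0 : 0 < B := by positivity
    have h1 : ∀ i m e, high p Γ (h * 2 ^ m) (grad (V i m) e) ≤ (B * w e) ^ 2 *
        (2 ^ p * (|w e * u i m e| ^ p + |grad (V i m) e - w e * u i m e| ^ p)) := by
      intro i m e
      unfold high
      split_ifs with hc
      · have h2 : |grad (V i m) e| ≤ w e * (48 * Λ * (4 ^ W * (h * 2 ^ m))) := by
          rw [← hV, abs_mul, abs_of_pos (hw0 e)]
          refine mul_le_mul_of_nonneg_left ((abs_sum_le_sum_abs _ _).trans ?_) (hw0 e).le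
          calc _ ≤ ∑ f, |R e f| * (4 ^ W * (h * 2 ^ m)) := sum_le_sum fun f _ => by
                rw [abs_mul]
                exact mul_le_mul_of_nonneg_left (stageA_sup hh (hj i f) W m) (abs_nonneg _)
            _ ≤ _ := by
                rw [← sum_mul]
                exact mul_le_mul_of_nonneg_right (hrow e) (by positivity)
        have h3 : 1 ≤ B * w e := by
          have h4 : Γ * (h * 2 ^ m) ≤ (B * w e * Γ) * (h * 2 ^ m) := by
            refine (hc.le.trans h2).trans (le_of_eq ?_)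
            rw [hB]
            field_simp
          have h5 := le_of_mul_le_mul_right h4 (by positivity)
          nlinarith
        exact (stageA_add_rpow hp0.le _ _).trans
          (le_mul_of_one_le_left (by positivity) (one_le_pow₀ h3))
      · positivity
    have h6 : ∀ e, ν e * ∑ i, ∑ m ∈ range m1, high p Γ (h * 2 ^ m) (grad (V i m) e) ≤
        B ^ 2 * 2 ^ p * (2 * W * (ν e * w e ^ 2) + ν e * w e ^ 2 * E1 e) := by
      intro e
      have h7 : ∑ i, ∑ m ∈ range m1, high p Γ (h * 2 ^ m) (grad (V i m) e) ≤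
          (B * w e) ^ 2 * (2 ^ p * (2 * W + E1 e)) := by
        refine (sum_le_sum fun i _ => sum_le_sum fun m _ => h1 i m e).trans ?_
        simp only [← mul_sum, sum_add_distrib]
        rw [hsig]
        have h8 : tentA p W * ∑ i, |grad (F i) e| ^ p ≤ 2 * W := by
          have := mul_le_mul (stageA_tentA_le p hp0.le W) (hg2 e)
            (sum_nonneg fun i _ => by positivity) (by positivity)
          linarith
        gcongr
      refine (mul_le_mul_of_nonneg_left h7 (hν e).le).trans (le_of_eq ?_)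
      ring
    have h9 : C1 * W * Λ ^ |p - 2| / (W : ℝ) ^ p ≤ C1 * W := by
      rw [mul_div_assoc]
      exact mul_le_of_le_one_right (by positivity) ((div_le_one (by positivity)).2 hΛW)
    refine (sum_le_sum fun e _ => h6 e).trans ?_
    calc _ ≤ B ^ 2 * 2 ^ p * (2 * W * Cw + C1 * W) := by
          rw [← mul_sum, sum_add_distrib, ← mul_sum]
          have := hX.trans h9
          gcongr
      _ = C3 * W * (Λ * 4 ^ W / Γ) ^ 2 := by
          rw [hB, hC3]
          ring
      _ ≤ _ := by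
          gcongr
          linarith

end Vale.Agent.P249
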