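import Vale.Agent.P249.Basic

/-! Soft Lipschitz truncation over windows of dyadic slope levels. -/

namespace Vale.Agent.P249

open Finset

/-- The tent profile. -/
noncomputable def tent (W s : ℕ) : ℝ :=
  (∑ u ∈ range W, if u < s ∧ s ≤ W + u then (1 : ℝ) else 0) / W

theorem tent_nonneg (W s : ℕ) : 0 ≤ tent W s := by
  unfold tent
  refine div_nonneg (sum_nonneg fun u _ => ?_) (Nat.cast_nonneg _)
  split_ifs <;> norm_num

theorem tent_zero (W : ℕ) : tent W 0 = 0 := by
  unfold tent
  simp

theorem tent_big (W s : ℕ) (hs : 2 * W ≤ s) : tent W s = 0 := by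
  unfold tent
  rw [sum_eq_zero, zero_div]
  intro u hu
  have := mem_range.1 hu
  rw [if_neg]
  omega

theorem tent_sum (W : ℕ) (hW : 0 < W) : ∑ s ∈ range (2 * W), tent W (s + 1) = W := by
  unfold tent
  rw [← sum_div, sum_comm]
  have : ∀ u ∈ range W, ∑ s ∈ range (2 * W),
      (if u < s + 1 ∧ s + 1 ≤ W + u then (1 : ℝ) else 0) = W := by
    intro u hu
    have hu' := mem_range.1 hu
    rw [← sum_filter]
    have : (range (2 * W)).filter (fun s => u < s + 1 ∧ s + 1 ≤ W + u) = Ico u (W + u) := by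
      ext s
      simp only [mem_filter, mem_range, mem_Ico]
      omega
    rw [this]
    simp
  rw [sum_congr rfl this]
  have hW' : (W : ℝ) ≠ 0 := by positivity
  simp only [sum_const, card_range, nsmul_eq_mul]
  field_simp

/-- The normalising constant. -/
noncomputable def tentA (p : ℝ) (W : ℕ) : ℝ := ∑ s ∈ range (2 * W), tent W (s + 1) ^ p

theorem tentA_ge (p : ℝ) (hp : 1 ≤ p) (W : ℕ) (hW : 0 < W) : 2 * W / 2 ^ p ≤ tentA p W := by
  have h := Real.rpow_sum_le_const_mul_sum_rpow_of_nonneg (range (2 * W))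
    (f := fun s => tent W (s + 1)) hp (fun s _ => tent_nonneg W _)
  rw [tent_sum W hW] at h
  simp only [card_range, Nat.cast_mul, Nat.cast_ofNat] at h
  have hW' : (0 : ℝ) < W := by positivity
  have e : (2 * (W : ℝ)) ^ (p - 1) = 2 ^ p * W ^ p / (2 * W) := by
    rw [Real.rpow_sub_one (by positivity), Real.mul_rpow (by norm_num) hW'.le]
  rw [e] at h
  have h2 : (0 : ℝ) < 2 ^ p := by positivity
  have h3 : (0 : ℝ) < (W : ℝ) ^ p := by positivity
  unfold tentA
  rw [div_le_iff₀ h2]
  rw [div_mul_eq_mul_div, le_div_iff₀ (by positivity)] at h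
  nlinarith

theorem tent_shift_sum (p : ℝ) (hp : 1 ≤ p) (W j m1 : ℕ) (h1 : 2 * W ≤ j) (h2 : j ≤ m1) :
    ∑ m ∈ range m1, tent W (j - m) ^ p = tentA p W := by
  have hp0 : p ≠ 0 := by linarith
  have e1 : ∑ m ∈ range m1, tent W (j - m) ^ p = ∑ m ∈ range j, tent W (j - m) ^ p := by
    symm
    refine sum_subset (range_subset_range.2 h2) fun m _ hm => ?_
    have : j - m = 0 := by
      simp only [mem_range, not_lt] at hm
      omega
    rw [this, tent_zero, Real.zero_rpow hp0]
  have e2 : ∑ m ∈ range j, tent W (j - m) ^ p = ∑ s ∈ range j, tent W (s + 1) ^ p := by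
    rw [← sum_range_reflect (fun s => tent W (s + 1) ^ p) j]
    refine sum_congr rfl fun m hm => ?_
    have := mem_range.1 hm
    congr 2
    omega
  rw [e1, e2]
  unfold tentA
  symm
  refine sum_subset (range_subset_range.2 h1) fun s _ hs => ?_
  simp only [mem_range, not_lt] at hs
  rw [tent_big W _ (by omega), Real.zero_rpow hp0]

/-- Error of one window, for abstract increments `t k` that equal `D` from level `j` on. -/
theorem window_err (W : ℕ) (hW : 0 < W) (h d : ℝ) (hh : 0 < h) (hd : 0 ≤ d) (t : ℕ → ℝ) (D : ℝ)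
    (j m : ℕ) (ht : ∀ k, |t k| ≤ 2 * (h * 2 ^ k) * d) (htj : ∀ k, j ≤ k → t k = D) :
    |(∑ u ∈ range W, (t (m + W + u) - t (m + u))) / W - tent W (j - m) * D| ≤
      if m < j then 8 / W * (h * 2 ^ (min j (m + 2 * W))) * d else 0 := by
  have hW' : (0 : ℝ) < W := by positivity
  set R : ℕ → ℝ := fun k => if k < j then t k else 0 with hR
  have e : (∑ u ∈ range W, (t (m + W + u) - t (m + u))) / W - tent W (j - m) * D =
      (∑ u ∈ range W, (R (m + W + u) - R (m + u))) / W := by
    unfold tent
    rw [div_mul_eq_mul_div, ← sub_div, sum_mul, ← sum_sub_distrib]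
    congr 1
    refine sum_congr rfl fun u hu => ?_
    have hu' := mem_range.1 hu
    simp only [hR]
    by_cases h1 : m + W + u < j
    · have h2 : m + u < j := by omega
      rw [if_pos h1, if_pos h2, if_neg (by omega)]
      ring
    · by_cases h2 : m + u < j
      · rw [if_neg h1, if_pos h2, if_pos (by omega), htj _ (by omega)]
        ring
      · rw [if_neg h1, if_neg h2, if_neg (by omega), htj _ (by omega), htj (m + u) (by omega)]
        ring
  rw [e]
  split_ifs with hmj
  · set y := h * 2 ^ (min j (m + 2 * W)) with hy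
    have hy0 : 0 ≤ y := by positivity
    have key : ∀ c, c + W ≤ m + 2 * W → ∑ u ∈ range W, |R (c + u)| ≤ 4 * y * d := by
      intro c hc
      have g := geom_below 1 le_rfl (h * 2 ^ c) (by positivity) y hy0
        ((range W).filter fun u => c + u < j) (by
          intro u hu
          simp only [mem_filter, mem_range] at hu
          rw [hy, mul_assoc, ← pow_add]
          have : c + u ≤ min j (m + 2 * W) := by omega
          exact mul_le_mul_of_nonneg_left (pow_le_pow_right₀ (by norm_num) this) hh.le)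
      simp only [Real.rpow_one] at g
      calc ∑ u ∈ range W, |R (c + u)|
          ≤ ∑ u ∈ range W, (if c + u < j then 2 * (h * 2 ^ c * 2 ^ u) * d else 0) := by
            refine sum_le_sum fun u _ => ?_
            simp only [hR]
            split_ifs
            · rw [mul_assoc h, ← pow_add]
              exact ht _
            · simp
        _ = 2 * (∑ u ∈ (range W).filter fun u => c + u < j, h * 2 ^ c * 2 ^ u) * d := by
            rw [← sum_filter, mul_sum, sum_mul]
        _ ≤ 4 * y * d := by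
            refine mul_le_mul_of_nonneg_right ?_ hd
            linarith
    rw [abs_div, abs_of_pos hW', div_le_iff₀ hW']
    have k1 := key (m + W) (by omega)
    have k2 := key m (by omega)
    calc |∑ u ∈ range W, (R (m + W + u) - R (m + u))|
        ≤ ∑ u ∈ range W, |R (m + W + u) - R (m + u)| := abs_sum_le_sum_abs _ _
      _ ≤ ∑ u ∈ range W, (|R (m + W + u)| + |R (m + u)|) :=
          sum_le_sum fun u _ => abs_sub _ _
      _ ≤ 8 * y * d := by rw [sum_add_distrib]; linarith
      _ = 8 / W * y * d * W := by field_simp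
  · rw [sum_eq_zero, zero_div, abs_zero]
    intro u _
    simp only [hR]
    rw [if_neg (by omega), if_neg (by omega)]
    ring

theorem window_err_sum (p : ℝ) (hp : 1 ≤ p) (W : ℕ) (hW : 0 < W) (h : ℝ) (hh : 0 < h)
    (j m1 : ℕ) :
    ∑ m ∈ range m1, (if m < j then (h * 2 ^ (min j (m + 2 * W))) ^ p else 0) ≤
      4 * W * (h * 2 ^ j) ^ p := by
  have hj0 : 0 ≤ (h * 2 ^ j) ^ p := Real.rpow_nonneg (by positivity) _
  have g := geom_below p hp (h * 2 ^ (2 * W)) (by positivity) (h * 2 ^ j) (by positivity)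
    ((range m1).filter fun m => m + 2 * W ≤ j) (by
      intro u hu
      simp only [mem_filter, mem_range] at hu
      rw [mul_assoc, ← pow_add]
      exact mul_le_mul_of_nonneg_left (pow_le_pow_right₀ (by norm_num) (by omega)) hh.le)
  have hc : (((range m1).filter fun m => m < j ∧ j < m + 2 * W).card : ℝ) ≤ 2 * W := by
    have : ((range m1).filter fun m => m < j ∧ j < m + 2 * W) ⊆ Ico (j - 2 * W) j := by
      intro m hm
      simp only [mem_filter, mem_range, mem_Ico] at hm ⊢
      omega
    have h2 := card_le_card this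
    rw [Nat.card_Ico] at h2
    have h3 : ((range m1).filter fun m => m < j ∧ j < m + 2 * W).card ≤ 2 * W := by omega
    exact_mod_cast h3
  have hW1 : (1 : ℝ) ≤ W := by exact_mod_cast hW
  calc ∑ m ∈ range m1, (if m < j then (h * 2 ^ (min j (m + 2 * W))) ^ p else 0)
      ≤ ∑ m ∈ range m1, ((if m + 2 * W ≤ j then (h * 2 ^ (2 * W) * 2 ^ m) ^ p else 0) +
          (if m < j ∧ j < m + 2 * W then (h * 2 ^ j) ^ p else 0)) := by
        refine sum_le_sum fun m _ => ?_
        by_cases h1 : m + 2 * W ≤ j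
        · rw [if_pos (by omega), if_pos h1, if_neg (by omega), min_eq_right h1, mul_assoc,
            ← pow_add, add_comm (2 * W) m, add_zero]
        · by_cases h2 : m < j
          · rw [if_pos h2, if_neg h1, if_pos ⟨h2, by omega⟩, min_eq_left (by omega), zero_add]
          · rw [if_neg h2, if_neg h1, if_neg (by omega), add_zero]
    _ = (∑ m ∈ (range m1).filter fun m => m + 2 * W ≤ j, (h * 2 ^ (2 * W) * 2 ^ m) ^ p) +
          (((range m1).filter fun m => m < j ∧ j < m + 2 * W).card : ℝ) * (h * 2 ^ j) ^ p := by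
        rw [sum_add_distrib, ← sum_filter, ← sum_filter, sum_const, nsmul_eq_mul]
    _ ≤ 2 * (h * 2 ^ j) ^ p + 2 * W * (h * 2 ^ j) ^ p := by
        have := mul_le_mul_of_nonneg_right hc hj0
        linarith
    _ ≤ 4 * W * (h * 2 ^ j) ^ p := by nlinarith

theorem level_exists (h : ℝ) (hh : 0 < h) (a b : ℝ) (ha : 0 ≤ a) (hb : 0 ≤ b) (p : ℝ)
    (hp : 1 ≤ p) (j0 m1 : ℕ) (hj : j0 ≤ m1) (ha1 : a ≤ h * 2 ^ m1) (hb1 : b ≤ h * 2 ^ m1) :
    ∃ j, j0 ≤ j ∧ j ≤ m1 ∧ a ≤ h * 2 ^ j ∧ b ≤ h * 2 ^ j ∧
      (h * 2 ^ j) ^ p ≤ 2 ^ p * (a ^ p + b ^ p) + (h * 2 ^ j0) ^ p := by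
  classical
  have hex : ∃ j, j0 ≤ j ∧ a ≤ h * 2 ^ j ∧ b ≤ h * 2 ^ j := ⟨m1, hj, ha1, hb1⟩
  have hs := Nat.find_spec hex
  have hle : Nat.find hex ≤ m1 := Nat.find_min' hex ⟨hj, ha1, hb1⟩
  refine ⟨Nat.find hex, hs.1, hle, hs.2.1, hs.2.2, ?_⟩
  have hp0 : (0 : ℝ) ≤ p := by linarith
  have a0 := Real.rpow_nonneg ha p
  have b0 := Real.rpow_nonneg hb p
  have t0 : (0 : ℝ) < 2 ^ p := by positivity
  have c0 : 0 ≤ (h * 2 ^ j0) ^ p := Real.rpow_nonneg (by positivity) _
  rcases eq_or_lt_of_le hs.1 with he | hlt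
  · rw [← he]
    nlinarith
  · obtain ⟨k, hk⟩ : ∃ k, Nat.find hex = k + 1 := ⟨Nat.find hex - 1, by omega⟩
    have hn := Nat.find_min hex (m := k) (by omega)
    rw [hk]
    have e : h * 2 ^ (k + 1) = 2 * (h * 2 ^ k) := by ring
    rw [e, Real.mul_rpow (by norm_num) (by positivity)]
    have hk0 : j0 ≤ k := by omega
    by_cases h1 : a ≤ h * 2 ^ k
    · have h2 : h * 2 ^ k ≤ b := by
        by_contra h3
        exact hn ⟨hk0, h1, le_of_lt (not_le.1 h3)⟩
      have := Real.rpow_le_rpow (by positivity) h2 hp0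
      nlinarith
    · have := Real.rpow_le_rpow (by positivity) (le_of_lt (not_le.1 h1)) hp0
      nlinarith

open Classical in
theorem windows {α ι : Type} [PseudoMetricSpace α] [Fintype α] [Fintype ι] (p : ℝ) (hp : 1 ≤ p)
    (F : ι → α → ℝ) (hd : ∀ x y, ∑ i, |F i x - F i y| ^ p = dist x y ^ p)
    (l : ι → α → ℝ) (hl0 : ∀ i x, 0 ≤ l i x)
    (hl : ∀ i x y, |F i x - F i y| ≤ (l i x + l i y) * dist x y)
    (M : ℝ) (hM0 : 0 ≤ M) (hM : ∀ x, ∑ i, l i x ^ p ≤ M) (W : ℕ) (hW : 0 < W) :
    ∃ (κ : Type) (_ : Fintype κ) (w : κ → ℝ) (g : κ → α → ℝ), (∀ k, 0 ≤ w k) ∧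
      (∀ k x y, |g k x - g k y| ≤ dist x y) ∧
      (∀ x, ∑ k, (if g k x ≠ 0 then w k else 0) ≤ (8 * 4 ^ W) ^ p * M) ∧
      ∀ x y, |(∑ k, w k * |g k x - g k y| ^ p) ^ (1 / p) - dist x y| ≤
        128 * (M + 1) ^ (1 / p) / W * dist x y := by
  have hp0 : (0 : ℝ) < p := by linarith
  have hW' : (0 : ℝ) < W := by positivity
  have hW1 : (1 : ℝ) ≤ W := by exact_mod_cast hW
  -- the lowest level
  set c : ℝ := (Fintype.card ι : ℝ) with hc
  have hc0 : 0 ≤ c := Nat.cast_nonneg _
  set h : ℝ := 1 / ((c + 1) * 2 ^ (2 * W)) with hh_def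
  have hh : 0 < h := by positivity
  have hlow : c * (h * 2 ^ (2 * W)) ^ p ≤ 1 := by
    have e : h * 2 ^ (2 * W) = 1 / (c + 1) := by
      rw [hh_def]
      field_simp
    rw [e]
    have h1 : (1 / (c + 1)) ^ p ≤ 1 / (c + 1) := by
      have := Real.rpow_le_rpow_of_exponent_ge (x := 1 / (c + 1)) (by positivity)
        (by rw [div_le_one (by positivity)]; linarith) hp
      simpa using this
    calc c * (1 / (c + 1)) ^ p ≤ c * (1 / (c + 1)) := mul_le_mul_of_nonneg_left h1 hc0
      _ ≤ 1 := by
        rw [mul_one_div, div_le_one (by positivity)]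
        linarith
  -- the highest level
  obtain ⟨m1, hm1, hm1'⟩ : ∃ m1 : ℕ, 2 * W ≤ m1 ∧ ∀ i x, l i x ≤ h * 2 ^ m1 := by
    obtain ⟨B, hB⟩ := (Set.finite_range fun q : ι × α => l q.1 q.2).bddAbove
    obtain ⟨n, hn⟩ := pow_unbounded_of_one_lt (B / h) (by norm_num : (1 : ℝ) < 2)
    refine ⟨max (2 * W) n, le_max_left _ _, fun i x => ?_⟩
    have h1 : l i x ≤ B := hB ⟨(i, x), rfl⟩
    have h2 : (2 : ℝ) ^ n ≤ 2 ^ (max (2 * W) n) :=
      pow_le_pow_right₀ (by norm_num) (le_max_right _ _)
    rw [div_lt_iff₀ hh] at hn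
    nlinarith
  -- the truncations
  have hT : ∀ i (k : ℕ), ∃ T : α → ℝ, (∀ x y, |T x - T y| ≤ 2 * (h * 2 ^ k) * dist x y) ∧
      ∀ x, l i x ≤ h * 2 ^ k → T x = F i x := by
    intro i k
    refine mcshane (F i) {x | l i x ≤ h * 2 ^ k} _ (by positivity) fun x hx y hy => ?_
    refine (hl i x y).trans (mul_le_mul_of_nonneg_right ?_ dist_nonneg)
    simp only [Set.mem_ofPred_eq] at hx hy
    linarith
  choose T hT1 hT2 using hT
  set A := tentA p W with hA
  have hAge : 2 * W / 2 ^ p ≤ A := tentA_ge p hp W hW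
  have h2p : (0 : ℝ) < 2 ^ p := by positivity
  have hA0 : 0 < A := lt_of_lt_of_le (by positivity) hAge
  set G : ι → ℕ → α → ℝ := fun i m x =>
    (∑ u ∈ range W, (T i (m + W + u) x - T i (m + u) x)) / W with hG
  set L : ℕ → ℝ := fun m => 4 * (h * 2 ^ (m + 2 * W)) with hL
  have hL0 : ∀ m, 0 < L m := fun m => by simp only [hL]; positivity
  have hGdiff : ∀ i m x y, G i m x - G i m y = (∑ u ∈ range W,
      ((T i (m + W + u) x - T i (m + W + u) y) - (T i (m + u) x - T i (m + u) y))) / W := by
    intro i m x y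
    simp only [hG]
    rw [← sub_div, ← sum_sub_distrib]
    congr 1
    exact sum_congr rfl fun u _ => by ring
  have hGlip : ∀ i m x y, |G i m x - G i m y| ≤ L m * dist x y := by
    intro i m x y
    rw [hGdiff, abs_div, abs_of_pos hW', div_le_iff₀ hW']
    have key : ∀ k, k ≤ m + 2 * W → |T i k x - T i k y| ≤ L m / 2 * dist x y := by
      intro k hk
      refine (hT1 i k x y).trans (mul_le_mul_of_nonneg_right ?_ dist_nonneg)
      simp only [hL]
      have : (2 : ℝ) ^ k ≤ 2 ^ (m + 2 * W) := pow_le_pow_right₀ (by norm_num) hk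
      nlinarith
    calc _ ≤ ∑ u ∈ range W, |(T i (m + W + u) x - T i (m + W + u) y) -
            (T i (m + u) x - T i (m + u) y)| := abs_sum_le_sum_abs _ _
      _ ≤ ∑ u ∈ range W, L m * dist x y := by
          refine sum_le_sum fun u hu => ?_
          have hu' := mem_range.1 hu
          have k1 := key (m + W + u) (by omega)
          have k2 := key (m + u) (by omega)
          have := abs_sub (T i (m + W + u) x - T i (m + W + u) y) (T i (m + u) x - T i (m + u) y)
          linarith
      _ = L m * dist x y * W := by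
          rw [sum_const, card_range, nsmul_eq_mul]
          ring
  have hGzero : ∀ i m x, l i x ≤ h * 2 ^ m → G i m x = 0 := by
    intro i m x hx
    simp only [hG]
    rw [sum_eq_zero, zero_div]
    intro u _
    have key : ∀ k, m ≤ k → T i k x = F i x := by
      intro k hk
      refine hT2 i k x (hx.trans ?_)
      exact mul_le_mul_of_nonneg_left (pow_le_pow_right₀ (by norm_num) hk) hh.le
    rw [key _ (by omega), key _ (by omega), sub_self]
  refine ⟨ι × Fin m1, inferInstance, fun k => L k.2 ^ p / A, fun k x => G k.1 k.2 x / L k.2,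
    fun k => by have := hL0 k.2; positivity, fun k x y => ?_, fun x => ?_, fun x y => ?_⟩
  · simp only
    rw [← sub_div, abs_div, abs_of_pos (hL0 _), div_le_iff₀ (hL0 _), mul_comm]
    exact hGlip _ _ _ _
  · rw [Fintype.sum_prod_type]
    have key : ∀ i, ∑ m : Fin m1, (if G i m x / L m ≠ 0 then L m ^ p / A else 0) ≤
        (8 * 4 ^ W) ^ p * l i x ^ p := by
      intro i
      rw [Fin.sum_univ_eq_sum_range (fun m => if G i m x / L m ≠ 0 then L m ^ p / A else 0) m1]
      have g := geom_below p hp h hh (l i x) (hl0 i x)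
        ((range m1).filter fun m => h * 2 ^ m ≤ l i x) (fun m hm => (mem_filter.1 hm).2)
      have eL : ∀ m, L m ^ p = (4 * 4 ^ W) ^ p * (h * 2 ^ m) ^ p := by
        intro m
        rw [← Real.mul_rpow (by positivity) (by positivity)]
        congr 1
        simp only [hL]
        rw [pow_add, pow_mul]
        norm_num
        ring
      have hlp := Real.rpow_nonneg (hl0 i x) p
      calc ∑ m ∈ range m1, (if G i m x / L m ≠ 0 then L m ^ p / A else 0)
          ≤ ∑ m ∈ range m1, (if h * 2 ^ m ≤ l i x then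
              (4 * 4 ^ W) ^ p / A * (h * 2 ^ m) ^ p else 0) := by
            refine sum_le_sum fun m _ => ?_
            by_cases h1 : h * 2 ^ m ≤ l i x
            · rw [if_pos h1, eL]
              split_ifs
              · apply le_of_eq
                ring
              · positivity
            · rw [if_neg h1, hGzero i m x (le_of_lt (not_le.1 h1))]
              simp
        _ = (4 * 4 ^ W) ^ p / A *
              ∑ m ∈ (range m1).filter fun m => h * 2 ^ m ≤ l i x, (h * 2 ^ m) ^ p := by
            rw [← sum_filter, mul_sum]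
        _ ≤ (4 * 4 ^ W) ^ p / A * (2 * l i x ^ p) :=
            mul_le_mul_of_nonneg_left g (by positivity)
        _ ≤ (8 * 4 ^ W) ^ p * l i x ^ p := by
            have e8 : ((8 : ℝ) * 4 ^ W) ^ p = 2 ^ p * (4 * 4 ^ W) ^ p := by
              rw [← Real.mul_rpow (by positivity) (by positivity)]
              congr 1
              ring
            have h4 : (0 : ℝ) < (4 * 4 ^ W) ^ p := by positivity
            have h5 : 2 / A ≤ 2 ^ p := by
              rw [div_le_iff₀ hA0]
              rw [div_le_iff₀ h2p] at hAge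
              nlinarith
            rw [e8]
            calc (4 * 4 ^ W) ^ p / A * (2 * l i x ^ p)
                = 2 / A * ((4 * 4 ^ W) ^ p * l i x ^ p) := by ring
              _ ≤ 2 ^ p * ((4 * 4 ^ W) ^ p * l i x ^ p) :=
                  mul_le_mul_of_nonneg_right h5 (by positivity)
              _ = _ := by ring
    calc _ ≤ ∑ i, (8 * 4 ^ W) ^ p * l i x ^ p := sum_le_sum fun i _ => key i
      _ = (8 * 4 ^ W) ^ p * ∑ i, l i x ^ p := by rw [mul_sum]
      _ ≤ _ := mul_le_mul_of_nonneg_left (hM x) (by positivity)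
  · have hj : ∀ i, ∃ j, 2 * W ≤ j ∧ j ≤ m1 ∧ l i x ≤ h * 2 ^ j ∧ l i y ≤ h * 2 ^ j ∧
        (h * 2 ^ j) ^ p ≤ 2 ^ p * (l i x ^ p + l i y ^ p) + (h * 2 ^ (2 * W)) ^ p := fun i =>
      level_exists h hh _ _ (hl0 i x) (hl0 i y) p hp _ m1 hm1 (hm1' i x) (hm1' i y)
    choose j hj1 hj2 hj3 hj4 hj5 using hj
    set a : ℝ := A ^ (1 / p) with ha
    have ha0 : 0 < a := by positivity
    have hap : a ^ p = A := by
      rw [ha, ← Real.rpow_mul hA0.le, one_div_mul_cancel hp0.ne', Real.rpow_one]
    set u : ι × Fin m1 → ℝ := fun k => (G k.1 k.2 x - G k.1 k.2 y) / a with hu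
    set v : ι × Fin m1 → ℝ := fun k => tent W (j k.1 - k.2) * (F k.1 x - F k.1 y) / a with hv
    have e1 : ∑ k : ι × Fin m1, L k.2 ^ p / A * |G k.1 k.2 x / L k.2 - G k.1 k.2 y / L k.2| ^ p =
        ∑ k, |u k| ^ p := by
      refine sum_congr rfl fun k _ => ?_
      simp only [hu]
      have := hL0 k.2
      rw [← sub_div, abs_div, abs_div, abs_of_pos this, abs_of_pos ha0,
        Real.div_rpow (abs_nonneg _) this.le, Real.div_rpow (abs_nonneg _) ha0.le, hap]
      have : 0 < L k.2 ^ p := by positivity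
      field_simp
    have e2 : (∑ k, |v k| ^ p) ^ (1 / p) = dist x y := by
      have : ∑ k, |v k| ^ p = dist x y ^ p := by
        rw [← hd, Fintype.sum_prod_type]
        refine sum_congr rfl fun i _ => ?_
        have e3 : ∀ m : Fin m1, |v (i, m)| ^ p = tent W (j i - m) ^ p * (|F i x - F i y| ^ p / A) := by
          intro m
          simp only [hv]
          rw [abs_div, abs_mul, abs_of_pos ha0, abs_of_nonneg (tent_nonneg _ _),
            Real.div_rpow (mul_nonneg (tent_nonneg _ _) (abs_nonneg _)) ha0.le,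
            Real.mul_rpow (tent_nonneg _ _) (abs_nonneg _), hap]
          ring
        rw [sum_congr rfl fun m _ => e3 m, ← sum_mul,
          Fin.sum_univ_eq_sum_range (fun m => tent W (j i - m) ^ p) m1,
          tent_shift_sum p hp W (j i) m1 (hj1 i) (hj2 i), ← hA]
        field_simp
      rw [this, ← Real.rpow_mul dist_nonneg, mul_one_div_cancel hp0.ne', Real.rpow_one]
    have main := abs_Lp_sub_le p hp u v
    rw [e2] at main
    simp only
    rw [e1]
    refine main.trans ?_
    have hd0 : 0 ≤ dist x y := dist_nonneg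
    have e4 : ∀ i, ∑ m : Fin m1, |u (i, m) - v (i, m)| ^ p ≤
        (8 / W * dist x y) ^ p / A * (4 * W * (h * 2 ^ j i) ^ p) := by
      intro i
      have e5 : ∀ m : ℕ, |(G i m x - G i m y) / a - tent W (j i - m) * (F i x - F i y) / a| ^ p ≤
          (8 / W * dist x y) ^ p / A *
            (if m < j i then (h * 2 ^ (min (j i) (m + 2 * W))) ^ p else 0) := by
        intro m
        have w1 := window_err W hW h (dist x y) hh hd0 (fun k => T i k x - T i k y)
          (F i x - F i y) (j i) m (fun k => hT1 i k x y) (fun k hk => by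
            have h2 : h * 2 ^ j i ≤ h * 2 ^ k :=
              mul_le_mul_of_nonneg_left (pow_le_pow_right₀ (by norm_num) hk) hh.le
            rw [hT2 i k x ((hj3 i).trans h2), hT2 i k y ((hj4 i).trans h2)])
        rw [← hGdiff] at w1
        rw [← sub_div, abs_div, abs_of_pos ha0, Real.div_rpow (abs_nonneg _) ha0.le, hap]
        have w2 := Real.rpow_le_rpow (abs_nonneg _) w1 hp0.le
        refine (div_le_div_of_nonneg_right w2 hA0.le).trans (le_of_eq ?_)
        split_ifs
        · rw [mul_right_comm, Real.mul_rpow (by positivity) (by positivity)]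
          ring
        · rw [Real.zero_rpow hp0.ne']
          ring
      calc ∑ m : Fin m1, |u (i, m) - v (i, m)| ^ p
          ≤ ∑ m : Fin m1, (8 / W * dist x y) ^ p / A *
            (if (m : ℕ) < j i then (h * 2 ^ (min (j i) (m + 2 * W))) ^ p else 0) :=
            sum_le_sum fun m _ => e5 m
        _ = (8 / W * dist x y) ^ p / A * ∑ m ∈ range m1,
            (if m < j i then (h * 2 ^ (min (j i) (m + 2 * W))) ^ p else 0) := by
            rw [← mul_sum, Fin.sum_univ_eq_sum_range
              (fun m => if m < j i then (h * 2 ^ (min (j i) (m + 2 * W))) ^ p else 0) m1]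
        _ ≤ _ := mul_le_mul_of_nonneg_left (window_err_sum p hp W hW h hh _ _) (by positivity)
    have h2p1 : (1 : ℝ) ≤ 2 ^ p := Real.one_le_rpow (by norm_num) hp0.le
    have e6 : ∑ i, (h * 2 ^ j i) ^ p ≤ 2 ^ p * (2 * (M + 1)) := by
      calc ∑ i, (h * 2 ^ j i) ^ p
          ≤ ∑ i, (2 ^ p * (l i x ^ p + l i y ^ p) + (h * 2 ^ (2 * W)) ^ p) :=
            sum_le_sum fun i _ => hj5 i
        _ = 2 ^ p * (∑ i, l i x ^ p + ∑ i, l i y ^ p) + c * (h * 2 ^ (2 * W)) ^ p := by
            rw [sum_add_distrib, ← mul_sum, sum_add_distrib, sum_const, nsmul_eq_mul, card_univ]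
        _ ≤ _ := by
            have := hM x
            have := hM y
            nlinarith
    have e7 : ∑ k, |u k - v k| ^ p ≤ (32 / W * dist x y) ^ p * (4 * (M + 1)) := by
      rw [Fintype.sum_prod_type]
      have h5 : 4 * W / A ≤ 2 * 2 ^ p := by
        rw [div_le_iff₀ hA0]
        rw [div_le_iff₀ h2p] at hAge
        nlinarith
      have e8 : (32 / W * dist x y) ^ p = (8 / W * dist x y) ^ p * 2 ^ p * 2 ^ p := by
        rw [← Real.mul_rpow (by positivity) (by positivity),
          ← Real.mul_rpow (by positivity) (by positivity)]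
        congr 1
        ring
      have h9 : 0 ≤ (8 / W * dist x y) ^ p := by positivity
      calc _ ≤ ∑ i, (8 / W * dist x y) ^ p / A * (4 * W * (h * 2 ^ j i) ^ p) :=
            sum_le_sum fun i _ => e4 i
        _ = (8 / W * dist x y) ^ p * (4 * W / A) * ∑ i, (h * 2 ^ j i) ^ p := by
            rw [mul_sum]
            exact sum_congr rfl fun i _ => by ring
        _ ≤ (8 / W * dist x y) ^ p * (2 * 2 ^ p) * (2 ^ p * (2 * (M + 1))) := by
            refine mul_le_mul (mul_le_mul_of_nonneg_left h5 h9) e6 ?_ (by positivity)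
            exact sum_nonneg fun i _ => by positivity
        _ = _ := by rw [e8]; ring
    have e9 := Real.rpow_le_rpow (sum_nonneg fun k _ => by positivity) e7
      (by positivity : (0 : ℝ) ≤ 1 / p)
    refine e9.trans ?_
    rw [Real.mul_rpow (by positivity) (by positivity), ← Real.rpow_mul (by positivity),
      mul_one_div_cancel hp0.ne', Real.rpow_one, Real.mul_rpow (by positivity) (by positivity)]
    have h4 : (4 : ℝ) ^ (1 / p) ≤ 4 := by
      have := Real.rpow_le_rpow_of_exponent_le (x := 4) (by norm_num)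
        (show 1 / p ≤ 1 by rw [div_le_one hp0]; exact hp)
      simpa using this
    have h6 : 0 ≤ (M + 1) ^ (1 / p) := by positivity
    calc 32 / W * dist x y * (4 ^ (1 / p) * (M + 1) ^ (1 / p))
        ≤ 32 / W * dist x y * (4 * (M + 1) ^ (1 / p)) :=
          mul_le_mul_of_nonneg_left (mul_le_mul_of_nonneg_right h4 h6) (by positivity)
      _ = _ := by ring

end Vale.Agent.P249
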